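import Mathlib

/-! Module D: deterministic chaining along the times at which `τ` passes dyadic thresholds. -/

namespace Vale.Agent.P262

open Finset

/-- The first time `c ≤ x` with `θ < τ c`, or `x`. -/
noncomputable def firstPast (τ : ℕ → ℝ) (x : ℕ) (θ : ℝ) : ℕ :=
  open Classical in Nat.find (⟨x, Or.inr le_rfl⟩ : ∃ c, θ < τ c ∨ x ≤ c)

lemma firstPast_le (τ : ℕ → ℝ) {x : ℕ} {θ : ℝ} {t : ℕ} (h : θ < τ t) :
    firstPast τ x θ ≤ t := by
  classical
  exact Nat.find_min' _ (Or.inl h)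

lemma firstPast_le_end (τ : ℕ → ℝ) (x : ℕ) (θ : ℝ) : firstPast τ x θ ≤ x := by
  classical
  exact Nat.find_min' _ (Or.inr le_rfl)

lemma lt_at_firstPast (τ : ℕ → ℝ) {x : ℕ} {θ : ℝ} {t : ℕ} (htx : t ≤ x) (h : θ < τ t) :
    θ < τ (firstPast τ x θ) := by
  classical
  have hs : θ < τ (firstPast τ x θ) ∨ x ≤ firstPast τ x θ :=
    Nat.find_spec (⟨x, Or.inr le_rfl⟩ : ∃ c, θ < τ c ∨ x ≤ c)
  rcases hs with hs | hs
  · exact hs
  · have := firstPast_le τ (x := x) h
    rwa [show firstPast τ x θ = t by omega]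

lemma le_of_lt_firstPast (τ : ℕ → ℝ) {x : ℕ} {θ : ℝ} {c : ℕ} (h : c < firstPast τ x θ) :
    τ c ≤ θ := by
  by_contra hc
  have := firstPast_le τ (x := x) (not_le.1 hc)
  omega

lemma firstPast_mono (τ : ℕ → ℝ) {x : ℕ} {θ θ' : ℝ} (h : θ ≤ θ') :
    firstPast τ x θ ≤ firstPast τ x θ' := by
  classical
  exact Nat.find_mono fun c hc => hc.imp_left fun hc => lt_of_le_of_lt h hc

/-- The threshold `τ₀ + k S / 2^i`, with `S = τ₀ 2^m`. -/
noncomputable def gridPt (τ₀ : ℝ) (m i k : ℕ) : ℝ :=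
  τ₀ + (k : ℝ) * (τ₀ * 2 ^ m) / 2 ^ i

/-- The pairs of times used by the chaining: `none` is the jump to the first time past `τ₀`,
`some (i, k)` joins the start and the middle of the cell `k` of generation `i`. -/
noncomputable def chainPair (τ : ℕ → ℝ) (τ₀ : ℝ) (x m : ℕ) : Option (ℕ × ℕ) → ℕ × ℕ
  | none => (firstPast τ x τ₀ - 1, firstPast τ x τ₀)
  | some (i, k) => (firstPast τ x (gridPt τ₀ m (i + 1) (2 * k)),
      firstPast τ x (gridPt τ₀ m (i + 1) (2 * k + 1)))

/-- The variance budget of a pair. -/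
noncomputable def chainVar (τ₀ : ℝ) (m : ℕ) : Option (ℕ × ℕ) → ℝ
  | none => τ₀ + τ₀ * 2 ^ m
  | some (i, _) => τ₀ * 2 ^ m / 2 ^ i

/-- The tail exponent of a pair. -/
def chainLam (L : ℝ) : Option (ℕ × ℕ) → ℝ
  | none => L
  | some (i, _) => L + 2 * ((i : ℝ) + 1)

lemma lam_le_geom {L : ℝ} (hL : 8 ≤ L) (i : ℕ) : L + 2 * (i : ℝ) ≤ L * (5 / 4) ^ i := by
  induction i with
  | zero => simp
  | succ i ih =>
    have hi : (0 : ℝ) ≤ i := Nat.cast_nonneg i
    rw [pow_succ]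
    push_cast
    nlinarith

lemma chain_step_size {L s2 S : ℝ} (hL : 8 ≤ L) (hs : 0 ≤ s2) (hS : 0 ≤ S) (i : ℕ) :
    2 * Real.sqrt (20 * (L + 2 * ((i : ℝ) + 1)) * (s2 * (S / 2 ^ i))) ≤
      10 * Real.sqrt (L * s2 * S) * (4 / 5) ^ i := by
  have hL0 : (0 : ℝ) ≤ L := by linarith
  have h1 : L + 2 * ((i : ℝ) + 1) ≤ L * (5 / 4) ^ (i + 1) := by
    simpa using lam_le_geom hL (i + 1)
  have h2 : 20 * (L + 2 * ((i : ℝ) + 1)) * (s2 * (S / 2 ^ i)) ≤
      25 * (L * s2 * S) * ((4 / 5) ^ i) ^ 2 := by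
    have h3 : (5 / 4 : ℝ) ^ i / 2 ^ i ≤ ((4 / 5) ^ i) ^ 2 := by
      rw [← div_pow, ← pow_mul, mul_comm i 2, pow_mul]
      exact pow_le_pow_left₀ (by norm_num) (by norm_num) i
    calc 20 * (L + 2 * ((i : ℝ) + 1)) * (s2 * (S / 2 ^ i))
        ≤ 20 * (L * (5 / 4) ^ (i + 1)) * (s2 * (S / 2 ^ i)) := by gcongr
      _ = 25 * (L * s2 * S) * ((5 / 4 : ℝ) ^ i / 2 ^ i) := by rw [pow_succ]; ring
      _ ≤ 25 * (L * s2 * S) * ((4 / 5) ^ i) ^ 2 := by gcongr
  refine (mul_le_mul_of_nonneg_left (Real.sqrt_le_sqrt h2) (by norm_num)).trans (le_of_eq ?_)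
  rw [Real.sqrt_mul (by positivity), Real.sqrt_mul (by norm_num : (0 : ℝ) ≤ 25),
    Real.sqrt_sq (by positivity), show (25 : ℝ) = 5 ^ 2 by norm_num,
    Real.sqrt_sq (by norm_num)]
  ring

/-- The bound at time `t` from the bounds on the pairs. -/
lemma chain_bound (τ z : ℕ → ℝ) (τ₀ R L s2 : ℝ) (x M N : ℕ) (hxN : x ≤ N) (hτ₀ : 0 < τ₀)
    (hR : 0 ≤ R) (hL : 8 ≤ L) (hs : 0 ≤ s2)
    (hmono : ∀ c c', c ≤ c' → c' ≤ x → τ c ≤ τ c')
    (hτ0' : ∀ c, c ≤ x → 0 ≤ τ c)
    (hM : ∀ c, c ≤ x → τ c ≤ τ₀ + τ₀ * 2 ^ M)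
    (hz0 : z 0 = 0)
    (hsmall : ∀ c, c ≤ x → τ c ≤ τ₀ → |z c| ≤ R * Real.sqrt τ₀)
    (hres : ∀ c c', c ≤ c' → c' ≤ x →
      (z c' - z c) ^ 2 ≤ 9 / 4 * (N : ℝ) * (s2 * (τ c' - τ c)))
    (hev : ∀ m, m ≤ M → ∀ o : Option (ℕ × ℕ), (∀ q ∈ o, q.1 < N ∧ q.2 < 2 ^ q.1) →
      ∀ c c', chainPair τ τ₀ x m o = (c, c') → c < c' → c' ≤ x → τ₀ < τ (c + 1) →
        τ c' - τ c ≤ chainVar τ₀ m o →
        |z c' - z c| ≤ 2 * Real.sqrt (20 * chainLam L o * (s2 * chainVar τ₀ m o)))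
    {t : ℕ} (htx : t ≤ x) :
    z t ^ 2 ≤ 2 * R ^ 2 * τ₀ + 16000 * (L * s2 * (τ t + τ₀)) := by
  classical
  have hL0 : (0 : ℝ) ≤ L := by linarith
  have htt := hτ0' t htx
  by_cases ht0 : τ t ≤ τ₀
  · have h := pow_le_pow_left₀ (abs_nonneg _) (hsmall t htx ht0) 2
    rw [sq_abs, mul_pow, Real.sq_sqrt hτ₀.le] at h
    have : (0 : ℝ) ≤ L * s2 * (τ t + τ₀) := by positivity
    have : (0 : ℝ) ≤ R ^ 2 * τ₀ := by positivity
    linarith
  rw [not_le] at ht0
  -- the scale
  have hex : ∃ m, τ t ≤ τ₀ + τ₀ * 2 ^ m := ⟨M, hM t htx⟩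
  set m := Nat.find hex with hm
  have hmM : m ≤ M := Nat.find_min' hex (hM t htx)
  have hmt : τ t ≤ τ₀ + τ₀ * 2 ^ m := Nat.find_spec hex
  set S := τ₀ * 2 ^ m with hSdef
  have hS0 : 0 < S := by positivity
  have hST : τ₀ + S ≤ 2 * (τ t + τ₀) := by
    rcases Nat.eq_zero_or_pos m with hm0 | hm0
    · rw [hSdef, hm0]; linarith
    · have := Nat.find_min hex (m := m - 1) (by omega)
      rw [not_le] at this
      have e : S = 2 * (τ₀ * 2 ^ (m - 1)) := by
        rw [hSdef, show m = (m - 1) + 1 by omega, pow_succ]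
        simp only [Nat.add_sub_cancel]
        ring
      linarith
  -- the cell of `τ t` in every generation
  have cells : ∀ i, ∃ k, k < 2 ^ i ∧ gridPt τ₀ m i k < τ t ∧ τ t ≤ gridPt τ₀ m i (k + 1) := by
    intro i
    induction i with
    | zero => exact ⟨0, by simp, by simpa [gridPt] using ht0, by simpa [gridPt] using hmt⟩
    | succ i ih =>
      obtain ⟨k, hk, h1, h2⟩ := ih
      have e1 : gridPt τ₀ m (i + 1) (2 * k) = gridPt τ₀ m i k := by
        simp only [gridPt, pow_succ]; push_cast; field_simp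
      have e2 : gridPt τ₀ m (i + 1) (2 * k + 1 + 1) = gridPt τ₀ m i (k + 1) := by
        simp only [gridPt, pow_succ]; push_cast; field_simp; ring
      have hk2 : 2 ^ (i + 1) = 2 * 2 ^ i := by rw [pow_succ]; ring
      by_cases hmid : gridPt τ₀ m (i + 1) (2 * k + 1) < τ t
      · exact ⟨2 * k + 1, by omega, hmid, by rw [e2]; exact h2⟩
      · exact ⟨2 * k, by omega, by rw [e1]; exact h1, not_lt.1 hmid⟩
  choose k hk hlo hhi using cells
  have kpar : ∀ i, gridPt τ₀ m (i + 1) (k (i + 1)) = gridPt τ₀ m i (k i) ∨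
      k (i + 1) = 2 * k i + 1 := by
    intro i
    have hp : (0 : ℝ) < 2 ^ (i + 1) := by positivity
    have a1 : gridPt τ₀ m i (k i) = gridPt τ₀ m (i + 1) (2 * k i) := by
      simp only [gridPt, pow_succ]; push_cast; field_simp
    have a2 : gridPt τ₀ m i (k i + 1) = gridPt τ₀ m (i + 1) (2 * k i + 2) := by
      simp only [gridPt, pow_succ]; push_cast; field_simp
    have mono : ∀ p q : ℕ, gridPt τ₀ m (i + 1) p < gridPt τ₀ m (i + 1) q → p < q := by
      intro p q hpq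
      by_contra hc
      have hc' : (q : ℝ) ≤ p := Nat.cast_le.2 (not_lt.1 hc)
      simp only [gridPt] at hpq
      have : (q : ℝ) * (τ₀ * 2 ^ m) / 2 ^ (i + 1) ≤ (p : ℝ) * (τ₀ * 2 ^ m) / 2 ^ (i + 1) := by
        gcongr
      linarith
    have h1 := mono (k (i + 1)) (2 * k i + 2) (by
      rw [← a2]; exact (hlo (i + 1)).trans_le (hhi i))
    have h2 := mono (2 * k i) (k (i + 1) + 1) (by
      rw [← a1]; exact (hlo i).trans_le (hhi (i + 1)))
    by_cases he : k (i + 1) = 2 * k i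
    · exact Or.inl (by rw [he, a1])
    · exact Or.inr (by omega)
  set P : ℕ → ℕ := fun i => firstPast τ x (gridPt τ₀ m i (k i)) with hP
  have hPt : ∀ i, P i ≤ t := fun i => firstPast_le τ (hlo i)
  have hPlow : ∀ i, gridPt τ₀ m i (k i) < τ (P i) := fun i => lt_at_firstPast τ htx (hlo i)
  have hge : ∀ i p, τ₀ ≤ gridPt τ₀ m i p := by
    intro i p
    simp only [gridPt]
    have : (0 : ℝ) ≤ (p : ℝ) * (τ₀ * 2 ^ m) / 2 ^ i := by positivity
    linarith
  set A := Real.sqrt (L * s2 * S) with hA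
  have hA0 : 0 ≤ A := Real.sqrt_nonneg _
  -- one generation
  have step : ∀ i, i < N → |z (P (i + 1)) - z (P i)| ≤ 10 * A * (4 / 5) ^ i := by
    intro i hi
    rcases kpar i with he | he
    · simp only [hP, he, sub_self, abs_zero]
      positivity
    · have hpar : gridPt τ₀ m (i + 1) (2 * k i) = gridPt τ₀ m i (k i) := by
        simp only [gridPt, pow_succ]; push_cast; field_simp
      have hpair : chainPair τ τ₀ x m (some (i, k i)) = (P i, P (i + 1)) := by
        simp only [chainPair, hP, hpar, he]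
      have hle : P i ≤ P (i + 1) := by
        refine firstPast_mono τ ?_
        rw [← hpar, he]
        simp only [gridPt]
        gcongr
        omega
      rcases hle.lt_or_eq with hlt | heq
      · have hv : τ (P (i + 1)) - τ (P i) ≤ chainVar τ₀ m (some (i, k i)) := by
          have u1 := hmono _ _ (hPt (i + 1)) htx
          have u2 := hPlow i
          have u3 := hhi i
          have u4 : gridPt τ₀ m i (k i + 1) = gridPt τ₀ m i (k i) + τ₀ * 2 ^ m / 2 ^ i := by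
            simp only [gridPt]; push_cast; ring
          simp only [chainVar]
          linarith
        have hfirst : τ₀ < τ (P i + 1) := by
          have u1 := hmono (P i) (P i + 1) (Nat.le_succ _) (by
            have := hPt (i + 1); omega)
          linarith [hge i (k i), hPlow i]
        have h := hev m hmM (some (i, k i)) (by simpa using ⟨hi, hk i⟩) _ _ hpair hlt
          (le_trans (hPt (i + 1)) htx) hfirst hv
        simp only [chainLam, chainVar] at h
        exact h.trans (chain_step_size hL hs hS0.le i)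
      · rw [← heq, sub_self, abs_zero]
        positivity
  have tele : ∀ i, i ≤ N → |z (P i) - z (P 0)| ≤ 50 * A * (1 - (4 / 5) ^ i) := by
    intro i
    induction i with
    | zero => intro _; simp
    | succ i ih =>
      intro hi
      have h1 := ih (by omega)
      have h2 := step i (by omega)
      have h3 := abs_sub_le (z (P (i + 1))) (z (P i)) (z (P 0))
      rw [pow_succ]
      linarith
  have htel : |z (P N) - z (P 0)| ≤ 50 * A := by
    refine (tele N le_rfl).trans ?_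
    have : (0 : ℝ) ≤ (4 / 5) ^ N := by positivity
    have h2 : 0 ≤ A * (4 / 5) ^ N := mul_nonneg hA0 this
    linarith
  -- the last piece
  set W := Real.sqrt (L * s2 * (τ₀ + S)) with hW
  have hAW : A ≤ W := Real.sqrt_le_sqrt (by gcongr; linarith)
  have hlast : |z t - z (P N)| ≤ 2 * W := by
    have h1 := hres (P N) t (hPt N) htx
    have h2 : τ t - τ (P N) ≤ S / 2 ^ N := by
      have u4 : gridPt τ₀ m N (k N + 1) = gridPt τ₀ m N (k N) + S / 2 ^ N := by
        simp only [gridPt, hSdef]; push_cast; ring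
      linarith [hPlow N, hhi N]
    have h3 : (N : ℝ) * (S / 2 ^ N) ≤ S := by
      have : (N : ℝ) ≤ 2 ^ N := by exact_mod_cast (Nat.lt_two_pow_self).le
      rw [← mul_div_assoc, div_le_iff₀ (by positivity)]
      nlinarith
    have h5 : (9 / 4 : ℝ) * (N : ℝ) * (s2 * (τ t - τ (P N))) ≤ 9 / 4 * s2 * S := by
      calc (9 / 4 : ℝ) * (N : ℝ) * (s2 * (τ t - τ (P N)))
          ≤ 9 / 4 * (N : ℝ) * (s2 * (S / 2 ^ N)) := by gcongr
        _ = 9 / 4 * s2 * ((N : ℝ) * (S / 2 ^ N)) := by ring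
        _ ≤ 9 / 4 * s2 * S := by gcongr
    have h4 : (z t - z (P N)) ^ 2 ≤ (2 * W) ^ 2 := by
      rw [mul_pow, hW, Real.sq_sqrt (by positivity)]
      have : s2 * S ≤ L * s2 * (τ₀ + S) := by
        calc s2 * S = 1 * s2 * S := by ring
          _ ≤ L * s2 * (τ₀ + S) := by gcongr <;> linarith
      have : (0 : ℝ) ≤ L * s2 * (τ₀ + S) := by positivity
      linarith
    exact abs_le_of_sq_le_sq h4 (by positivity)
  -- the jump
  have hjump : |z (P 0)| ≤ R * Real.sqrt τ₀ + 9 * W := by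
    have hk0 : k 0 = 0 := by have := hk 0; simp at this; omega
    have hP0 : P 0 = firstPast τ x τ₀ := by simp [hP, hk0, gridPt]
    rcases Nat.eq_zero_or_pos (P 0) with h0 | h0
    · rw [h0, hz0, abs_zero]; positivity
    · have hpair : chainPair τ τ₀ x m none = (P 0 - 1, P 0) := by rw [chainPair, hP0]
      have hx : P 0 ≤ x := le_trans (hPt 0) htx
      have hlow : τ₀ < τ (P 0) := lt_of_le_of_lt (hge 0 (k 0)) (hPlow 0)
      have hsm : τ (P 0 - 1) ≤ τ₀ := by
        refine le_of_lt_firstPast τ (x := x) ?_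
        rw [← hP0]; omega
      have hv : τ (P 0) - τ (P 0 - 1) ≤ chainVar τ₀ m none := by
        simp only [chainVar]
        linarith [hmono _ _ (hPt 0) htx, hτ0' (P 0 - 1) (by omega)]
      have h := hev m hmM none (by simp) _ _ hpair (by omega) hx
        (by rw [Nat.sub_add_cancel h0]; exact hlow) hv
      have h9 : 2 * Real.sqrt (20 * chainLam L none * (s2 * chainVar τ₀ m none)) ≤ 9 * W := by
        simp only [chainLam, chainVar]
        rw [show 20 * L * (s2 * (τ₀ + τ₀ * 2 ^ m)) = 20 * (L * s2 * (τ₀ + S)) by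
          rw [hSdef]; ring, Real.sqrt_mul (by norm_num : (0 : ℝ) ≤ 20)]
        have h20 : Real.sqrt 20 ≤ 9 / 2 := by
          rw [Real.sqrt_le_left (by norm_num)]; norm_num
        have := mul_le_mul_of_nonneg_right h20 (Real.sqrt_nonneg (L * s2 * (τ₀ + S)))
        linarith
      have h2 := hsmall (P 0 - 1) (by omega) hsm
      have h3 := abs_sub_abs_le_abs_sub (z (P 0)) (z (P 0 - 1))
      linarith
  have htot : |z t| ≤ R * Real.sqrt τ₀ + 61 * W := by
    have h1 := abs_sub_abs_le_abs_sub (z t) (z (P 0))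
    have h2 := abs_sub_le (z t) (z (P N)) (z (P 0))
    linarith
  have hsq := pow_le_pow_left₀ (abs_nonneg _) htot 2
  rw [sq_abs] at hsq
  have hpow := add_sq_le (a := R * Real.sqrt τ₀) (b := 61 * W)
  rw [mul_pow R, Real.sq_sqrt hτ₀.le, mul_pow (61 : ℝ), hW, Real.sq_sqrt (by positivity)] at hpow
  have h7 : L * s2 * (τ₀ + S) ≤ L * s2 * (2 * (τ t + τ₀)) := by gcongr
  have h8 : (0 : ℝ) ≤ L * s2 * (τ t + τ₀) := by positivity
  nlinarith [hsq, hpow, h7, h8]

end Vale.Agent.P262
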