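import Mathlib.Analysis.Normed.Module.Basic
import Mathlib.Data.List.FinRange
import Mathlib.Data.Fintype.Perm
import Mathlib.Algebra.BigOperators.Fin
import Mathlib.Tactic.Abel

/-! Chobanyan's transference: signed prefix bounds give bounds for zero-sum rearrangements. -/

namespace Vale.Agent.P262

open List

variable {α : Type*} {E : Type*} [NormedAddCommGroup E] [NormedSpace ℝ E]

/-- The value of a sign. -/
def sgn (b : Bool) : ℝ := if b then 1 else -1

/-- The sum of `v` over a list. -/
def lsum (v : α → E) (l : List α) : E := (l.map v).sum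

omit [NormedSpace ℝ E] in
lemma lsum_append (v : α → E) (l m : List α) : lsum v (l ++ m) = lsum v l + lsum v m := by
  simp [lsum]

omit [NormedSpace ℝ E] in
lemma lsum_perm (v : α → E) {l m : List α} (h : l.Perm m) : lsum v l = lsum v m :=
  (h.map v).sum_eq

lemma exists_take_filter (p : α → Bool) : ∀ (l : List α) (j : ℕ),
    ∃ k, (l.filter p).take j = (l.take k).filter p := by
  intro l
  induction l with
  | nil => intro j; exact ⟨0, by simp⟩
  | cons a l ih =>
    intro j
    by_cases h : p a
    · cases j with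
      | zero => exact ⟨0, by simp⟩
      | succ j =>
        obtain ⟨k, hk⟩ := ih j
        exact ⟨k + 1, by simp [h, hk]⟩
    · obtain ⟨k, hk⟩ := ih j
      exact ⟨k + 1, by simp [h, hk]⟩

lemma two_smul_filter (v : α → E) (s : α → Bool) (l : List α) :
    (2 : ℝ) • lsum v (l.filter s) = lsum v l + lsum (fun a => sgn (s a) • v a) l ∧
    (2 : ℝ) • lsum v (l.filter fun a => !s a) = lsum v l - lsum (fun a => sgn (s a) • v a) l := by
  induction l with
  | nil => simp [lsum]
  | cons a l ih =>
    obtain ⟨h1, h2⟩ := ih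
    simp only [lsum] at h1 h2 ⊢
    cases h : s a
    · constructor
      · simp only [List.filter_cons, h, Bool.false_eq_true, if_false, List.map_cons, List.sum_cons,
          sgn, neg_smul, one_smul, h1]
        abel
      · simp only [List.filter_cons, h, Bool.not_false, if_true, List.map_cons, List.sum_cons,
          smul_add, sgn, Bool.false_eq_true, if_false, neg_smul, one_smul, h2, two_smul]
        abel
    · constructor
      · simp only [List.filter_cons, h, if_true, List.map_cons, List.sum_cons, smul_add,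
          sgn, one_smul, h1, two_smul]
        abel
      · simp only [List.filter_cons, h, Bool.not_true, Bool.false_eq_true, if_false, if_true,
          List.map_cons, List.sum_cons, sgn, one_smul, h2]
        abel

/-- One improvement step. -/
lemma improve (v : α → E) (l : List α) (hl : lsum v l = 0) (s : α → Bool) (R B : ℝ)
    (hR : ∀ k, ‖lsum v (l.take k)‖ ≤ R)
    (hB : ∀ k, ‖lsum (fun a => sgn (s a) • v a) (l.take k)‖ ≤ B) :
    ∃ m : List α, m.Perm l ∧ ∀ k, ‖lsum v (m.take k)‖ ≤ (R + B) / 2 := by
  have hhalf : ∀ x : E, ‖(2 : ℝ) • x‖ ≤ R + B → ‖x‖ ≤ (R + B) / 2 := fun x hx => by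
    rw [norm_smul, Real.norm_ofNat] at hx
    linarith
  have hp : ∀ k, ‖lsum v ((l.take k).filter s)‖ ≤ (R + B) / 2 := fun k => by
    refine hhalf _ ?_
    rw [(two_smul_filter v s _).1]
    exact (norm_add_le _ _).trans (add_le_add (hR k) (hB k))
  have hm : ∀ k, ‖lsum v ((l.take k).filter fun a => !s a)‖ ≤ (R + B) / 2 := fun k => by
    refine hhalf _ ?_
    rw [(two_smul_filter v s _).2]
    exact (norm_sub_le _ _).trans (add_le_add (hR k) (hB k))
  set mi := l.filter fun a => !s a with hmi
  refine ⟨l.filter s ++ mi.reverse, ?_, fun j => ?_⟩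
  · exact ((List.reverse_perm mi).append_left _).trans (List.filter_append_perm s l)
  · rw [List.take_append, lsum_append]
    rcases le_or_gt j (l.filter s).length with hj | hj
    · rw [Nat.sub_eq_zero_of_le hj]
      obtain ⟨k, hk⟩ := exists_take_filter s l j
      simpa [lsum, hk] using hp k
    · rw [List.take_of_length_le hj.le]
      set i := j - (l.filter s).length
      obtain ⟨k, hk⟩ := exists_take_filter (fun a => !s a) l (mi.length - i)
      rw [List.take_reverse, lsum_perm v (List.reverse_perm _)]
      have h1 : lsum v (mi.take (mi.length - i)) + lsum v (mi.drop (mi.length - i))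
          = lsum v mi := by rw [← lsum_append, List.take_append_drop]
      have h2 : lsum v (l.filter s) + lsum v mi = 0 := by
        rw [← lsum_append, hmi, lsum_perm v (List.filter_append_perm s l), hl]
      have h3 : lsum v (l.filter s) + lsum v (mi.drop (mi.length - i))
          = -lsum v (mi.take (mi.length - i)) := by
        rw [← h1, ← add_assoc, add_right_comm] at h2
        exact eq_neg_of_add_eq_zero_left h2
      rw [h3, norm_neg]
      rw [← hmi] at hk
      rw [hk]
      exact hm k

omit [NormedSpace ℝ E] in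
lemma lsum_ofFn {N : ℕ} (v : α → E) (f : Fin N → α) (k : ℕ) :
    lsum v ((List.ofFn f).take k)
      = ∑ i ∈ Finset.univ.filter (fun i : Fin N => (i : ℕ) < k), v (f i) := by
  rw [lsum, List.map_take, List.map_ofFn, List.sum_take_ofFn]
  rfl

/-- Chobanyan's transference theorem. -/
theorem steinitz_of_signs {N : ℕ} (B : ℝ)
    (hsign : ∀ w : Fin N → E, (∀ i, ‖w i‖ ≤ 1) → ∃ ε : Fin N → ℝ, (∀ i, ε i = 1 ∨ ε i = -1) ∧
      ∀ k : ℕ, ‖∑ i ∈ Finset.univ.filter (fun i : Fin N => (i : ℕ) < k), ε i • w i‖ ≤ B)
    (v : Fin N → E) (hv : ∀ i, ‖v i‖ ≤ 1) (h0 : ∑ i, v i = 0) :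
    ∃ π : Equiv.Perm (Fin N), ∀ k : ℕ,
      ‖∑ i ∈ Finset.univ.filter (fun i : Fin N => (i : ℕ) < k), v (π i)‖ ≤ B := by
  classical
  let S : Equiv.Perm (Fin N) → ℕ → E := fun π k =>
    ∑ i ∈ Finset.univ.filter (fun i : Fin N => (i : ℕ) < k), v (π i)
  have hstab : ∀ π k, S π k = S π (min k N) := fun π k => by
    refine Finset.sum_congr (Finset.filter_congr fun i _ => ?_) fun _ _ => rfl
    exact ⟨fun h => lt_min h i.2, fun h => lt_of_lt_of_le h (min_le_left _ _)⟩
  let R : Equiv.Perm (Fin N) → ℝ := fun π =>
    (Finset.range (N + 1)).sup' Finset.nonempty_range_add_one fun k => ‖S π k‖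
  have hR : ∀ π k, ‖S π k‖ ≤ R π := fun π k => by
    rw [hstab]
    exact Finset.le_sup' (fun k => ‖S π k‖) (Finset.mem_range.2 (by omega))
  obtain ⟨π, -, hmin⟩ := Finset.exists_min_image Finset.univ R Finset.univ_nonempty
  obtain ⟨ε, hε, hB⟩ := hsign (fun i => v (π i)) fun i => hv _
  refine ⟨π, fun k => ?_⟩
  set s : Fin N → Bool := fun a => decide (ε (π.symm a) = 1) with hs
  have hsε : ∀ i, sgn (s (π i)) = ε i := fun i => by
    rcases hε i with h | h <;> simp [hs, sgn, h]
    norm_num
  set l := List.ofFn (fun i => π i) with hl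
  have hl0 : lsum v l = 0 := by
    rw [lsum, hl, List.map_ofFn, List.sum_ofFn]
    exact (Equiv.sum_comp π v).trans h0
  obtain ⟨m, hm, hmB⟩ := improve v l hl0 s (R π) B
    (fun k => by rw [hl, lsum_ofFn]; exact hR π k)
    (fun k => by
      rw [hl, lsum_ofFn]
      simp only [hsε]
      exact hB k)
  have hlen : m.length = N := by rw [hm.length_eq, hl, List.length_ofFn]
  have hnd : m.Nodup := hm.nodup_iff.2 (by rw [hl]; exact List.nodup_ofFn.2 π.injective)
  let f : Fin N → Fin N := fun i => m.get (Fin.cast hlen.symm i)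
  have hf : Function.Injective f := fun i j h =>
    Fin.cast_injective _ (hnd.injective_get h)
  let π' : Equiv.Perm (Fin N) := Equiv.ofBijective f ((Finite.injective_iff_bijective).1 hf)
  have hof : List.ofFn f = m := by
    refine List.ext_get (by simp [hlen]) fun i h1 h2 => ?_
    simp [f]
  have hle : R π' ≤ (R π + B) / 2 := Finset.sup'_le _ _ fun j _ => by
    have h := hmB j
    rw [← hof, lsum_ofFn] at h
    exact h
  have := hmin π' (Finset.mem_univ _)
  exact (hR π k).trans (by linarith)

end Vale.Agent.P262
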