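import Vale.Agent.P262.Tests

/-! Module D: each node is crossed by few tests. -/

namespace Vale.Agent.P262

open scoped RealInnerProductSpace

variable {d : ℕ}

/-- The probability weights of the pieces of one test at one scale. -/
lemma sum_exp_chainLam_le (N : ℕ) (L : ℝ) :
    ∑ o : Option (Σ i : Fin N, Fin (2 ^ i.val)),
      Real.exp (-chainLam L (o.map fun p => (p.1.val, p.2.val))) ≤ 2 * Real.exp (-L) := by
  have hexp : Real.exp (-2) ≤ 1 / 4 := by
    rw [Real.exp_neg, inv_eq_one_div]
    refine one_div_le_one_div_of_le (by norm_num) ?_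
    have h := Real.add_one_le_exp (1 : ℝ)
    rw [show (2 : ℝ) = 1 + 1 by norm_num, Real.exp_add]
    nlinarith
  have key : ∀ i : Fin N, ∑ _k : Fin (2 ^ i.val), Real.exp (-(L + 2 * ((i.val : ℝ) + 1))) ≤
      Real.exp (-L) / 4 * (1 / 2) ^ i.val := by
    intro i
    have h : Real.exp (-(L + 2 * ((i.val : ℝ) + 1))) ≤ Real.exp (-L) * (1 / 4) ^ (i.val + 1) := by
      rw [show -(L + 2 * ((i.val : ℝ) + 1)) = -L + ((i.val + 1 : ℕ) : ℝ) * (-2) by push_cast; ring,
        Real.exp_add, Real.exp_nat_mul]
      gcongr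
    rw [Finset.sum_const, Finset.card_univ, Fintype.card_fin, nsmul_eq_mul, Nat.cast_pow,
      Nat.cast_ofNat]
    calc (2 : ℝ) ^ i.val * Real.exp (-(L + 2 * ((i.val : ℝ) + 1)))
        ≤ (2 : ℝ) ^ i.val * (Real.exp (-L) * (1 / 4) ^ (i.val + 1)) := by gcongr
      _ = Real.exp (-L) / 4 * ((2 : ℝ) * (1 / 4)) ^ i.val := by rw [mul_pow, pow_succ]; ring
      _ = Real.exp (-L) / 4 * (1 / 2) ^ i.val := by norm_num
  rw [Fintype.sum_option, Fintype.sum_sigma]
  simp only [Option.map_none, Option.map_some, chainLam]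
  have h2 := Finset.sum_le_sum fun i (_ : i ∈ (Finset.univ : Finset (Fin N))) => key i
  rw [← Finset.mul_sum, Fin.sum_univ_eq_sum_range fun i => ((1 : ℝ) / 2) ^ i] at h2
  have hg : ∑ i ∈ Finset.range N, ((1 : ℝ) / 2) ^ i ≤ 2 := sum_geometric_two_le N
  have hL := (Real.exp_pos (-L)).le
  nlinarith

namespace Setup

variable {P : Setup d} {F : Finset ℕ}

theorem ev_adm (hP : P.Ok F) (e : P.EIdx) : (P.ev e).Adm P.v P.κ P.N := by
  unfold ev
  split_ifs with h
  · obtain ⟨h1, h2, -, h4⟩ := h
    refine ⟨h1.le, h2.trans (tx_le e.1), ?_, ?_, ?_⟩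
    · show 0 ≤ chainLam P.L (P.optPair e.2.2.1)
      have := hP.Lge
      cases P.optPair e.2.2.1 with
      | none => simp only [chainLam]; linarith
      | some p => simp only [chainLam]; positivity
    · show 0 < sig2 P.κ * chainVar P.τ₀ e.2.1.val (P.optPair e.2.2.1)
      refine mul_pos hP.sig2_pos ?_
      have := hP.τpos
      cases P.optPair e.2.2.1 with
      | none => simp only [chainVar]; positivity
      | some p => simp only [chainVar]; positivity
    · show qf P.v P.κ (P.piece e).1 (P.piece e).2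
          (bwd P.v P.κ (P.piece e).2 (P.tx e.1) (P.th e.1)) ≤ _
      rw [qf_bwd hP e.1 h1.le h2]
      exact mul_le_mul_of_nonneg_left h4 hP.sig2_pos.le
  · refine ⟨le_rfl, Nat.zero_le _, le_rfl, one_pos, ?_⟩
    simp [trivialEv, qf]

lemma crosses_relevant {j a b : ℕ} {e : P.EIdx}
    (he : Crosses P.S P.J j a b (P.ev e)) :
    P.Relevant e ∧ Crosses P.S P.J j a b
      (⟨(P.piece e).1, (P.piece e).2, bwd P.v P.κ (P.piece e).2 (P.tx e.1) (P.th e.1),
        chainLam P.L (P.optPair e.2.2.1),
        sig2 P.κ * chainVar P.τ₀ e.2.1.val (P.optPair e.2.2.1)⟩ : Ev d) ∧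
      (P.ev e).lam = chainLam P.L (P.optPair e.2.2.1) := by
  by_cases h : P.Relevant e
  · rw [ev, if_pos h] at he ⊢
    exact ⟨h, he, rfl⟩
  · rw [ev, if_neg h] at he
    exact absurd he.2.2.1 (lt_irrefl 0)

open Classical in
/-- The boundaries through which the tests crossing a node are seen. -/
noncomputable def ports (P : Setup d) (j a b : ℕ) : Finset ℕ :=
  if j < P.J ∧ ((P.S (j + 1)).filter (fun c => a < c ∧ c < b)).card ≤ 2 then
    (P.S (j + 1)).filter (fun c => a < c ∧ c < b)
  else {b}

lemma card_ports_le (j a b : ℕ) : (P.ports j a b).card ≤ 2 := by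
  unfold ports
  split_ifs with h
  · exact h.2
  · simp

lemma exists_port (hP : P.Ok F) {j a b : ℕ} (hj : j ≤ P.J) (hab : Consec (P.S j) a b)
    {e : P.EIdx} (he : Crosses P.S P.J j a b (P.ev e)) :
    ∃ β ∈ P.ports j a b, β ≤ P.tx e.1 ∧ P.τ₀ < P.tau e.1 β := by
  obtain ⟨⟨hlt, hhi, hfirst, -⟩, ⟨hlo, hb, -, hcut⟩, -⟩ := crosses_relevant he
  simp only at hlo hb hcut
  have hmono : ∀ β, (P.piece e).1 < β → β ≤ P.tx e.1 → P.τ₀ < P.tau e.1 β := fun β h1 h2 =>
    hfirst.trans_le (tau_mono hP e.1 h1 h2)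
  rcases hj.lt_or_eq with hjJ | rfl
  · obtain ⟨m, hm, hlm, hmh⟩ := hcut hjJ
    by_cases hfew : ((P.S (j + 1)).filter (fun c => a < c ∧ c < b)).card ≤ 2
    · refine ⟨m, ?_, by omega, hmono m hlm (by omega)⟩
      rw [ports, if_pos ⟨hjJ, hfew⟩]
      simp only [Finset.mem_filter]
      exact ⟨hm, by omega, by omega⟩
    · have hbx : b ≤ P.tx e.1 := by
        by_contra hc
        have hfree : P.IsFree j a b := ((hP.hier.node j hjJ a b hab).resolve_left hfew).2
        have hg : P.gpt e.1 = m := gpt_eq hP e.1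
          ⟨j, a, b, hjJ, hab, hfree, by omega, by omega, hm, by omega, by omega,
            hmono m hlm (by omega)⟩
        simp only [piece, hg] at hlm hmh
        rcases Bool.eq_false_or_eq_true e.2.2.2 with h | h <;> simp [h] at hlm hmh <;> omega
      refine ⟨b, ?_, hbx, hmono b (by omega) hbx⟩
      rw [ports, if_neg (fun h => hfew h.2)]
      simp
  · have hba : b = a + 1 := by
      have h1 := hab.2.2.1
      have hbN := consec_right_le hab (hP.subset_top _ le_rfl)
      have := hab.2.2.2 (a + 1) (by rw [hP.hier.part.top, Finset.mem_range]; omega) (by omega)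
      omega
    refine ⟨b, ?_, by omega, hmono b (by omega) (by omega)⟩
    rw [ports, if_neg (fun h => absurd h.1 (lt_irrefl _))]
    simp

lemma sum_row_tau_le (hP : P.Ok F) {j : ℕ} (hj : j ≤ P.J) (β : ℕ) :
    ∑ x ∈ (P.S j).filter (fun x => β ≤ x ∧ x < P.N),
      (udim P.v P.κ β (nextIn (P.S j) x) - udim P.v P.κ β x) ≤ d := by
  set T := (P.S j).filter (fun x => β ≤ x ∧ x < P.N) with hT
  rcases T.eq_empty_or_nonempty with h0 | h0
  · rw [h0, Finset.sum_empty]; exact Nat.cast_nonneg _
  have hmem : ∀ x ∈ T, x ∈ P.S j ∧ β ≤ x ∧ x < P.N := fun x hx => Finset.mem_filter.1 hx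
  have hnext : ∀ x ∈ T, Consec (P.S j) x (nextIn (P.S j) x) := fun x hx =>
    consec_nextIn (hmem x hx).1 (hP.end_mem hj) (hmem x hx).2.2
  have hdis : (T : Set ℕ).PairwiseDisjoint fun x => Finset.Ico x (nextIn (P.S j) x) := by
    intro x hx y hy hxy
    rw [Function.onFun, Finset.disjoint_left]
    intro t htx hty
    rw [Finset.mem_Ico] at htx hty
    exact hxy (consec_unique (hnext x hx) (hnext y hy) htx.1 htx.2 hty.1 hty.2).1
  have hβN : β ≤ P.N := by
    obtain ⟨x, hx⟩ := h0
    have := (hmem x hx).2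
    omega
  have hsub : T.biUnion (fun x => Finset.Ico x (nextIn (P.S j) x)) ⊆ Finset.Ico β P.N := by
    intro t ht
    obtain ⟨x, hx, htx⟩ := Finset.mem_biUnion.1 ht
    have h1 := nextIn_le (hP.end_mem hj) (hmem x hx).2.2
    have h2 := (hmem x hx).2.1
    rw [Finset.mem_Ico] at htx ⊢
    omega
  calc ∑ x ∈ T, (udim P.v P.κ β (nextIn (P.S j) x) - udim P.v P.κ β x)
      = ∑ x ∈ T, ∑ t ∈ Finset.Ico x (nextIn (P.S j) x),
          (udim P.v P.κ β (t + 1) - udim P.v P.κ β t) :=
        Finset.sum_congr rfl fun x hx =>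
          (Finset.sum_Ico_sub (fun t => udim P.v P.κ β t) (hnext x hx).2.2.1.le).symm
    _ = ∑ t ∈ T.biUnion (fun x => Finset.Ico x (nextIn (P.S j) x)),
          (udim P.v P.κ β (t + 1) - udim P.v P.κ β t) := (Finset.sum_biUnion hdis).symm
    _ ≤ ∑ t ∈ Finset.Ico β P.N, (udim P.v P.κ β (t + 1) - udim P.v P.κ β t) := by
        refine Finset.sum_le_sum_of_subset_of_nonneg hsub fun t ht _ => ?_
        have h1 := (Finset.mem_Ico.1 ht).1
        have := hP.lin.ufun.mono β β t (t + 1) le_rfl h1 (Nat.le_succ t)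
        linarith
    _ = udim P.v P.κ β P.N - udim P.v P.κ β β :=
        Finset.sum_Ico_sub (fun t => udim P.v P.κ β t) hβN
    _ ≤ d := by linarith [hP.lin.ufun.le_dim β P.N, hP.lin.ufun.nonneg β β]

lemma sum_tau_le (hP : P.Ok F) (β : ℕ) :
    ∑ q : P.Idx, (if β ≤ P.tx q then P.tau q β else 0) ≤ ((P.J : ℝ) + 2) * d := by
  rw [Fintype.sum_prod_type]
  have key : ∀ j : Fin (P.J + 2), ∑ p : Fin (P.N + 1) × Fin d,
      (if β ≤ P.tx (j, p) then P.tau (j, p) β else 0) ≤ d := by
    intro j
    rw [Fintype.sum_prod_type]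
    by_cases hje : j.val = P.J + 1
    · -- the end tests
      have hx : ∀ x : Fin (P.N + 1),
          ∑ i : Fin d, (if β ≤ P.tx (j, x, i) then P.tau (j, x, i) β else 0) =
            if x = Fin.last P.N then
              (if β ≤ P.N then (d : ℝ) - udim P.v P.κ β P.N else 0) else 0 := by
        intro x
        by_cases hxN : x = Fin.last P.N
        · subst hxN
          simp only [if_true, tx, tau, th, if_pos hje, Fin.val_last]
          split_ifs with hb
          · rw [hP.lin.endRows]
          · exact Finset.sum_const_zero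
        · rw [if_neg hxN]
          refine Finset.sum_eq_zero fun i _ => ?_
          have : ¬ x.val = P.N := fun h => hxN (Fin.ext h)
          simp [tau, th, hje, this]
      simp only [hx, Finset.sum_ite_eq', Finset.mem_univ, if_true]
      have := hP.lin.ufun.nonneg β P.N
      have : (0 : ℝ) ≤ d := Nat.cast_nonneg d
      split_ifs <;> linarith
    · -- the rows of the nodes of level `j`
      have hjJ : j.val ≤ P.J := by have := j.isLt; omega
      have hx : ∀ x : Fin (P.N + 1),
          ∑ i : Fin d, (if β ≤ P.tx (j, x, i) then P.tau (j, x, i) β else 0) =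
            if x.val ∈ (P.S j.val).filter (fun x => β ≤ x ∧ x < P.N) then
              udim P.v P.κ β (nextIn (P.S j.val) x.val) - udim P.v P.κ β x.val else 0 := by
        intro x
        simp only [tx, tau, th, if_neg hje, Finset.mem_filter]
        by_cases hmem : x.val ∈ P.S j.val ∧ x.val < P.N
        · simp only [if_pos hmem]
          by_cases hb : β ≤ x.val
          · simp only [if_pos hb, if_pos (show x.val ∈ P.S j.val ∧ β ≤ x.val ∧ x.val < P.N from
              ⟨hmem.1, hb, hmem.2⟩)]
            exact (rowVec_spec hP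
              (consec_nextIn hmem.1 (hP.end_mem hjJ) hmem.2).2.2.1.le).2.2 β hb
          · simp only [if_neg hb]
            rw [if_neg (fun h => hb h.2.1)]
            exact Finset.sum_const_zero
        · rw [if_neg (fun h => hmem ⟨h.1, h.2.2⟩)]
          refine Finset.sum_eq_zero fun i _ => ?_
          simp [if_neg hmem]
      simp only [hx]
      rw [← Finset.sum_filter]
      refine le_trans (le_of_eq ?_) (sum_row_tau_le hP hjJ β)
      refine Finset.sum_nbij' (fun x => x.val) (fun x => Fin.ofNat (P.N + 1) x) ?_ ?_ ?_ ?_ ?_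
      · intro x hx; simpa using hx
      · intro x hx
        simp only [Finset.mem_coe, Finset.mem_filter] at hx ⊢
        have : x % (P.N + 1) = x := Nat.mod_eq_of_lt (by omega)
        simp [this, hx]
      · intro x _; simp
      · intro x hx
        simp only [Finset.mem_coe, Finset.mem_filter] at hx
        simp [Nat.mod_eq_of_lt (show x < P.N + 1 by omega)]
      · intro x _; rfl
  calc _ ≤ ∑ _j : Fin (P.J + 2), (d : ℝ) := Finset.sum_le_sum fun j _ => key j
    _ = ((P.J : ℝ) + 2) * d := by simp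

theorem count_bound (hP : P.Ok F) {j a b : ℕ} (hj : j ≤ P.J) (hab : Consec (P.S j) a b)
    [DecidablePred fun e : P.EIdx => Crosses P.S P.J j a b (P.ev e)] :
    ∑ e ∈ Finset.univ.filter (fun e => Crosses P.S P.J j a b (P.ev e)),
        Real.exp (-(P.ev e).lam) ≤
      12 * ((P.J : ℝ) + 2) * d * ((P.M : ℝ) + 1) / P.τ₀ * Real.exp (-P.L) := by
  classical
  set w : P.EIdx → ℝ := fun e => Real.exp (-chainLam P.L (P.optPair e.2.2.1)) with hw
  set good : ℕ → P.Idx → Prop := fun β q => β ≤ P.tx q ∧ P.τ₀ < P.tau q β with hgood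
  have hτ := hP.τpos
  have hper : ∀ q : P.Idx, ∑ p, w (q, p) ≤ 4 * ((P.M : ℝ) + 1) * Real.exp (-P.L) := by
    intro q
    rw [Fintype.sum_prod_type]
    calc _ ≤ ∑ _m : Fin (P.M + 1), 4 * Real.exp (-P.L) := by
          refine Finset.sum_le_sum fun m _ => ?_
          rw [Fintype.sum_prod_type]
          simp only [hw, Finset.sum_const, Finset.card_univ, Fintype.card_bool,
            nsmul_eq_mul, Nat.cast_ofNat]
          have := sum_exp_chainLam_le P.N P.L
          simp only [optPair]
          rw [← Finset.mul_sum]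
          linarith
      _ = _ := by simp; ring
  have hcard : ∀ β, ((Finset.univ.filter (good β)).card : ℝ) ≤
      ((P.J : ℝ) + 2) * d / P.τ₀ := by
    intro β
    rw [le_div_iff₀ hτ]
    calc ((Finset.univ.filter (good β)).card : ℝ) * P.τ₀
        = ∑ _q ∈ Finset.univ.filter (good β), P.τ₀ := by simp
      _ ≤ ∑ q ∈ Finset.univ.filter (good β), (if β ≤ P.tx q then P.tau q β else 0) :=
          Finset.sum_le_sum fun q hq => by
            obtain ⟨h1, h2⟩ := (Finset.mem_filter.1 hq).2
            rw [if_pos h1]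
            exact h2.le
      _ ≤ ∑ q, (if β ≤ P.tx q then P.tau q β else 0) := by
          refine Finset.sum_le_sum_of_subset_of_nonneg (Finset.filter_subset _ _) fun q _ _ => ?_
          split_ifs
          · exact tau_nonneg q β
          · exact le_rfl
      _ ≤ _ := sum_tau_le hP β
  have hport : ∀ β, ∑ e : P.EIdx, (if good β e.1 then w e else 0) ≤
      ((P.J : ℝ) + 2) * d / P.τ₀ * (4 * ((P.M : ℝ) + 1) * Real.exp (-P.L)) := by
    intro β
    rw [Fintype.sum_prod_type]
    calc _ = ∑ q : P.Idx, (if good β q then ∑ p, w (q, p) else 0) :=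
          Finset.sum_congr rfl fun q _ => by split_ifs <;> simp
      _ = ∑ q ∈ Finset.univ.filter (good β), ∑ p, w (q, p) := (Finset.sum_filter _ _).symm
      _ ≤ ∑ _q ∈ Finset.univ.filter (good β), 4 * ((P.M : ℝ) + 1) * Real.exp (-P.L) :=
          Finset.sum_le_sum fun q _ => hper q
      _ ≤ _ := by
          rw [Finset.sum_const, nsmul_eq_mul]
          exact mul_le_mul_of_nonneg_right (hcard β) (by positivity)
  calc ∑ e ∈ Finset.univ.filter (fun e => Crosses P.S P.J j a b (P.ev e)),
        Real.exp (-(P.ev e).lam)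
      ≤ ∑ e ∈ Finset.univ.filter (fun e => Crosses P.S P.J j a b (P.ev e)),
          ∑ β ∈ P.ports j a b, (if good β e.1 then w e else 0) := by
        refine Finset.sum_le_sum fun e he => ?_
        have he' := (Finset.mem_filter.1 he).2
        obtain ⟨β, hβ, h1⟩ := exists_port hP hj hab he'
        rw [(crosses_relevant he').2.2]
        refine le_trans (le_of_eq ?_) (Finset.single_le_sum
          (f := fun β => if good β e.1 then w e else 0)
          (fun γ _ => by simp only [hw]; split_ifs <;> positivity) hβ)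
        rw [if_pos (show good β e.1 from h1)]
    _ ≤ ∑ e : P.EIdx, ∑ β ∈ P.ports j a b, (if good β e.1 then w e else 0) := by
        refine Finset.sum_le_sum_of_subset_of_nonneg (Finset.subset_univ _) fun e _ _ => ?_
        exact Finset.sum_nonneg fun γ _ => by simp only [hw]; split_ifs <;> positivity
    _ = ∑ β ∈ P.ports j a b, ∑ e : P.EIdx, (if good β e.1 then w e else 0) := Finset.sum_comm
    _ ≤ ∑ _β ∈ P.ports j a b,
          ((P.J : ℝ) + 2) * d / P.τ₀ * (4 * ((P.M : ℝ) + 1) * Real.exp (-P.L)) :=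
        Finset.sum_le_sum fun β _ => hport β
    _ ≤ _ := by
        rw [Finset.sum_const, nsmul_eq_mul]
        have hc : ((P.ports j a b).card : ℝ) ≤ 3 := by
          have := card_ports_le (P := P) j a b
          exact_mod_cast this.trans (by norm_num)
        calc _ ≤ 3 * (((P.J : ℝ) + 2) * d / P.τ₀ * (4 * ((P.M : ℝ) + 1) * Real.exp (-P.L))) :=
              mul_le_mul_of_nonneg_right hc (by positivity)
          _ = _ := by ring

end Setup

end Vale.Agent.P262
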