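import Mathlib

namespace Vale.Agent.P262

open scoped RealInnerProductSpace

/-- Euclidean space of dimension `d`. -/
abbrev Vec (d : ℕ) := EuclideanSpace ℝ (Fin d)

variable {d : ℕ}

/-- `I - κ w wᵀ`. -/
noncomputable def Mop (κ : ℝ) (w : Vec d) : Vec d →ₗ[ℝ] Vec d :=
  LinearMap.id - κ • ((innerₗ (Vec d) w).smulRight w)

/-- `fwd v κ a b = M_{b-1} ⋯ M_a`, the forecast map from time `a` to time `b`
(the identity if `b ≤ a`). -/
noncomputable def fwd (v : ℕ → Vec d) (κ : ℝ) (a : ℕ) : ℕ → (Vec d →ₗ[ℝ] Vec d)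
  | 0 => LinearMap.id
  | b + 1 => if a ≤ b then (Mop κ (v b)).comp (fwd v κ a b) else LinearMap.id

/-- `bwd v κ a b = M_a ⋯ M_{b-1}`, the transpose of `fwd v κ a b`. -/
noncomputable def bwd (v : ℕ → Vec d) (κ : ℝ) (a : ℕ) : ℕ → (Vec d →ₗ[ℝ] Vec d)
  | 0 => LinearMap.id
  | b + 1 => if a ≤ b then (bwd v κ a b).comp (Mop κ (v b)) else LinearMap.id

/-- The consumed dimension `d - tr (AᵀA)` of the interval `[a, b)`. -/
noncomputable def udim (v : ℕ → Vec d) (κ : ℝ) (a b : ℕ) : ℝ :=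
  ∑ i : Fin d, (1 - ‖fwd v κ a b (EuclideanSpace.single i 1)‖ ^ 2)

/-- The variance scale `1 / (2κ - κ²)`. -/
noncomputable def sig2 (κ : ℝ) : ℝ := 1 / (2 * κ - κ ^ 2)

/-- The variance proxy of `⟪w, γ c' - fwd c c' (γ c)⟫`. -/
noncomputable def qf (v : ℕ → Vec d) (κ : ℝ) (c c' : ℕ) (w : Vec d) : ℝ :=
  sig2 κ * (‖w‖ ^ 2 - ‖bwd v κ c c' w‖ ^ 2)

/-- One admissible step: a true signed step where the bias is small, else a virtual one. -/
def StepOK (κ : ℝ) (w p q : Vec d) : Prop :=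
  ∃ e : ℝ, (e = 1 ∨ e = -1) ∧
    ((|κ * ⟪w, p⟫| ≤ 1 / 2 ∧ q = p + e • w) ∨
      (1 / 2 < |κ * ⟪w, p⟫| ∧ q = Mop κ w p + e • w))

/-- A path all of whose steps in `[a, b)` are admissible. -/
def Valid (v : ℕ → Vec d) (κ : ℝ) (a b : ℕ) (γ : ℕ → Vec d) : Prop :=
  ∀ t, a ≤ t → t < b → StepOK κ (v t) (γ t) (γ (t + 1))

/-- A linear test of a path increment, with tail exponent `lam` and variance bound `var`. -/
structure Ev (d : ℕ) : Type where
  lo : ℕ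
  hi : ℕ
  w : Vec d
  lam : ℝ
  var : ℝ

/-- The increment seen by a test. -/
noncomputable def Ev.incr (v : ℕ → Vec d) (κ : ℝ) (e : Ev d) (γ : ℕ → Vec d) : ℝ :=
  ⟪e.w, γ e.hi - fwd v κ e.lo e.hi (γ e.lo)⟫

/-- The test passes. -/
def Ev.Pass (v : ℕ → Vec d) (κ : ℝ) (e : Ev d) (γ : ℕ → Vec d) : Prop :=
  |e.incr v κ γ| ≤ Real.sqrt (20 * e.lam * e.var)

/-- The parameters of a test are admissible. -/
def Ev.Adm (v : ℕ → Vec d) (κ : ℝ) (N : ℕ) (e : Ev d) : Prop :=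
  e.lo ≤ e.hi ∧ e.hi ≤ N ∧ 0 ≤ e.lam ∧ 0 < e.var ∧ qf v κ e.lo e.hi e.w ≤ e.var

/-- `a < b` are neighbours in `S`. -/
def Consec (S : Finset ℕ) (a b : ℕ) : Prop :=
  a ∈ S ∧ b ∈ S ∧ a < b ∧ ∀ c ∈ S, a < c → b ≤ c

/-- Nested partitions of `[0, N)`, from the whole interval down to single steps. -/
structure Part (S : ℕ → Finset ℕ) (J N : ℕ) : Prop where
  zero : S 0 = {0, N}
  top : S J = Finset.range (N + 1)
  mono : ∀ j, j < J → S j ⊆ S (j + 1)

/-- The test lies inside the node `[a, b)` of level `j` and inside none of its children. -/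
def Crosses (S : ℕ → Finset ℕ) (J j a b : ℕ) (e : Ev d) : Prop :=
  a ≤ e.lo ∧ e.hi ≤ b ∧ e.lo < e.hi ∧
    (j < J → ∃ m ∈ S (j + 1), e.lo < m ∧ m < e.hi)

/-- A hierarchy for an interval function `u`: every node has at most two inner cuts, or it
belongs to one of the exceptional levels `F` and all its children but the last have almost
the whole of its `u`. -/
structure Hier (u : ℕ → ℕ → ℝ) (S : ℕ → Finset ℕ) (F : Finset ℕ) (J N : ℕ) (δ : ℝ) : Prop where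
  part : Part S J N
  node : ∀ j, j < J → ∀ a b, Consec (S j) a b →
    ((S (j + 1)).filter (fun c => a < c ∧ c < b)).card ≤ 2 ∨
      (j ∈ F ∧ ∀ c c', Consec (S (j + 1)) c c' → a ≤ c → c' < b → u a b - 2 * δ < u c c')

/-- The properties of an interval function used to build a hierarchy. -/
structure UFun (u : ℕ → ℕ → ℝ) (d : ℕ) : Prop where
  nonneg : ∀ a b, 0 ≤ u a b
  le_dim : ∀ a b, u a b ≤ d
  mono : ∀ a a' b' b, a ≤ a' → a' ≤ b' → b' ≤ b → u a' b' ≤ u a b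
  step_le : ∀ t, u t (t + 1) ≤ 1 / 2
  split : ∀ (r : ℤ) (T h : ℝ) (a m b : ℕ), a ≤ m → m ≤ b →
    (r : ℝ) + 4 * h ≤ T → T + h ≤ r + 1 - 4 * h → u a b ≤ T + h → T < u a m → u m b ≤ T

end Vale.Agent.P262
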