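import Mathlib
import Vale.Agent.P262.Defs

/-! One refinement step of a hierarchy. -/

namespace Vale.Agent.P262

open Finset

/-- The node `[a, b)` together with its cuts. -/
def withEnds (a b : ℕ) (C : Finset ℕ) : Finset ℕ := insert a (insert b C)

lemma consec_withEnds {a b : ℕ} {C : Finset ℕ} (hab : a < b) (hC : C ⊆ Finset.Ioo a b)
    {c c' : ℕ} (h : Consec (withEnds a b C) c c') :
    a ≤ c ∧ c < c' ∧ c' ≤ b ∧ ∀ x ∈ withEnds a b C, x ≤ c ∨ c' ≤ x := by
  obtain ⟨hc, hc', hlt, hmin⟩ := h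
  have bounds : ∀ x ∈ withEnds a b C, a ≤ x ∧ x ≤ b := by
    intro x hx
    simp only [withEnds, Finset.mem_insert] at hx
    rcases hx with rfl | rfl | hx
    · omega
    · omega
    · have := Finset.mem_Ioo.1 (hC hx)
      omega
  refine ⟨(bounds c hc).1, hlt, (bounds c' hc').2, fun x hx => ?_⟩
  by_cases hxc : x ≤ c
  · exact Or.inl hxc
  · exact Or.inr (hmin x hx (by omega))

lemma exists_node {S : Finset ℕ} {N t : ℕ} (h0 : 0 ∈ S) (hN : N ∈ S) (ht : t < N) :
    ∃ a b, Consec S a b ∧ a ≤ t ∧ t < b := by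
  have h1 : (S.filter (fun x => x ≤ t)).Nonempty := ⟨0, by simp [h0]⟩
  have h2 : (S.filter (fun x => t < x)).Nonempty := ⟨N, by simp [hN, ht]⟩
  have m1 := Finset.max'_mem _ h1
  have m2 := Finset.min'_mem _ h2
  rw [Finset.mem_filter] at m1 m2
  refine ⟨_, _, ⟨m1.1, m2.1, by omega, fun c hc hac => ?_⟩, m1.2, m2.2⟩
  by_cases hct : c ≤ t
  · have := Finset.le_max' (S.filter (fun x => x ≤ t)) c (by simp [hc, hct])
    omega
  · exact Finset.min'_le _ c (by simp [hc]; omega)

lemma consec_unique {S : Finset ℕ} {a b a' b' x : ℕ} (h : Consec S a b) (h' : Consec S a' b')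
    (hax : a ≤ x) (hxb : x < b) (hax' : a' ≤ x) (hxb' : x < b') : a = a' ∧ b = b' := by
  obtain ⟨ha, hb, hab, hmin⟩ := h
  obtain ⟨ha', hb', hab', hmin'⟩ := h'
  have e1 : a = a' := by
    rcases lt_trichotomy a a' with h | h | h
    · have := hmin a' ha' h; omega
    · exact h
    · have := hmin' a ha h; omega
  subst e1
  have := hmin b' hb' hab'
  have := hmin' b hb hab
  omega

/-- Refining every node of `S` by cuts satisfying `R`. -/
lemma refine_nodes {S : Finset ℕ} {N : ℕ} (hS : S ⊆ Finset.range (N + 1)) (h0 : 0 ∈ S)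
    (hN : N ∈ S) (R : ℕ → ℕ → Finset ℕ → Prop)
    (hR : ∀ a b, Consec S a b → ∃ C, C ⊆ Finset.Ioo a b ∧ R a b C) :
    ∃ S', S ⊆ S' ∧ S' ⊆ Finset.range (N + 1) ∧
      (∀ a b, Consec S a b → ∃ C, C ⊆ Finset.Ioo a b ∧ R a b C ∧
        S'.filter (fun c => a < c ∧ c < b) = C ∧
        ∀ c c', Consec S' c c' → a ≤ c → c < b → Consec (withEnds a b C) c c') ∧
      ∀ c c', Consec S' c c' → ∃ a b, Consec S a b ∧ a ≤ c ∧ c < b := by
  classical
  let cuts : ℕ → ℕ → Finset ℕ := fun a b =>
    if h : Consec S a b then (hR a b h).choose else ∅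
  have hcuts : ∀ a b, Consec S a b → cuts a b ⊆ Finset.Ioo a b ∧ R a b (cuts a b) := by
    intro a b h
    simp only [cuts, dif_pos h]
    exact (hR a b h).choose_spec
  let S' := S ∪ (Finset.range (N + 1)).filter (fun c => ∃ a b, Consec S a b ∧ c ∈ cuts a b)
  have hsub : S' ⊆ Finset.range (N + 1) := Finset.union_subset hS (Finset.filter_subset _ _)
  have key : ∀ a b, Consec S a b →
      S'.filter (fun c => a < c ∧ c < b) = cuts a b := by
    intro a b h
    ext c
    simp only [S', Finset.mem_filter, Finset.mem_union, Finset.mem_range]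
    constructor
    · rintro ⟨hc | ⟨-, a', b', h', hc⟩, hac, hcb⟩
      · have := h.2.2.2 c hc hac
        omega
      · have hi := Finset.mem_Ioo.1 ((hcuts a' b' h').1 hc)
        obtain ⟨rfl, rfl⟩ := consec_unique h h' hac.le hcb hi.1.le hi.2
        exact hc
    · intro hc
      have hi := Finset.mem_Ioo.1 ((hcuts a b h).1 hc)
      have hb := Finset.mem_range.1 (hS h.2.1)
      exact ⟨Or.inr ⟨by omega, a, b, h, hc⟩, hi.1, hi.2⟩
  refine ⟨S', Finset.subset_union_left, hsub, fun a b h => ?_, fun c c' h => ?_⟩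
  · refine ⟨cuts a b, (hcuts a b h).1, (hcuts a b h).2, key a b h, ?_⟩
    intro c c' hcc hac hcb
    obtain ⟨hc, hc', hlt, hmin⟩ := hcc
    have hbS' : b ∈ S' := Finset.mem_union_left _ h.2.1
    have hc'b : c' ≤ b := hmin b hbS' hcb
    have mem : ∀ x ∈ S', a ≤ x → x ≤ b → x ∈ withEnds a b (cuts a b) := by
      intro x hx h1 h2
      simp only [withEnds, Finset.mem_insert]
      by_cases e1 : x = a
      · exact Or.inl e1
      by_cases e2 : x = b
      · exact Or.inr (Or.inl e2)
      refine Or.inr (Or.inr ?_)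
      rw [← key a b h, Finset.mem_filter]
      exact ⟨hx, by omega, by omega⟩
    have back : ∀ x ∈ withEnds a b (cuts a b), x ∈ S' := by
      intro x hx
      simp only [withEnds, Finset.mem_insert] at hx
      rcases hx with rfl | rfl | hx
      · exact Finset.mem_union_left _ h.1
      · exact hbS'
      · rw [← key a b h, Finset.mem_filter] at hx
        exact hx.1
    exact ⟨mem c hc hac hcb.le, mem c' hc' (by omega) hc'b, hlt,
      fun x hx hcx => hmin x (back x hx) hcx⟩
  · have hcN : c < N := by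
      have := Finset.mem_range.1 (hsub h.2.1)
      have := h.2.2.1
      omega
    exact exists_node h0 hN hcN

end Vale.Agent.P262
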