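import Mathlib
import Vale.Agent.P262.Defs
import Vale.Agent.P262.HierStep

/-! The three kinds of cuts. -/

namespace Vale.Agent.P262

open Finset

variable {u : ℕ → ℕ → ℝ} {d : ℕ}

/-- The node is a single step or has `u` at most `U`. -/
def Small (u : ℕ → ℕ → ℝ) (U : ℝ) (a b : ℕ) : Prop := b ≤ a + 1 ∨ u a b ≤ U

/-- The node is a single step or its part without the last step has `u` at most `U`. -/
def PreSmall (u : ℕ → ℕ → ℝ) (U : ℝ) (a b : ℕ) : Prop := b ≤ a + 1 ∨ u a (b - 1) ≤ U

lemma left_end_mem (a b : ℕ) (C : Finset ℕ) : a ∈ withEnds a b C := Finset.mem_insert_self _ _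

lemma right_end_mem (a b : ℕ) (C : Finset ℕ) : b ∈ withEnds a b C :=
  Finset.mem_insert_of_mem (Finset.mem_insert_self _ _)

lemma cut_mem {a b x : ℕ} {C : Finset ℕ} (h : x ∈ C) : x ∈ withEnds a b C :=
  Finset.mem_insert_of_mem (Finset.mem_insert_of_mem h)

/-- Cutting off the last step. -/
lemma cut_prefix (hu : UFun u d) {U : ℝ} {a b : ℕ} (hab : a < b) (h : PreSmall u U a b) :
    ∃ C, C ⊆ Finset.Ioo a b ∧ C.card ≤ 2 ∧
      ∀ c c', Consec (withEnds a b C) c c' → Small u U c c' := by
  refine ⟨({b - 1} : Finset ℕ).filter (fun x => a < x), ?_, ?_, ?_⟩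
  · intro x hx
    simp only [Finset.mem_filter, Finset.mem_singleton] at hx
    simp only [Finset.mem_Ioo]
    omega
  · exact (Finset.card_filter_le _ _).trans (by simp)
  · intro c c' hc
    obtain ⟨hac, hlt, hcb, hsep⟩ := consec_withEnds hab (by
      intro x hx
      simp only [Finset.mem_filter, Finset.mem_singleton] at hx
      simp only [Finset.mem_Ioo]
      omega) hc
    rcases h with h | h
    · exact Or.inl (by omega)
    by_cases hmid : a < b - 1
    · rcases hsep (b - 1) (cut_mem (by simp [hmid])) with hx | hx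
      · exact Or.inl (by omega)
      · exact Or.inr ((hu.mono a c c' (b - 1) hac hlt.le hx).trans h)
    · exact Or.inl (by omega)

/-- Splitting at a clean threshold. -/
lemma cut_few (hu : UFun u d) (r : ℤ) {T U : ℝ} (h1 : (r : ℝ) + 4 * (U - T) ≤ T)
    (h2 : U ≤ r + 1 - 4 * (U - T)) {a b : ℕ} (hab : a < b) (h : Small u U a b) :
    ∃ C, C ⊆ Finset.Ioo a b ∧ C.card ≤ 2 ∧
      ∀ c c', Consec (withEnds a b C) c c' → Small u T c c' := by
  classical
  by_cases hbT : b ≤ a + 1 ∨ u a b ≤ T
  · refine ⟨∅, by simp, by simp, fun c c' hc => ?_⟩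
    obtain ⟨hac, hlt, hcb, -⟩ := consec_withEnds hab (by simp) hc
    rcases hbT with h | h
    · exact Or.inl (by omega)
    · exact Or.inr ((hu.mono a c c' b hac hlt.le hcb).trans h)
  push Not at hbT
  have hU : u a b ≤ U := h.resolve_left (by omega)
  have hex : ∃ k, T < u a (a + k + 1) := ⟨b - a - 1, by
    have : a + (b - a - 1) + 1 = b := by omega
    rw [this]; exact hbT.2⟩
  set m := a + Nat.find hex with hm
  have hmu : T < u a (m + 1) := Nat.find_spec hex
  have hmb : m + 1 ≤ b := by
    have : Nat.find hex ≤ b - a - 1 := Nat.find_min' hex (by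
      have : a + (b - a - 1) + 1 = b := by omega
      rw [this]; exact hbT.2)
    omega
  have hle : a < m → u a m ≤ T := by
    intro ham
    have := Nat.find_min hex (m := Nat.find hex - 1) (by omega)
    rw [not_lt] at this
    have e : a + (Nat.find hex - 1) + 1 = m := by omega
    rwa [e] at this
  have hsplit : u (m + 1) b ≤ T :=
    hu.split r T (U - T) a (m + 1) b (by omega) hmb h1 (by linarith) (by linarith) hmu
  have hC : ({m, m + 1} : Finset ℕ).filter (fun x => a < x ∧ x < b) ⊆ Finset.Ioo a b := by
    intro x hx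
    simp only [Finset.mem_filter] at hx
    simp only [Finset.mem_Ioo]
    exact hx.2
  refine ⟨_, hC, (Finset.card_filter_le _ _).trans Finset.card_le_two, fun c c' hc => ?_⟩
  obtain ⟨hac, hlt, hcb, hsep⟩ := consec_withEnds hab hC hc
  have s1 : m ≤ c ∨ c' ≤ m := by
    by_cases e : a < m
    · exact hsep m (cut_mem (by simp [e]; omega))
    · omega
  have s2 : m + 1 ≤ c ∨ c' ≤ m + 1 := by
    by_cases e : m + 1 < b
    · exact hsep (m + 1) (cut_mem (by simp [e]; omega))
    · omega
  rcases s1 with s1 | s1
  · rcases s2 with s2 | s2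
    · exact Or.inr ((hu.mono (m + 1) c c' b s2 hlt.le hcb).trans hsplit)
    · exact Or.inl (by omega)
  · exact Or.inr ((hu.mono a c c' m hac hlt.le s1).trans (hle (by omega)))

/-- Rounds: children whose part without the last step is at most `U`, all but the last
above `U`. -/
lemma cut_rounds (hu : UFun u d) {U : ℝ} (k : ℕ) : ∀ {a b : ℕ}, a < b → b ≤ a + k →
    ∃ C, C ⊆ Finset.Ioo a b ∧
      ∀ c c', Consec (withEnds a b C) c c' → PreSmall u U c c' ∧ (c' < b → U < u c c') := by
  classical
  induction k with
  | zero => intro a b h1 h2; omega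
  | succ k ih =>
    intro a b hab hk
    by_cases hlast : b ≤ a + 1 ∨ u a (b - 1) ≤ U
    · refine ⟨∅, by simp, fun c c' hc => ?_⟩
      obtain ⟨hc1, hc2, hlt, -⟩ := hc
      simp only [withEnds, Finset.mem_insert, Finset.notMem_empty, or_false] at hc1 hc2
      obtain ⟨rfl, rfl⟩ : c = a ∧ c' = b := by omega
      exact ⟨hlast, fun h => absurd h (lt_irrefl _)⟩
    push Not at hlast
    have hex : ∃ i, U < u a (a + i + 1) := ⟨b - a - 2, by
      have : a + (b - a - 2) + 1 = b - 1 := by omega
      rw [this]; exact hlast.2⟩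
    set m := a + Nat.find hex + 1 with hm
    have hmu : U < u a m := Nat.find_spec hex
    have hmb : m < b := by
      have : Nat.find hex ≤ b - a - 2 := Nat.find_min' hex (by
        have : a + (b - a - 2) + 1 = b - 1 := by omega
        rw [this]; exact hlast.2)
      omega
    have hle : m ≤ a + 1 ∨ u a (m - 1) ≤ U := by
      by_cases h0 : Nat.find hex = 0
      · exact Or.inl (by omega)
      · have := Nat.find_min hex (m := Nat.find hex - 1) (by omega)
        rw [not_lt] at this
        have e : a + (Nat.find hex - 1) + 1 = m - 1 := by omega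
        rw [e] at this
        exact Or.inr this
    obtain ⟨C, hC, hP⟩ := ih (a := m) (b := b) hmb (by omega)
    have hC' : insert m C ⊆ Finset.Ioo a b := by
      intro x hx
      rcases Finset.mem_insert.1 hx with rfl | hx
      · simp only [Finset.mem_Ioo]; omega
      · have := Finset.mem_Ioo.1 (hC hx)
        simp only [Finset.mem_Ioo]; omega
    refine ⟨insert m C, hC', fun c c' hc => ?_⟩
    obtain ⟨hac, hlt, hcb, hsep⟩ := consec_withEnds hab hC' hc
    obtain ⟨hc1, hc2, -, hmin⟩ := hc
    rcases hsep m (cut_mem (Finset.mem_insert_self _ _)) with hx | hx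
    · refine hP c c' ⟨?_, ?_, hlt, fun x hx' hcx => hmin x ?_ hcx⟩
      · simp only [withEnds, Finset.mem_insert] at hc1 ⊢
        rcases hc1 with rfl | rfl | rfl | h
        · omega
        · exact Or.inr (Or.inl rfl)
        · exact Or.inl rfl
        · exact Or.inr (Or.inr h)
      · simp only [withEnds, Finset.mem_insert] at hc2 ⊢
        rcases hc2 with rfl | rfl | rfl | h
        · omega
        · exact Or.inr (Or.inl rfl)
        · exact Or.inl rfl
        · exact Or.inr (Or.inr h)
      · simp only [withEnds, Finset.mem_insert] at hx' ⊢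
        tauto
    · have hge : ∀ x ∈ withEnds a b (insert m C), x = a ∨ m ≤ x := by
        intro x hx'
        simp only [withEnds, Finset.mem_insert] at hx'
        rcases hx' with rfl | rfl | rfl | h
        · exact Or.inl rfl
        · exact Or.inr hmb.le
        · exact Or.inr le_rfl
        · exact Or.inr (Finset.mem_Ioo.1 (hC h)).1.le
      have e1 : c = a := by rcases hge c hc1 with e | e <;> omega
      have e2 : c' = m := by rcases hge c' hc2 with e | e <;> omega
      subst e1 e2
      exact ⟨hle, fun _ => hmu⟩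

end Vale.Agent.P262
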