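import Mathlib
import Vale.Agent.P262.Defs

/-! Statements of the modules. Only propositions; nothing is assumed. -/

namespace Vale.Agent.P262

open scoped RealInnerProductSpace
open Classical

/-- Module A: the linear algebra of the maps `fwd`. -/
def LinFacts : Prop :=
  ∀ (d : ℕ) (v : ℕ → Vec d) (κ : ℝ), (∀ i, ‖v i‖ = 1) → 0 < κ → κ ≤ 1 / 4 →
    (∀ a b c p, a ≤ b → b ≤ c → fwd v κ a c p = fwd v κ b c (fwd v κ a b p)) ∧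
    (∀ a b c p, a ≤ b → b ≤ c → bwd v κ a c p = bwd v κ a b (bwd v κ b c p)) ∧
    (∀ a b p w, ⟪fwd v κ a b p, w⟫ = ⟪p, bwd v κ a b w⟫) ∧
    (∀ a b p, ‖fwd v κ a b p‖ ≤ ‖p‖) ∧ (∀ a b p, ‖bwd v κ a b p‖ ≤ ‖p‖) ∧
    (∀ t, udim v κ t (t + 1) = 2 * κ - κ ^ 2) ∧
    UFun (udim v κ) d ∧
    -- rows of `I - AᵀA` of a node `[x, y)`
    (∀ x y, x ≤ y → ∃ h : Fin d → Vec d,
      (∀ w, ‖w‖ ^ 2 - ‖fwd v κ x y w‖ ^ 2 = ∑ i, ⟪h i, w⟫ ^ 2) ∧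
      (∀ i, ‖h i‖ ≤ 1) ∧
      (∀ b, b ≤ x → ∑ i, ‖bwd v κ b x (h i)‖ ^ 2 = udim v κ b y - udim v κ b x)) ∧
    (∀ b N, ∑ i, ‖bwd v κ b N (EuclideanSpace.single i 1)‖ ^ 2 = d - udim v κ b N) ∧
    -- an increment of an admissible path has noise coefficients of square sum `qf`
    (∀ c c' w γ, c ≤ c' → Valid v κ c c' γ →
      ⟪w, γ c' - fwd v κ c c' (γ c)⟫ ^ 2 ≤ 9 / 4 * ((c' - c : ℕ) : ℝ) * qf v κ c c' w)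

/-- Module B: the hierarchy. `δ = (4/5)^K / 2`. -/
def HierExists : Prop :=
  ∀ (u : ℕ → ℕ → ℝ) (d N K : ℕ), UFun u d → 1 ≤ d → 1 ≤ N → 4 ≤ K →
    (∀ t, (4 / 5 : ℝ) ^ K / 2 < u t (t + 1)) →
    ∃ (S : ℕ → Finset ℕ) (F : Finset ℕ) (J : ℕ),
      Hier u S F J N ((4 / 5 : ℝ) ^ K / 2) ∧ F.card ≤ d ∧ J ≤ (d + 1) * (2 * K + 4)

/-- Module C: a path passing all tests, when each node is crossed by few tests. -/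
def PathExists : Prop :=
  ∃ θ : ℝ, 0 < θ ∧
    ∀ (d : ℕ) (v : ℕ → Vec d) (κ : ℝ), (∀ i, ‖v i‖ = 1) → 0 < κ → κ ≤ 1 / 4 →
    ∀ (S : ℕ → Finset ℕ) (J N : ℕ), 1 ≤ N → Part S J N →
    ∀ (n : ℕ) (e : Fin n → Ev d) (err : ℝ), (∀ i, (e i).Adm v κ N) →
      0 ≤ err → ((J : ℝ) + 1) * Real.sqrt err ≤ θ →
      (∀ j, j ≤ J → ∀ a b, Consec (S j) a b →
        ∑ i ∈ Finset.univ.filter (fun i => Crosses S J j a b (e i)),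
          Real.exp (-(e i).lam) ≤ err) →
      ∃ γ : ℕ → Vec d, γ 0 = 0 ∧ Valid v κ 0 N γ ∧ ∀ i, (e i).Pass v κ γ

/-- Module D: the tests that control every prefix. -/
def TestsExist : Prop :=
  ∀ θ : ℝ, 0 < θ → ∃ A B : ℕ,
    ∀ (d : ℕ) (v : ℕ → Vec d), 1 ≤ d → (∀ i, ‖v i‖ = 1) →
    ∀ n₀ : ℕ, d + B ≤ 2 ^ n₀ →
    ∀ N : ℕ, 1 ≤ N →
    ∃ (κ : ℝ) (S : ℕ → Finset ℕ) (J n : ℕ) (e : Fin n → Ev d) (err : ℝ),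
      0 < κ ∧ κ ≤ 1 / 4 ∧ Part S J N ∧ (∀ i, (e i).Adm v κ N) ∧
      0 ≤ err ∧ ((J : ℝ) + 1) * Real.sqrt err ≤ θ ∧
      (∀ j, j ≤ J → ∀ a b, Consec (S j) a b →
        ∑ i ∈ Finset.univ.filter (fun i => Crosses S J j a b (e i)),
          Real.exp (-(e i).lam) ≤ err) ∧
      ∀ γ : ℕ → Vec d, γ 0 = 0 → Valid v κ 0 N γ → (∀ i, (e i).Pass v κ γ) →
        (∀ t, t < N → |κ * ⟪v t, γ t⟫| ≤ 1 / 2) ∧
          ∀ t, t ≤ N → ‖γ t‖ ≤ (A : ℝ) * n₀ * Real.sqrt d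

/-- Signed prefix balancing with bound `σ` for `N` vectors in dimension `d`. -/
def Signable (d N : ℕ) (σ : ℝ) : Prop :=
  ∀ v : Fin N → Vec d, (∀ i, ‖v i‖ ≤ 1) →
    ∃ s : Fin N → ℝ, (∀ i, s i = 1 ∨ s i = -1) ∧
      ∀ k : ℕ, ‖∑ i ∈ Finset.univ.filter (fun i : Fin N => i.val < k), s i • v i‖ ≤ σ

/-- Module E: Chobanyan's transference. -/
def Transference : Prop :=
  ∀ (d N : ℕ) (σ : ℝ), Signable d N σ → ∀ v : Fin N → Vec d, (∀ i, ‖v i‖ ≤ 1) → ∑ i, v i = 0 →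
    ∃ π : Equiv.Perm (Fin N),
      ∀ k : ℕ, ‖∑ i ∈ Finset.univ.filter (fun i : Fin N => i.val < k), v (π i)‖ ≤ σ

/-- The final bound. -/
def MainBound : Prop :=
  ∃ C : ℝ, ∀ d N : ℕ, Signable d N (C * Real.sqrt d * Real.log (d + 1))

end Vale.Agent.P262
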