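import Mathlib
import Vale.Agent.P262.Defs
import Vale.Agent.P262.Interface
import Vale.Agent.P262.HierStep
import Vale.Agent.P262.HierCuts

/-! Module B: the hierarchy. -/

namespace Vale.Agent.P262

open Finset

/-- A hierarchy built down to level `j` whose last level satisfies `P`. -/
def Built (u : ℕ → ℕ → ℝ) (N : ℕ) (δ : ℝ) (j f : ℕ) (P : ℕ → ℕ → Prop) : Prop :=
  ∃ (S : ℕ → Finset ℕ) (F : Finset ℕ),
    S 0 = {0, N} ∧ (∀ i, i < j → S i ⊆ S (i + 1)) ∧
    (∀ i, i ≤ j → S i ⊆ Finset.range (N + 1) ∧ 0 ∈ S i ∧ N ∈ S i) ∧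
    (∀ i, i < j → ∀ a b, Consec (S i) a b →
      ((S (i + 1)).filter (fun c => a < c ∧ c < b)).card ≤ 2 ∨
        (i ∈ F ∧ ∀ c c', Consec (S (i + 1)) c c' → a ≤ c → c' < b → u a b - 2 * δ < u c c')) ∧
    F.card ≤ f ∧ ∀ a b, Consec (S j) a b → P a b

variable {u : ℕ → ℕ → ℝ} {d N : ℕ} {δ : ℝ}

lemma built_zero (hu : UFun u d) {U : ℝ} (hU : (d : ℝ) ≤ U) :
    Built u N δ 0 0 (Small u U) := by
  refine ⟨fun _ => {0, N}, ∅, rfl, fun i hi => absurd hi (Nat.not_lt_zero i),
    fun i _ => ⟨?_, by simp, by simp⟩, fun i hi => absurd hi (Nat.not_lt_zero i), by simp,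
    fun a b _ => Or.inr ((hu.le_dim a b).trans hU)⟩
  intro x hx
  simp only [Finset.mem_insert, Finset.mem_singleton] at hx
  simp only [Finset.mem_range]
  omega

lemma built_extend {j f g : ℕ} {P P' : ℕ → ℕ → Prop} (hB : Built u N δ j f P)
    (hg : g ≤ 1)
    (hcut : ∀ a b, a < b → b ≤ N → P a b → ∃ C, C ⊆ Finset.Ioo a b ∧
      (C.card ≤ 2 ∨ g = 1 ∧ ∀ c c', Consec (withEnds a b C) c c' → c' < b →
        u a b - 2 * δ < u c c') ∧
      ∀ c c', Consec (withEnds a b C) c c' → P' c c') :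
    Built u N δ (j + 1) (f + g) P' := by
  classical
  obtain ⟨S, F, h0, hmono, hmem, hnode, hF, hP⟩ := hB
  obtain ⟨hr, hz, hN⟩ := hmem j le_rfl
  obtain ⟨S', hsub, hr', hin, hout⟩ := refine_nodes hr hz hN
    (fun a b C => (C.card ≤ 2 ∨ g = 1 ∧ ∀ c c', Consec (withEnds a b C) c c' → c' < b →
        u a b - 2 * δ < u c c') ∧
      ∀ c c', Consec (withEnds a b C) c c' → P' c c')
    (fun a b h => hcut a b h.2.2.1
      (Nat.lt_succ_iff.1 (Finset.mem_range.1 (hr h.2.1))) (hP a b h))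
  let T : ℕ → Finset ℕ := fun i => if i ≤ j then S i else S'
  have Tle : ∀ i, i ≤ j → T i = S i := fun i hi => if_pos hi
  have Tsucc : T (j + 1) = S' := if_neg (by omega)
  refine ⟨T, if g = 1 then insert j F else F, ?_, ?_, ?_, ?_, ?_, ?_⟩
  · rw [Tle 0 (Nat.zero_le j)]; exact h0
  · intro i hi
    rcases Nat.lt_succ_iff_lt_or_eq.1 hi with hi | rfl
    · rw [Tle i hi.le, Tle (i + 1) hi]; exact hmono i hi
    · rw [Tle i le_rfl, Tsucc]; exact hsub
  · intro i hi
    rcases Nat.le_succ_iff.1 hi with hi | rfl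
    · rw [Tle i hi]; exact hmem i hi
    · rw [Tsucc]; exact ⟨hr', hsub hz, hsub hN⟩
  · intro i hi a b hab
    rcases Nat.lt_succ_iff_lt_or_eq.1 hi with hi | rfl
    · rw [Tle i hi.le] at hab
      rw [Tle (i + 1) hi]
      rcases hnode i hi a b hab with h | h
      · exact Or.inl h
      · refine Or.inr ⟨?_, h.2⟩
        split_ifs
        · exact Finset.mem_insert_of_mem h.1
        · exact h.1
    · rw [Tle i le_rfl] at hab
      rw [Tsucc]
      obtain ⟨C, -, ⟨hC1, -⟩, hCeq, hconv⟩ := hin a b hab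
      rcases hC1 with h | h
      · exact Or.inl (by rw [hCeq]; exact h)
      · refine Or.inr ⟨?_, fun c c' hc hac hcb => ?_⟩
        · rw [if_pos h.1]; exact Finset.mem_insert_self _ _
        · exact h.2 c c' (hconv c c' hc hac (lt_trans hc.2.2.1 hcb)) hcb
  · split_ifs with h
    · exact (Finset.card_insert_le _ _).trans (by omega)
    · omega
  · intro c c' hc
    rw [Tsucc] at hc
    obtain ⟨a, b, hab, hac, hcb⟩ := hout c c' hc
    obtain ⟨C, -, ⟨-, hC2⟩, -, hconv⟩ := hin a b hab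
    exact hC2 c c' (hconv c c' hc hac hcb)

lemma built_few (hu : UFun u d) (r : ℤ) {j f : ℕ} {T U : ℝ}
    (h1 : (r : ℝ) + 4 * (U - T) ≤ T) (h2 : U ≤ r + 1 - 4 * (U - T))
    (hB : Built u N δ j f (Small u U)) : Built u N δ (j + 1) f (Small u T) :=
  built_extend (g := 0) hB (Nat.zero_le 1) fun a b hab _ hP => by
    obtain ⟨C, hC, h3, h4⟩ := cut_few hu r h1 h2 hab hP
    exact ⟨C, hC, Or.inl h3, h4⟩

lemma built_class (hu : UFun u d) (K : ℕ) (r : ℤ) {j f : ℕ}
    (hB : Built u N ((4 / 5 : ℝ) ^ K / 2) j f (Small u ((r : ℝ) + (4 / 5 : ℝ) ^ K / 2))) :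
    Built u N ((4 / 5 : ℝ) ^ K / 2) (j + (2 * K + 2)) (f + 1)
      (Small u ((r : ℝ) - 1 + (4 / 5 : ℝ) ^ K / 2)) := by
  set δ := (4 / 5 : ℝ) ^ K / 2 with hδ
  have hfree : Built u N δ (j + 1) (f + 1) (PreSmall u ((r : ℝ) - δ)) := by
    refine built_extend (g := 1) hB le_rfl fun a b hab _ hP => ?_
    obtain ⟨C, hC, h3⟩ := cut_rounds hu (U := (r : ℝ) - δ) b hab (Nat.le_add_left b a)
    refine ⟨C, hC, Or.inr ⟨rfl, fun c c' hc hcb => ?_⟩, fun c c' hc => (h3 c c' hc).1⟩
    obtain ⟨hac, hlt, -, -⟩ := consec_withEnds hab hC hc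
    rcases hP with h | h
    · omega
    · linarith [(h3 c c' hc).2 hcb]
  have hpre : Built u N δ (j + 2) (f + 1) (Small u ((r : ℝ) - δ)) :=
    built_extend (g := 0) hfree (Nat.zero_le 1) fun a b hab _ hP => by
      obtain ⟨C, hC, h3, h4⟩ := cut_prefix hu hab hP
      exact ⟨C, hC, Or.inl h3, h4⟩
  have up : ∀ i, i ≤ K → Built u N δ (j + 2 + i) (f + 1)
      (Small u ((r : ℝ) - (4 / 5 : ℝ) ^ (K - i) / 2)) := by
    intro i
    induction i with
    | zero => intro _; simpa [hδ] using hpre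
    | succ i ih =>
      intro hi
      have e : K - i = (K - (i + 1)) + 1 := by omega
      have hb := ih (by omega)
      rw [e, pow_succ] at hb
      have h0 : (0 : ℝ) < (4 / 5) ^ (K - (i + 1)) := by positivity
      have h1 : (4 / 5 : ℝ) ^ (K - (i + 1)) ≤ 1 := pow_le_one₀ (by norm_num) (by norm_num)
      exact built_few hu (r - 1) (by push_cast; linarith) (by push_cast; linarith) hb
  have down : ∀ i, i ≤ K → Built u N δ (j + 2 + K + i) (f + 1)
      (Small u ((r : ℝ) - 1 + (4 / 5 : ℝ) ^ i / 2)) := by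
    intro i
    induction i with
    | zero =>
      intro _
      have h := up K le_rfl
      rw [Nat.sub_self, pow_zero] at h
      rw [pow_zero, show (r : ℝ) - 1 + 1 / 2 = (r : ℝ) - 1 / 2 by ring]
      simpa using h
    | succ i ih =>
      intro hi
      have hb := ih (by omega)
      have h0 : (0 : ℝ) < (4 / 5) ^ i := by positivity
      have h1 : (4 / 5 : ℝ) ^ i ≤ 1 := pow_le_one₀ (by norm_num) (by norm_num)
      rw [pow_succ]
      exact built_few hu (r - 1) (by push_cast; linarith) (by push_cast; linarith) hb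
  have := down K le_rfl
  rwa [show j + 2 + K + K = j + (2 * K + 2) by omega] at this

theorem hierExists : HierExists := by
  intro u d N K hu _ _ _ hstep
  set δ := (4 / 5 : ℝ) ^ K / 2 with hδ
  have hpos : 0 < δ := by positivity
  have iter : ∀ i, i ≤ d → Built u N δ (i * (2 * K + 2)) i (Small u (((d - i : ℕ) : ℝ) + δ)) := by
    intro i
    induction i with
    | zero => intro _; simpa using built_zero (N := N) (δ := δ) hu (U := (d : ℝ) + δ) (by linarith)
    | succ i ih =>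
      intro hi
      have h := built_class (N := N) hu K ((d - i : ℕ) : ℤ) (j := i * (2 * K + 2)) (f := i)
        (by rw [← hδ, Int.cast_natCast]; exact ih (by omega))
      rw [← hδ, Int.cast_natCast] at h
      have e : ((d - i : ℕ) : ℝ) - 1 = ((d - (i + 1) : ℕ) : ℝ) := by
        rw [show d - i = (d - (i + 1)) + 1 by omega]; push_cast; ring
      rw [e, show i * (2 * K + 2) + (2 * K + 2) = (i + 1) * (2 * K + 2) by ring] at h
      exact h
  obtain ⟨S, F, h0, hmono, hmem, hnode, hF, hP⟩ := iter d le_rfl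
  refine ⟨S, F, d * (2 * K + 2), ⟨⟨h0, ?_, hmono⟩, hnode⟩, hF, Nat.mul_le_mul (by omega) (by omega)⟩
  refine Finset.Subset.antisymm (hmem _ le_rfl).1 fun t ht => ?_
  have htN : t ≤ N := Nat.lt_succ_iff.1 (Finset.mem_range.1 ht)
  rcases htN.lt_or_eq with htN | rfl
  · obtain ⟨a, b, hab, hat, htb⟩ := exists_node (hmem _ le_rfl).2.1 (hmem _ le_rfl).2.2 htN
    rcases hP a b hab with h | h
    · have : t = a := by omega
      exact this ▸ hab.1
    · by_cases hlen : b ≤ a + 1
      · have : t = a := by omega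
        exact this ▸ hab.1
      · have h2 := hu.mono a a (a + 1) b le_rfl (Nat.le_succ a) (by omega)
        simp only [Nat.sub_self, Nat.cast_zero, zero_add] at h
        linarith [hstep a]
  · exact (hmem _ le_rfl).2.2

end Vale.Agent.P262
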