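import Mathlib.Analysis.Matrix.PosDef
import Mathlib.Analysis.Matrix.Order
import Mathlib.Algebra.Order.Floor.Ring
import Mathlib.Data.Real.Basic
import Mathlib.Tactic.Linarith
import Mathlib.Tactic.Ring
import Mathlib.Tactic.LinearCombination

/-! Linear algebra for the mixed dimension `u = d - tr (Aᵀ A)`. -/

namespace Vale.Agent.P262

open Matrix

variable {n : Type*} [Fintype n] [DecidableEq n]

/-- A matrix not increasing Euclidean norms. -/
def IsContr (A : Matrix n n ℝ) : Prop := ∀ w, A *ᵥ w ⬝ᵥ A *ᵥ w ≤ w ⬝ᵥ w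

/-- The step matrix. -/
def stepMat (k : ℝ) (v : n → ℝ) : Matrix n n ℝ := 1 - k • vecMulVec v v

/-- The mixed dimension of a product. -/
noncomputable def mixDim (A : Matrix n n ℝ) : ℝ := (Fintype.card n : ℝ) - (Aᵀ * A).trace

lemma stepMat_mulVec (k : ℝ) (v w : n → ℝ) :
    stepMat k v *ᵥ w = w - (k * (v ⬝ᵥ w)) • v := by
  ext i
  simp [stepMat, sub_mulVec, smul_mulVec, vecMulVec_mulVec, mul_comm, mul_left_comm]

omit [Fintype n] in
lemma stepMat_transpose (k : ℝ) (v : n → ℝ) : (stepMat k v)ᵀ = stepMat k v := by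
  simp [stepMat, transpose_vecMulVec]

lemma stepMat_mulVec_sq (k : ℝ) (v w : n → ℝ) (hv : v ⬝ᵥ v = 1) :
    stepMat k v *ᵥ w ⬝ᵥ stepMat k v *ᵥ w = w ⬝ᵥ w - (2 * k - k ^ 2) * (v ⬝ᵥ w) ^ 2 := by
  rw [stepMat_mulVec]
  simp only [sub_dotProduct, dotProduct_sub, smul_dotProduct, dotProduct_smul, smul_eq_mul, hv,
    dotProduct_comm w v]
  ring

lemma isContr_stepMat {k : ℝ} (hk : 0 ≤ k) (hk' : k ≤ 2) {v : n → ℝ} (hv : v ⬝ᵥ v = 1) :
    IsContr (stepMat k v) := fun w => by
  rw [stepMat_mulVec_sq k v w hv]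
  nlinarith [mul_nonneg (mul_nonneg hk (sub_nonneg.2 hk')) (sq_nonneg (v ⬝ᵥ w))]

omit [DecidableEq n] in
lemma IsContr.mul {A B : Matrix n n ℝ} (hA : IsContr A) (hB : IsContr B) : IsContr (A * B) :=
  fun w => by rw [← mulVec_mulVec]; exact (hA _).trans (hB w)

lemma isContr_one : IsContr (1 : Matrix n n ℝ) := fun w => by simp

omit [DecidableEq n] in
lemma IsContr.transpose {A : Matrix n n ℝ} (hA : IsContr A) : IsContr Aᵀ := fun w => by
  set z := Aᵀ *ᵥ w with hz
  have h1 : z ⬝ᵥ z = w ⬝ᵥ A *ᵥ z := by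
    conv_lhs => arg 1; rw [hz, mulVec_transpose]
    rw [← dotProduct_mulVec]
  have h2 : 0 ≤ (w - A *ᵥ z) ⬝ᵥ (w - A *ᵥ z) := dotProduct_self_star_nonneg (w - A *ᵥ z)
  have h3 := hA z
  simp only [sub_dotProduct, dotProduct_sub, dotProduct_comm (A *ᵥ z) w] at h2
  linarith

lemma IsContr.posSemidef {A : Matrix n n ℝ} (hA : IsContr A) : (1 - Aᵀ * A).PosSemidef := by
  refine .of_dotProduct_mulVec_nonneg ?_ fun w => ?_
  · rw [IsHermitian, conjTranspose_eq_transpose_of_trivial]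
    simp
  · rw [star_trivial, sub_mulVec, one_mulVec, dotProduct_sub, ← mulVec_mulVec,
      dotProduct_mulVec w Aᵀ, vecMul_transpose]
    linarith [hA w]

omit [DecidableEq n] in
lemma trace_transpose_mul_nonneg (A : Matrix n n ℝ) : 0 ≤ (Aᵀ * A).trace := by
  simpa [conjTranspose_eq_transpose_of_trivial] using
    (posSemidef_conjTranspose_mul_self A).trace_nonneg

omit [DecidableEq n] in
lemma mixDim_le_card (A : Matrix n n ℝ) : mixDim A ≤ Fintype.card n := by
  linarith [trace_transpose_mul_nonneg A, mixDim.eq_def A]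

lemma mixDim_nonneg {A : Matrix n n ℝ} (hA : IsContr A) : 0 ≤ mixDim A := by
  have := hA.posSemidef.trace_nonneg
  rw [trace_sub, trace_one] at this
  exact this

omit [DecidableEq n] in
lemma mixDim_transpose (A : Matrix n n ℝ) : mixDim Aᵀ = mixDim A := by
  rw [mixDim, mixDim, transpose_transpose, trace_mul_comm]

/-- `u(A) ≤ u(B A)`. -/
lemma mixDim_le_mul_left {A B : Matrix n n ℝ} (hB : IsContr B) :
    mixDim A ≤ mixDim (B * A) := by
  have := (hB.posSemidef.conjTranspose_mul_mul_same A).trace_nonneg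
  rw [conjTranspose_eq_transpose_of_trivial, Matrix.mul_sub, Matrix.sub_mul, Matrix.mul_one,
    trace_sub, sub_nonneg] at this
  rw [mixDim, mixDim, transpose_mul]
  simp only [Matrix.mul_assoc] at this ⊢
  linarith

/-- `u(B) ≤ u(B A)`. -/
lemma mixDim_le_mul_right {A B : Matrix n n ℝ} (hA : IsContr A) :
    mixDim B ≤ mixDim (B * A) := by
  rw [← mixDim_transpose B, ← mixDim_transpose (B * A), transpose_mul]
  exact mixDim_le_mul_left hA.transpose

/-- A square root of `1 - Aᵀ A`; its rows are the test vectors. -/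
lemma IsContr.exists_factor {A : Matrix n n ℝ} (hA : IsContr A) :
    ∃ C : Matrix n n ℝ, 1 - Aᵀ * A = Cᵀ * C := by
  open scoped MatrixOrder in
  obtain ⟨C, hC⟩ := CStarAlgebra.nonneg_iff_eq_star_mul_self.mp
    (nonneg_iff_posSemidef.2 hA.posSemidef)
  exact ⟨C, by rw [hC, star_eq_conjTranspose, conjTranspose_eq_transpose_of_trivial]⟩

/-- `‖A p‖² = ‖p‖² - ∑ ⟨h, p⟩²` over the test vectors `h`. -/
lemma mulVec_sq_eq_sub {A C : Matrix n n ℝ} (hC : 1 - Aᵀ * A = Cᵀ * C) (p : n → ℝ) :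
    A *ᵥ p ⬝ᵥ A *ᵥ p = p ⬝ᵥ p - ∑ i, (C i ⬝ᵥ p) ^ 2 := by
  have h := congrArg (fun M => p ⬝ᵥ M *ᵥ p) hC
  simp only [sub_mulVec, one_mulVec, dotProduct_sub, ← mulVec_mulVec, dotProduct_mulVec p Aᵀ,
    dotProduct_mulVec p Cᵀ, vecMul_transpose] at h
  have h2 : C *ᵥ p ⬝ᵥ C *ᵥ p = ∑ i, (C i ⬝ᵥ p) ^ 2 :=
    Finset.sum_congr rfl fun i _ => (pow_two _).symm
  linarith

/-- The squared norms of the test vectors sum to `u`. -/
lemma sum_factor_sq {A C : Matrix n n ℝ} (hC : 1 - Aᵀ * A = Cᵀ * C) :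
    ∑ i, C i ⬝ᵥ C i = mixDim A := by
  have h := congrArg trace hC
  rw [trace_sub, trace_one, trace_mul_comm Cᵀ C] at h
  exact h.symm

/-- Subadditivity. -/
lemma mixDim_mul_le {A B : Matrix n n ℝ} (hA : IsContr A) (hB : IsContr B) :
    mixDim (B * A) ≤ mixDim A + mixDim B := by
  obtain ⟨C, hC⟩ := hB.exists_factor
  have := (hA.transpose.posSemidef.conjTranspose_mul_mul_same Cᵀ).trace_nonneg
  rw [conjTranspose_eq_transpose_of_trivial, transpose_transpose, transpose_transpose,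
    trace_mul_cycle, ← hC, Matrix.mul_sub, Matrix.mul_one, trace_sub, Matrix.sub_mul,
    Matrix.one_mul, trace_sub, trace_sub, trace_one, trace_mul_comm A Aᵀ] at this
  have h : ((B * A)ᵀ * (B * A)).trace = (Bᵀ * B * (A * Aᵀ)).trace := by
    rw [transpose_mul, ← trace_mul_cycle]
    simp only [Matrix.mul_assoc]
  simp only [mixDim, h]
  linarith

/-- The defect `tr X (1 - X)` for `X = Aᵀ A`. -/
noncomputable def defect (A : Matrix n n ℝ) : ℝ := (Aᵀ * A).trace - (Aᵀ * A * (Aᵀ * A)).trace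

omit [DecidableEq n] in
lemma defect_transpose (A : Matrix n n ℝ) : defect Aᵀ = defect A := by
  rw [defect, defect, transpose_transpose, trace_mul_comm A Aᵀ]
  congr 1
  rw [Matrix.mul_assoc A, trace_mul_comm A]
  simp only [Matrix.mul_assoc]

omit [DecidableEq n] in
/-- `u₁ + u₂ + defects ≤ 2 u₁₂`. -/
lemma mixDim_add_defect_le (A B : Matrix n n ℝ) :
    mixDim A + mixDim B + (defect A + defect B) ≤ 2 * mixDim (B * A) := by
  have h0 := trace_transpose_mul_nonneg (Bᵀ * B - A * Aᵀ)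
  have h : ((B * A)ᵀ * (B * A)).trace = (Bᵀ * B * (A * Aᵀ)).trace := by
    rw [transpose_mul, ← trace_mul_cycle]
    simp only [Matrix.mul_assoc]
  have h' : (A * Aᵀ * (Bᵀ * B)).trace = (Bᵀ * B * (A * Aᵀ)).trace := trace_mul_comm _ _
  have h'' : (Aᵀ * A * (Aᵀ * A)).trace = (A * Aᵀ * (A * Aᵀ)).trace := by
    rw [Matrix.mul_assoc Aᵀ, trace_mul_comm Aᵀ]
    simp only [Matrix.mul_assoc]
  simp only [transpose_sub, transpose_mul, transpose_transpose, Matrix.sub_mul, Matrix.mul_sub,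
    trace_sub] at h0
  simp only [mixDim, defect, h]
  linarith

/-- Concavity bound for `∑ x (1 - x)`. -/
lemma fract_mul_le_sum {ι : Type*} (s : Finset ι) (x : ι → ℝ) (h0 : ∀ i ∈ s, 0 ≤ x i)
    (h1 : ∀ i ∈ s, x i ≤ 1) :
    Int.fract (∑ i ∈ s, x i) * (1 - Int.fract (∑ i ∈ s, x i)) ≤ ∑ i ∈ s, x i * (1 - x i) := by
  classical
  induction s using Finset.induction_on with
  | empty => simp
  | insert a s ha ih =>
    simp only [Finset.forall_mem_insert] at h0 h1
    have hih := ih h0.2 h1.2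
    rw [Finset.sum_insert ha, Finset.sum_insert ha]
    set b := ∑ i ∈ s, x i
    have hb0 := Int.fract_nonneg b
    have hb1 := (Int.fract_lt_one b).le
    have hfl := Int.floor_add_fract b
    rcases lt_or_ge (x a + Int.fract b) 1 with h | h
    · have : Int.fract (x a + b) = x a + Int.fract b :=
        Int.fract_eq_iff.2 ⟨by linarith [h0.1], h, ⌊b⌋, by linarith⟩
      rw [this]
      nlinarith [mul_nonneg h0.1 hb0]
    · have : Int.fract (x a + b) = x a + Int.fract b - 1 :=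
        Int.fract_eq_iff.2 ⟨by linarith, by linarith [h1.1, Int.fract_lt_one b], ⌊b⌋ + 1,
          by push_cast; linarith⟩
      rw [this]
      nlinarith [mul_nonneg (sub_nonneg.2 h1.1) (sub_nonneg.2 hb1)]

/-- `tr X (1 - X) ≥ f (1 - f)` with `f` the fractional part of `u`. -/
lemma fract_mul_le_defect {A : Matrix n n ℝ} (hA : IsContr A) :
    Int.fract (mixDim A) * (1 - Int.fract (mixDim A)) ≤ defect A := by
  set X := 1 - Aᵀ * A with hX
  have hXH : X.IsHermitian := hA.posSemidef.1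
  set e := hXH.eigenvalues with he
  have htr : mixDim A = ∑ i, e i := by
    have := hXH.trace_eq_sum_eigenvalues
    simp only [RCLike.ofReal_real_eq_id, id_eq] at this
    rw [← this, mixDim, hX, trace_sub, trace_one]
  have hsq : (X * X).trace = ∑ i, e i ^ 2 := by
    conv_lhs => rw [hXH.spectral_theorem, ← map_mul, Unitary.conjStarAlgAut_apply, trace_mul_cycle,
      Unitary.coe_star_mul_self, Matrix.one_mul, diagonal_mul_diagonal, trace_diagonal]
    simp [pow_two, e]
  have hdef : defect A = X.trace - (X * X).trace := by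
    simp only [defect, hX, Matrix.sub_mul, Matrix.mul_sub, Matrix.one_mul, Matrix.mul_one,
      trace_sub]
    ring
  have he1 : ∀ i, e i ≤ 1 := fun i => by
    set w := hXH.eigenvectorBasis i with hw
    have h1 : X *ᵥ ⇑w = e i • ⇑w := hXH.mulVec_eigenvectorBasis i
    have h2 : (⇑w : n → ℝ) ⬝ᵥ ⇑w = 1 := by
      have := hXH.eigenvectorBasis.orthonormal.1 i
      rw [← hw] at this
      have h3 : inner ℝ w w = (1 : ℝ) := by rw [real_inner_self_eq_norm_sq, this, one_pow]
      rwa [EuclideanSpace.inner_eq_star_dotProduct, star_trivial] at h3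
    have h3 : (⇑w : n → ℝ) ⬝ᵥ X *ᵥ ⇑w = e i := by rw [h1, dotProduct_smul, h2]; simp
    rw [hX, sub_mulVec, one_mulVec, dotProduct_sub, ← mulVec_mulVec, dotProduct_mulVec _ Aᵀ,
      vecMul_transpose, h2] at h3
    have h4 : 0 ≤ A *ᵥ ⇑w ⬝ᵥ A *ᵥ ⇑w := dotProduct_self_star_nonneg (A *ᵥ ⇑w)
    linarith
  have hXtr : X.trace = ∑ i, e i := by
    rw [← htr, mixDim, hX, trace_sub, trace_one]
  rw [htr, hdef, hXtr, hsq]
  refine (fract_mul_le_sum _ e (fun i _ => hA.posSemidef.eigenvalues_nonneg i)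
    (fun i _ => he1 i)).trans_eq ?_
  rw [← Finset.sum_sub_distrib]
  exact Finset.sum_congr rfl fun i _ => by ring

/-- Cleanness: two adjacent intervals above `T` cannot join below `T + h`. -/
lemma cleanness {A B : Matrix n n ℝ} (hA : IsContr A) (hB : IsContr B) {T D h : ℝ} (r : ℤ)
    (hD : 0 < D) (hT : r + D ≤ T) (hT' : T ≤ r + 1 - D) (hh : h ≤ D / 4)
    (h1 : T < mixDim A) (h2 : T < mixDim B) : T + h < mixDim (B * A) := by
  by_contra hle
  push Not at hle
  have key : ∀ C : Matrix n n ℝ, IsContr C → T < mixDim C → mixDim C ≤ mixDim (B * A) →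
      3 * D / 8 ≤ defect C := by
    intro C hC hT1 hT2
    have hf : Int.fract (mixDim C) = mixDim C - r :=
      Int.fract_eq_iff.2 ⟨by linarith, by linarith, r, by ring⟩
    have h := fract_mul_le_defect hC
    rw [hf] at h
    nlinarith [mul_nonneg (show (0 : ℝ) ≤ mixDim C - r - D by linarith)
      (show (0 : ℝ) ≤ 1 - 3 * D / 4 - (mixDim C - r) by linarith)]
  have hk1 := key A hA h1 (mixDim_le_mul_left hB)
  have hk2 := key B hB h2 (mixDim_le_mul_right hA)
  linarith [mixDim_add_defect_le A B]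

end Vale.Agent.P262
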