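import Vale.Agent.P262.Defs

/-! Basic linear algebra of the maps `fwd` and `bwd`. -/

namespace Vale.Agent.P262

open scoped RealInnerProductSpace

variable {d : ℕ}

lemma Mop_apply (κ : ℝ) (w x : Vec d) : Mop κ w x = x - (κ * ⟪w, x⟫) • w := by
  simp [Mop, smul_smul]

lemma inner_Mop (κ : ℝ) (w x y : Vec d) : ⟪Mop κ w x, y⟫ = ⟪x, Mop κ w y⟫ := by
  simp only [Mop_apply, inner_sub_left, inner_sub_right, real_inner_smul_left,
    real_inner_smul_right, real_inner_comm w x]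
  ring

lemma norm_sq_Mop (κ : ℝ) (w x : Vec d) (hw : ‖w‖ = 1) :
    ‖x‖ ^ 2 - ‖Mop κ w x‖ ^ 2 = (2 * κ - κ ^ 2) * ⟪w, x⟫ ^ 2 := by
  rw [Mop_apply, norm_sub_sq_real, real_inner_smul_right, norm_smul, real_inner_comm w x, hw]
  simp only [mul_one, Real.norm_eq_abs, sq_abs]
  ring

lemma norm_Mop_le (κ : ℝ) (w x : Vec d) (hw : ‖w‖ = 1) (h0 : 0 < κ) (h1 : κ ≤ 1 / 4) :
    ‖Mop κ w x‖ ≤ ‖x‖ := by
  refine le_of_pow_le_pow_left₀ two_ne_zero (norm_nonneg _) ?_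
  have h := norm_sq_Mop κ w x hw
  have : 0 ≤ (2 * κ - κ ^ 2) * ⟪w, x⟫ ^ 2 := mul_nonneg (by nlinarith) (sq_nonneg _)
  linarith

variable (v : ℕ → Vec d) (κ : ℝ)

lemma fwd_of_le {a b : ℕ} (h : b ≤ a) : fwd v κ a b = LinearMap.id := by
  cases b with
  | zero => rfl
  | succ b => rw [fwd, if_neg (by omega)]

lemma bwd_of_le {a b : ℕ} (h : b ≤ a) : bwd v κ a b = LinearMap.id := by
  cases b with
  | zero => rfl
  | succ b => rw [bwd, if_neg (by omega)]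

lemma fwd_succ {a b : ℕ} (h : a ≤ b) (p : Vec d) :
    fwd v κ a (b + 1) p = Mop κ (v b) (fwd v κ a b p) := by
  rw [fwd, if_pos h, LinearMap.comp_apply]

lemma bwd_succ {a b : ℕ} (h : a ≤ b) (p : Vec d) :
    bwd v κ a (b + 1) p = bwd v κ a b (Mop κ (v b) p) := by
  rw [bwd, if_pos h, LinearMap.comp_apply]

lemma fwd_one (t : ℕ) (p : Vec d) : fwd v κ t (t + 1) p = Mop κ (v t) p := by
  rw [fwd_succ v κ le_rfl, fwd_of_le v κ le_rfl, LinearMap.id_apply]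

lemma bwd_one (t : ℕ) (p : Vec d) : bwd v κ t (t + 1) p = Mop κ (v t) p := by
  rw [bwd_succ v κ le_rfl, bwd_of_le v κ le_rfl, LinearMap.id_apply]

lemma fwd_comp {a b c : ℕ} (p : Vec d) (hab : a ≤ b) (hbc : b ≤ c) :
    fwd v κ a c p = fwd v κ b c (fwd v κ a b p) := by
  induction c, hbc using Nat.le_induction with
  | base => rw [fwd_of_le v κ (le_refl b), LinearMap.id_apply]
  | succ c hc ih => rw [fwd_succ v κ (hab.trans hc), fwd_succ v κ hc, ih]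

lemma bwd_comp {a b c : ℕ} (p : Vec d) (hab : a ≤ b) (hbc : b ≤ c) :
    bwd v κ a c p = bwd v κ a b (bwd v κ b c p) := by
  induction c, hbc using Nat.le_induction generalizing p with
  | base => rw [bwd_of_le v κ (le_refl b), LinearMap.id_apply]
  | succ c hc ih => rw [bwd_succ v κ (hab.trans hc), bwd_succ v κ hc, ih]

lemma inner_fwd (a b : ℕ) (p w : Vec d) : ⟪fwd v κ a b p, w⟫ = ⟪p, bwd v κ a b w⟫ := by
  induction b generalizing w with
  | zero => rfl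
  | succ b ih =>
    by_cases h : a ≤ b
    · rw [fwd_succ v κ h, bwd_succ v κ h, inner_Mop, ih]
    · rw [fwd_of_le v κ (by omega), bwd_of_le v κ (by omega)]; rfl

variable {v κ}

lemma norm_fwd_le (hv : ∀ i, ‖v i‖ = 1) (h0 : 0 < κ) (h1 : κ ≤ 1 / 4) (a b : ℕ) (p : Vec d) :
    ‖fwd v κ a b p‖ ≤ ‖p‖ := by
  induction b with
  | zero => exact le_of_eq rfl
  | succ b ih =>
    by_cases h : a ≤ b
    · rw [fwd_succ v κ h]; exact (norm_Mop_le κ _ _ (hv b) h0 h1).trans ih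
    · rw [fwd_of_le v κ (by omega)]; rfl

lemma norm_bwd_le (hv : ∀ i, ‖v i‖ = 1) (h0 : 0 < κ) (h1 : κ ≤ 1 / 4) (a b : ℕ) (p : Vec d) :
    ‖bwd v κ a b p‖ ≤ ‖p‖ := by
  induction b generalizing p with
  | zero => exact le_of_eq rfl
  | succ b ih =>
    by_cases h : a ≤ b
    · rw [bwd_succ v κ h]; exact (ih _).trans (norm_Mop_le κ _ _ (hv b) h0 h1)
    · rw [bwd_of_le v κ (by omega)]; rfl

lemma sig2_pos (h0 : 0 < κ) (h1 : κ ≤ 1 / 4) : 0 < sig2 κ := by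
  rw [sig2]; exact one_div_pos.2 (by nlinarith)

lemma qf_nonneg (hv : ∀ i, ‖v i‖ = 1) (h0 : 0 < κ) (h1 : κ ≤ 1 / 4) (c c' : ℕ) (w : Vec d) :
    0 ≤ qf v κ c c' w := by
  have h := pow_le_pow_left₀ (norm_nonneg _) (norm_bwd_le hv h0 h1 c c' w) 2
  exact mul_nonneg (sig2_pos h0 h1).le (by linarith)

lemma qf_self (c : ℕ) (w : Vec d) : qf v κ c c w = 0 := by
  simp [qf, bwd_of_le v κ (le_refl c)]

/-- The variance proxy is additive. -/
lemma qf_comp {a b c : ℕ} (w : Vec d) (hab : a ≤ b) (hbc : b ≤ c) :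
    qf v κ a c w = qf v κ a b (bwd v κ b c w) + qf v κ b c w := by
  simp only [qf, bwd_comp v κ w hab hbc]
  ring

lemma qf_one (hv : ∀ i, ‖v i‖ = 1) (h0 : 0 < κ) (h1 : κ ≤ 1 / 4) (t : ℕ) (w : Vec d) :
    qf v κ t (t + 1) w = ⟪v t, w⟫ ^ 2 := by
  have hc : (2 * κ - κ ^ 2) ≠ 0 := by nlinarith
  rw [qf, bwd_one, norm_sq_Mop κ _ _ (hv t), sig2, one_div, ← mul_assoc, inv_mul_cancel₀ hc,
    one_mul]

/-- An admissible step in the form `q = M p + ξ w` with `|ξ| ≤ 3/2`. -/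
lemma StepOK.exists_noise {w p q : Vec d} (h : StepOK κ w p q) :
    ∃ ξ : ℝ, |ξ| ≤ 3 / 2 ∧ q = Mop κ w p + ξ • w := by
  obtain ⟨e, he, ⟨hb, hq⟩ | ⟨-, hq⟩⟩ := h
  · refine ⟨e + κ * ⟪w, p⟫, ?_, ?_⟩
    · refine (abs_add_le _ _).trans ?_
      have he' : |e| = 1 := by rcases he with rfl | rfl <;> norm_num
      linarith
    · rw [hq, Mop_apply, add_smul]; abel
  · refine ⟨e, ?_, hq⟩
    rcases he with rfl | rfl <;> norm_num

/-- An increment of an admissible path has noise coefficients of square sum `qf`. -/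
lemma sq_incr_le (hv : ∀ i, ‖v i‖ = 1) (h0 : 0 < κ) (h1 : κ ≤ 1 / 4) {c c' : ℕ} (w : Vec d)
    {γ : ℕ → Vec d} (hcc : c ≤ c') (hγ : Valid v κ c c' γ) :
    ⟪w, γ c' - fwd v κ c c' (γ c)⟫ ^ 2 ≤ 9 / 4 * ((c' - c : ℕ) : ℝ) * qf v κ c c' w := by
  induction c', hcc using Nat.le_induction generalizing w with
  | base => simp [fwd_of_le v κ (le_refl c)]
  | succ t ht ih =>
    have hi := ih (Mop κ (v t) w) fun s hs hs' => hγ s hs (by omega)
    obtain ⟨ξ, hξ, hstep⟩ := (hγ t ht (by omega)).exists_noise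
    set x := ⟪Mop κ (v t) w, γ t - fwd v κ c t (γ c)⟫
    set y := ξ * ⟪v t, w⟫
    have hsplit : ⟪w, γ (t + 1) - fwd v κ c (t + 1) (γ c)⟫ = x + y := by
      rw [hstep, fwd_succ v κ ht,
        show Mop κ (v t) (γ t) + ξ • v t - Mop κ (v t) (fwd v κ c t (γ c)) =
          Mop κ (v t) (γ t - fwd v κ c t (γ c)) + ξ • v t by rw [map_sub]; abel,
        inner_add_right, real_inner_smul_right, ← inner_Mop, real_inner_comm (v t) w]
    have hy : y ^ 2 ≤ 9 / 4 * qf v κ t (t + 1) w := by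
      have : ξ ^ 2 ≤ 9 / 4 := by nlinarith [sq_abs ξ, abs_nonneg ξ]
      rw [qf_one hv h0 h1]
      simp only [y, mul_pow]
      gcongr
    have hq : qf v κ c (t + 1) w = qf v κ c t (Mop κ (v t) w) + qf v κ t (t + 1) w := by
      rw [qf_comp w ht (Nat.le_succ t), bwd_one]
    rw [hsplit, hq, show (t + 1 - c : ℕ) = (t - c) + 1 by omega]
    push_cast
    set n : ℝ := ((t - c : ℕ) : ℝ)
    set Q := qf v κ c t (Mop κ (v t) w)
    have hQ : 0 ≤ Q := qf_nonneg hv h0 h1 _ _ _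
    have hR : 0 ≤ qf v κ t (t + 1) w := qf_nonneg hv h0 h1 _ _ _
    rcases eq_or_lt_of_le (show 0 ≤ n from Nat.cast_nonneg _) with hn | hn
    · have hx : x = 0 := by rw [← hn] at hi; nlinarith
      rw [hx, ← hn]
      nlinarith
    · have h2 : 2 * x * y * n ≤ x ^ 2 + n ^ 2 * y ^ 2 := by nlinarith [sq_nonneg (x - n * y)]
      refine le_of_mul_le_mul_left ?_ hn
      nlinarith

end Vale.Agent.P262
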