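import Vale.Agent.P262.Interface
import Vale.Agent.P262.LinBasic
import Vale.Agent.P262.LinAlg

/-! Module A: the linear algebra of the maps `fwd`. -/

namespace Vale.Agent.P262

open scoped RealInnerProductSpace

variable {d : ℕ}

/-- Frobenius norms of adjoint maps agree, in any pair of orthonormal bases. -/
lemma sum_norm_sq_adjoint {ι ι' : Type*} [Fintype ι] [Fintype ι']
    (b : OrthonormalBasis ι ℝ (Vec d)) (b' : OrthonormalBasis ι' ℝ (Vec d))
    (A B : Vec d →ₗ[ℝ] Vec d) (h : ∀ p w, ⟪A p, w⟫ = ⟪p, B w⟫) :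
    ∑ i, ‖A (b i)‖ ^ 2 = ∑ j, ‖B (b' j)‖ ^ 2 := by
  have hA : ∀ i, ‖A (b i)‖ ^ 2 = ∑ j, ⟪b' j, A (b i)⟫ ^ 2 := fun i =>
    (b'.sum_sq_inner_right _).symm
  have hB : ∀ j, ‖B (b' j)‖ ^ 2 = ∑ i, ⟪b i, B (b' j)⟫ ^ 2 := fun j =>
    (b.sum_sq_inner_right _).symm
  simp only [hA, hB]
  rw [Finset.sum_comm]
  refine Finset.sum_congr rfl fun j _ => Finset.sum_congr rfl fun i _ => ?_
  rw [real_inner_comm, h]

lemma basisFun_eq_single (i : Fin d) :
    EuclideanSpace.basisFun (Fin d) ℝ i = EuclideanSpace.single i (1 : ℝ) := by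
  simp

variable {v : ℕ → Vec d} {κ : ℝ}

lemma sum_bwd_single (a b : ℕ) :
    ∑ i, ‖bwd v κ a b (EuclideanSpace.single i 1)‖ ^ 2 = d - udim v κ a b := by
  have h := sum_norm_sq_adjoint (EuclideanSpace.basisFun (Fin d) ℝ)
    (EuclideanSpace.basisFun (Fin d) ℝ) (fwd v κ a b) (bwd v κ a b) (inner_fwd v κ a b)
  simp only [basisFun_eq_single] at h
  simp [udim, Finset.sum_sub_distrib, h]

lemma udim_eq_basis {ι : Type*} [Fintype ι] (e : OrthonormalBasis ι ℝ (Vec d)) (a b : ℕ) :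
    udim v κ a b = d - ∑ i, ‖fwd v κ a b (e i)‖ ^ 2 := by
  have h := sum_norm_sq_adjoint e (EuclideanSpace.basisFun (Fin d) ℝ) (fwd v κ a b) (bwd v κ a b)
    (inner_fwd v κ a b)
  simp only [basisFun_eq_single, sum_bwd_single] at h
  linarith

lemma udim_one (hv : ∀ i, ‖v i‖ = 1) (t : ℕ) : udim v κ t (t + 1) = 2 * κ - κ ^ 2 := by
  have h : ∀ i : Fin d, 1 - ‖fwd v κ t (t + 1) (EuclideanSpace.single i 1)‖ ^ 2 =
      (2 * κ - κ ^ 2) * ⟪v t, EuclideanSpace.basisFun (Fin d) ℝ i⟫ ^ 2 := by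
    intro i
    rw [fwd_one, basisFun_eq_single, ← norm_sq_Mop κ _ _ (hv t)]
    simp
  rw [udim, Finset.sum_congr rfl fun i _ => h i, ← Finset.mul_sum,
    (EuclideanSpace.basisFun (Fin d) ℝ).sum_sq_inner_left (v t), hv t]
  ring

lemma udim_nonneg (hv : ∀ i, ‖v i‖ = 1) (h0 : 0 < κ) (h1 : κ ≤ 1 / 4) (a b : ℕ) :
    0 ≤ udim v κ a b :=
  Finset.sum_nonneg fun i _ => by
    have h := pow_le_pow_left₀ (norm_nonneg _)
      (norm_fwd_le hv h0 h1 a b (EuclideanSpace.single i 1)) 2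
    rw [EuclideanSpace.norm_single, norm_one, one_pow] at h
    linarith

lemma udim_le_dim (a b : ℕ) : udim v κ a b ≤ d := by
  rw [udim_eq_basis (EuclideanSpace.basisFun (Fin d) ℝ)]
  exact sub_le_self _ (Finset.sum_nonneg fun i _ => sq_nonneg _)

lemma udim_mono (hv : ∀ i, ‖v i‖ = 1) (h0 : 0 < κ) (h1 : κ ≤ 1 / 4) {a a' b' b : ℕ}
    (haa : a ≤ a') (hab : a' ≤ b') (hbb : b' ≤ b) : udim v κ a' b' ≤ udim v κ a b := by
  refine le_trans (b := udim v κ a' b) ?_ ?_
  · refine Finset.sum_le_sum fun i _ => sub_le_sub_left ?_ 1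
    refine pow_le_pow_left₀ (norm_nonneg _) ?_ 2
    rw [fwd_comp v κ _ hab hbb]
    exact norm_fwd_le hv h0 h1 _ _ _
  · have h : ∑ i, ‖bwd v κ a b (EuclideanSpace.single i (1 : ℝ))‖ ^ 2 ≤
        ∑ i, ‖bwd v κ a' b (EuclideanSpace.single i (1 : ℝ))‖ ^ 2 := by
      refine Finset.sum_le_sum fun i _ => pow_le_pow_left₀ (norm_nonneg _) ?_ 2
      rw [bwd_comp v κ _ haa (hab.trans hbb)]
      exact norm_bwd_le hv h0 h1 _ _ _
    rw [sum_bwd_single, sum_bwd_single] at h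
    linarith

/-- The key cleanness property. -/
lemma udim_split (hv : ∀ i, ‖v i‖ = 1) (h0 : 0 < κ) (h1 : κ ≤ 1 / 4) (r : ℤ) (T h : ℝ)
    (a m b : ℕ) (ham : a ≤ m) (hmb : m ≤ b) (hT : (r : ℝ) + 4 * h ≤ T)
    (hT' : T + h ≤ r + 1 - 4 * h) (hab : udim v κ a b ≤ T + h) (ham' : T < udim v κ a m) :
    udim v κ m b ≤ T := by
  by_contra hlt
  push Not at hlt
  have hmono := udim_mono hv h0 h1 (le_refl a) ham hmb
  -- eigenbasis of `A Aᵀ`
  have hX : ((fwd v κ a m).comp (bwd v κ a m)).IsSymmetric := fun x y => by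
    simp only [LinearMap.comp_apply]
    rw [inner_fwd, real_inner_comm, ← inner_fwd, real_inner_comm]
  have hn : Module.finrank ℝ (Vec d) = d := finrank_euclideanSpace_fin
  set e := hX.eigenvectorBasis hn
  set l : Fin d → ℝ := hX.eigenvalues hn with hl
  have heig : ∀ i, fwd v κ a m (bwd v κ a m (e i)) = l i • e i := fun i =>
    hX.apply_eigenvectorBasis hn i
  have hquad : ∀ w, ‖bwd v κ a m w‖ ^ 2 = ∑ i, l i * ⟪e i, w⟫ ^ 2 := by
    intro w
    rw [← real_inner_self_eq_norm_sq, ← inner_fwd, ← e.sum_inner_mul_inner]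
    refine Finset.sum_congr rfl fun i _ => ?_
    have : ⟪fwd v κ a m (bwd v κ a m w), e i⟫ = l i * ⟪e i, w⟫ := by
      rw [inner_fwd, real_inner_comm, ← inner_fwd, heig, real_inner_smul_left]
    rw [this]; ring
  have hle : ∀ i, ‖bwd v κ a m (e i)‖ ^ 2 = l i := fun i => by
    rw [← real_inner_self_eq_norm_sq, ← inner_fwd, heig, real_inner_smul_left,
      real_inner_self_eq_norm_sq, e.orthonormal.1 i]
    ring
  have hl0 : ∀ i, 0 ≤ l i := fun i => hle i ▸ sq_nonneg _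
  have hl1 : ∀ i, l i ≤ 1 := fun i => by
    rw [← hle i, ← one_pow 2, ← e.orthonormal.1 i]
    exact pow_le_pow_left₀ (norm_nonneg _) (norm_bwd_le hv h0 h1 _ _ _) 2
  set p : Fin d → ℝ := fun i => ‖fwd v κ m b (e i)‖ ^ 2 with hp
  have hsuml : ∑ i, l i = d - udim v κ a m := by
    rw [← sum_bwd_single (v := v) (κ := κ) a m]
    simp only [← hle, ← basisFun_eq_single]
    rw [← sum_norm_sq_adjoint (EuclideanSpace.basisFun (Fin d) ℝ) e (fwd v κ a m) (bwd v κ a m)
      (inner_fwd v κ a m)]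
    exact sum_norm_sq_adjoint _ _ _ _ (inner_fwd v κ a m)
  have hsump : ∑ i, p i = d - udim v κ m b := by
    rw [udim_eq_basis e]; ring
  have hsumlp : ∑ i, l i * p i = d - udim v κ a b := by
    rw [← sum_bwd_single (v := v) (κ := κ) a b]
    simp only [bwd_comp v κ _ ham hmb, hquad, ← basisFun_eq_single]
    rw [Finset.sum_comm]
    refine Finset.sum_congr rfl fun i _ => ?_
    rw [← Finset.mul_sum, hp]
    simp only [← inner_fwd]
    rw [(EuclideanSpace.basisFun (Fin d) ℝ).sum_sq_inner_left]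
  have hsum : ∑ i, l i * (1 - l i) ≤ ∑ i, (l i + p i - 2 * (l i * p i)) :=
    Finset.sum_le_sum fun i _ => by
      have hp0 : 0 ≤ p i := sq_nonneg _
      have hp1 : p i ≤ 1 := by
        simp only [hp]
        rw [← one_pow 2, ← e.orthonormal.1 i]
        exact pow_le_pow_left₀ (norm_nonneg _) (norm_fwd_le hv h0 h1 _ _ _) 2
      nlinarith [sq_nonneg (l i - p i), mul_nonneg hp0 (sub_nonneg.2 hp1)]
  rw [Finset.sum_sub_distrib, Finset.sum_add_distrib, ← Finset.mul_sum] at hsum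
  have hf := fract_mul_le_sum Finset.univ l (fun i _ => hl0 i) (fun i _ => hl1 i)
  have hfr : Int.fract (∑ i, l i) = r + 1 - udim v κ a m := by
    refine Int.fract_eq_iff.2 ⟨by linarith, by linarith, (d : ℤ) - r - 1, ?_⟩
    rw [hsuml]; push_cast; ring
  rw [hfr] at hf
  set f := (r : ℝ) + 1 - udim v κ a m with hfdef
  have hf0 : 4 * h ≤ f := by linarith
  have hf1 : f ≤ 1 - 4 * h := by linarith
  nlinarith [mul_nonneg (sub_nonneg.2 hf0) (sub_nonneg.2 hf1)]

lemma exists_rows (hv : ∀ i, ‖v i‖ = 1) (h0 : 0 < κ) (h1 : κ ≤ 1 / 4) (x y : ℕ) (hxy : x ≤ y) :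
    ∃ h : Fin d → Vec d,
      (∀ w, ‖w‖ ^ 2 - ‖fwd v κ x y w‖ ^ 2 = ∑ i, ⟪h i, w⟫ ^ 2) ∧
      (∀ i, ‖h i‖ ≤ 1) ∧
      (∀ b, b ≤ x → ∑ i, ‖bwd v κ b x (h i)‖ ^ 2 = udim v κ b y - udim v κ b x) := by
  have hX : (LinearMap.id - (bwd v κ x y).comp (fwd v κ x y)).IsSymmetric := fun p q => by
    simp only [LinearMap.sub_apply, LinearMap.comp_apply, LinearMap.id_apply, inner_sub_left,
      inner_sub_right]
    rw [← inner_fwd v κ x y p (fwd v κ x y q), real_inner_comm q (bwd v κ x y (fwd v κ x y p)),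
      ← inner_fwd v κ x y q (fwd v κ x y p), real_inner_comm (fwd v κ x y q) (fwd v κ x y p)]
  have hn : Module.finrank ℝ (Vec d) = d := finrank_euclideanSpace_fin
  set e := hX.eigenvectorBasis hn
  set l : Fin d → ℝ := hX.eigenvalues hn
  have heig : ∀ i, e i - bwd v κ x y (fwd v κ x y (e i)) = l i • e i := fun i =>
    hX.apply_eigenvectorBasis hn i
  have hquad : ∀ w, ‖w‖ ^ 2 - ‖fwd v κ x y w‖ ^ 2 = ∑ i, l i * ⟪e i, w⟫ ^ 2 := by
    intro w
    have hw : ‖w‖ ^ 2 - ‖fwd v κ x y w‖ ^ 2 =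
        ⟪w - bwd v κ x y (fwd v κ x y w), w⟫ := by
      rw [inner_sub_left, real_inner_self_eq_norm_sq, real_inner_comm w, ← inner_fwd,
        real_inner_self_eq_norm_sq]
    rw [hw, ← e.sum_inner_mul_inner]
    refine Finset.sum_congr rfl fun i _ => ?_
    have h2 := hX w (e i)
    simp only [LinearMap.sub_apply, LinearMap.comp_apply, LinearMap.id_apply, heig,
      real_inner_smul_right, real_inner_comm (e i) w] at h2
    rw [h2]; ring
  have hli : ∀ i, l i = 1 - ‖fwd v κ x y (e i)‖ ^ 2 := fun i => by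
    have := hquad (e i)
    rw [e.orthonormal.1 i, one_pow, Finset.sum_eq_single i (fun j _ hj => by
      simp [e.inner_eq_zero hj]) (by simp), real_inner_self_eq_norm_sq, e.orthonormal.1 i] at this
    linarith
  have hl0 : ∀ i, 0 ≤ l i := fun i => by
    have h := pow_le_pow_left₀ (norm_nonneg _) (norm_fwd_le hv h0 h1 x y (e i)) 2
    rw [e.orthonormal.1 i, one_pow] at h
    linarith [hli i]
  have hl1 : ∀ i, l i ≤ 1 := fun i => by
    linarith [hli i, sq_nonneg ‖fwd v κ x y (e i)‖]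
  refine ⟨fun i => Real.sqrt (l i) • e i, fun w => ?_, fun i => ?_, fun b hb => ?_⟩
  · rw [hquad]
    refine Finset.sum_congr rfl fun i _ => ?_
    rw [real_inner_smul_left, mul_pow, Real.sq_sqrt (hl0 i)]
  · rw [norm_smul, e.orthonormal.1 i, mul_one, Real.norm_of_nonneg (Real.sqrt_nonneg _)]
    exact Real.sqrt_le_one.2 (hl1 i)
  · have hbx : ∀ i, ‖bwd v κ b x (Real.sqrt (l i) • e i)‖ ^ 2 =
        ∑ j, l i * ⟪e i, fwd v κ b x (EuclideanSpace.single j 1)⟫ ^ 2 := by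
      intro i
      rw [← (EuclideanSpace.basisFun (Fin d) ℝ).sum_sq_inner_right]
      refine Finset.sum_congr rfl fun j _ => ?_
      rw [← inner_fwd, real_inner_comm, real_inner_smul_left, mul_pow, Real.sq_sqrt (hl0 i),
        basisFun_eq_single]
    simp only [hbx]
    rw [Finset.sum_comm]
    simp only [← hquad, udim]
    rw [← Finset.sum_sub_distrib]
    refine Finset.sum_congr rfl fun j _ => ?_
    rw [← fwd_comp v κ _ hb hxy]
    ring

/-- Module A. -/
theorem linFacts : LinFacts := by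
  intro d v κ hv h0 h1
  refine ⟨fun a b c p => fwd_comp v κ p, fun a b c p => bwd_comp v κ p, inner_fwd v κ,
    norm_fwd_le hv h0 h1, norm_bwd_le hv h0 h1, udim_one hv, ?_, exists_rows hv h0 h1,
    fun b N => sum_bwd_single b N, fun c c' w γ => sq_incr_le hv h0 h1 w⟩
  exact
    { nonneg := udim_nonneg hv h0 h1
      le_dim := udim_le_dim
      mono := fun a a' b' b => udim_mono hv h0 h1
      step_le := fun t => by rw [udim_one hv t]; nlinarith
      split := udim_split hv h0 h1 }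

end Vale.Agent.P262
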