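import Vale.Agent.P262.ProbMoments

/-! P262, module C: conditioning on the tests with the mean restored. -/

namespace Vale.Agent.P262.Prob

open scoped RealInnerProductSpace
open Finset Classical

variable {d : ℕ}

/-- Weights in `[1, 1 + η]` centring the vectors `y`. -/
lemma exists_center {ι : Type*} [Fintype ι] (y : ι → Vec d) (η : ℝ) (hη : 0 ≤ η)
    (h : ∀ l, 0 ≤ ∑ i, ⟪l, y i⟫ + η * ∑ i, max ⟪l, y i⟫ 0) :
    ∃ φ : ι → ℝ, (∀ i, 0 ≤ φ i) ∧ (∀ i, φ i ≤ η) ∧ ∑ i, (1 + φ i) • y i = 0 := by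
  let L : (ι → ℝ) →ₗ[ℝ] Vec d := ∑ i, (LinearMap.proj i).smulRight (y i)
  have hL : ∀ φ, L φ = ∑ i, φ i • y i := fun φ => by simp [L]
  set box := Set.univ.pi (fun _ : ι => Set.Icc (0 : ℝ) η) with hbox
  set K := L '' box with hK
  by_cases hmem : -∑ i, y i ∈ K
  · obtain ⟨φ, hφ, he⟩ := hmem
    refine ⟨φ, fun i => (hφ i trivial).1, fun i => (hφ i trivial).2, ?_⟩
    simp only [add_smul, one_smul, sum_add_distrib]
    rw [← hL, he, add_neg_cancel]
  · exfalso
    have hconv : Convex ℝ K := (convex_pi fun _ _ => convex_Icc 0 η).linear_image L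
    have hclosed : IsClosed K :=
      ((isCompact_univ_pi fun _ => isCompact_Icc).image L.continuous_of_finiteDimensional).isClosed
    obtain ⟨f, u, hlt, hu⟩ := geometric_hahn_banach_closed_point hconv hclosed hmem
    obtain ⟨l, hl⟩ : ∃ l : Vec d, ∀ x, f x = ⟪l, x⟫ :=
      ⟨(InnerProductSpace.toDual ℝ (Vec d)).symm f, fun x =>
        (InnerProductSpace.toDual_symm_apply (𝕜 := ℝ)).symm⟩
    let φ : ι → ℝ := fun i => if 0 ≤ ⟪l, y i⟫ then η else 0
    have hφ : φ ∈ box := fun i _ => by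
      show (if _ then η else (0 : ℝ)) ∈ Set.Icc 0 η
      split_ifs <;> simp [hη]
    have h1 := (hlt _ ⟨φ, hφ, rfl⟩).trans hu
    rw [hl, hl, inner_neg_right, hL, inner_sum, inner_sum] at h1
    have h2 : ∑ i, ⟪l, φ i • y i⟫ = η * ∑ i, max ⟪l, y i⟫ 0 := by
      rw [mul_sum]
      refine sum_congr rfl fun i _ => ?_
      rw [real_inner_smul_right]
      show (if _ then η else (0 : ℝ)) * _ = _
      split_ifs with hi
      · rw [max_eq_left hi]
      · rw [max_eq_right (le_of_not_ge hi), mul_zero, zero_mul]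
    linarith [h l]

variable {v : ℕ → Vec d} {κ : ℝ} {μ : Law d} {a b : ℕ} {p : Vec d} {s g ρ : ℝ}

lemma one_add_mul_exp_le {k y : ℝ} (hk : 1 ≤ k) :
    1 + k * (Real.exp y - 1) ≤ Real.exp (k * y) := by
  have h := one_add_mul_self_le_rpow_one_add (s := Real.exp y - 1) (by linarith [Real.exp_pos y]) hk
  rwa [show (1 : ℝ) + (Real.exp y - 1) = Real.exp y by ring, ← Real.exp_mul, mul_comm y] at h

/-- The rate lost at one level. -/
def loss : ℝ := 100000

/-- Condition on `G` and restore the mean. -/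
theorem IsLaw.reweight (h : IsLaw v κ s g ρ a b p μ) (hv : ∀ i, ‖v i‖ = 1) (h0 : 0 < κ)
    (h1 : κ ≤ 1 / 4) (hab : a ≤ b) (hs : 0 < s) (hs' : s ≤ 10) (hρ : 1 ≤ ρ) (hg : 1 / 2 ≤ g)
    (hg' : g ≤ 1) (G : Path d → Prop) (err : ℝ) (he : 0 ≤ err)
    (he' : Real.sqrt err ≤ 1 / 1000000)
    (hG : μ.E (fun γ => if G γ then 0 else 1) ≤ 8 * err) :
    ∃ μ' : Law d,
      IsLaw v κ ((1 + loss * Real.sqrt err) * s) (g - loss * Real.sqrt err)
        ((1 + loss * Real.sqrt err) * ρ) a b p μ' ∧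
      ∀ i', ∃ i, μ'.path i' = μ.path i ∧ G (μ.path i) := by
  set r := Real.sqrt err with hr
  have hr0 : 0 ≤ r := Real.sqrt_nonneg _
  have hr2 : err = r ^ 2 := (Real.sq_sqrt he).symm
  have hrle : err ≤ r := by nlinarith
  set bad : Path d → ℝ := fun γ => if G γ then 0 else 1 with hbad
  have hbad0 : ∀ γ, 0 ≤ bad γ := fun γ => by simp only [bad]; split_ifs <;> norm_num
  have hbadsq : ∀ γ, bad γ ^ 2 = bad γ := fun γ => by simp only [bad]; split_ifs <;> norm_num
  have cs : ∀ (f : Path d → ℝ) (C : ℝ), 0 ≤ C → 8 * err * μ.E (fun γ => f γ ^ 2) ≤ C ^ 2 →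
      μ.E (fun γ => bad γ * |f γ|) ≤ C := fun f C hC hle => by
    have h2 := Law.cauchy μ bad (fun γ => |f γ|)
    simp only [hbadsq, sq_abs] at h2
    refine (abs_le_of_sq_le_sq' (h2.trans (le_trans ?_ hle)) hC).2
    exact mul_le_mul_of_nonneg_right hG (Law.E_nonneg μ fun i => sq_nonneg _)
  let J := {i : μ.ι // G (μ.path i)}
  have sumG : ∀ f : Path d → ℝ, ∑ j : J, μ.wt j.1 * f (μ.path j.1) =
      μ.E f - μ.E (fun γ => bad γ * f γ) := fun f => by
    rw [← Law.E_sub]
    have e := Finset.sum_subtype (p := fun i => G (μ.path i)) (F := inferInstance)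
      (univ.filter fun i => G (μ.path i)) (by simp) (fun i => μ.wt i * f (μ.path i))
    rw [← e, sum_filter, Law.E]
    refine sum_congr rfl fun i _ => ?_
    simp only [bad]
    split_ifs <;> ring
  have hmass : 1 - 8 * err ≤ ∑ j : J, μ.wt j.1 := by
    have := sumG fun _ => 1
    simp only [mul_one, Law.E_const] at this
    linarith
  have hmass' : ∑ j : J, μ.wt j.1 ≤ 1 := by
    have := sumG fun _ => 1
    simp only [mul_one, Law.E_const] at this
    linarith [Law.E_nonneg μ (f := bad) fun i => hbad0 _]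
  -- the tilt
  set η := 20800 * r with hη
  have hη0 : 0 ≤ η := by positivity
  have hη1 : η ≤ 1 := by rw [hη]; linarith
  let Z : J → Vec d := fun j => μ.path j.1 b - fwd v κ a b (μ.path j.1 a)
  obtain ⟨φ, hφ0, hφη, hφ⟩ := exists_center (fun j => μ.wt j.1 • Z j) η hη0 fun l => by
    set Q := qf v κ a b l
    have hQ : 0 ≤ Q := qf_nonneg hv h0 h1 a b l
    set X := inc v κ a b l
    have hX : ∀ j : J, ⟪l, μ.wt j.1 • Z j⟫ = μ.wt j.1 * X (μ.path j.1) :=
      fun j => real_inner_smul_right _ _ _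
    have hm : ∀ j : J, max (μ.wt j.1 * X (μ.path j.1)) 0 =
        μ.wt j.1 * max (X (μ.path j.1)) 0 := fun j => by
      rw [mul_max_of_nonneg _ _ (μ.nonneg _), mul_zero]
    simp only [hX, hm]
    rw [sumG X, sumG (fun γ => max (X γ) 0), h.mean l, zero_sub]
    have hC : 8 * err * μ.E (fun γ => X γ ^ 2) ≤ (13 * r * Real.sqrt Q) ^ 2 := by
      rw [mul_pow, mul_pow, Real.sq_sqrt hQ, ← hr2]
      calc 8 * err * μ.E (fun γ => X γ ^ 2) ≤ 8 * err * (2 * s * Q) :=
            mul_le_mul_of_nonneg_left (h.moments hab hs l hQ).1 (by positivity)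
        _ ≤ 8 * err * (2 * 10 * Q) := by gcongr
        _ ≤ 13 ^ 2 * err * Q := by nlinarith [mul_nonneg he hQ]
    have h13 := cs X _ (by positivity) hC
    have hb1 : μ.E (fun γ => bad γ * X γ) ≤ μ.E (fun γ => bad γ * |X γ|) :=
      Law.E_mono μ fun i => mul_le_mul_of_nonneg_left (le_abs_self _) (hbad0 _)
    have hb2 : μ.E (fun γ => bad γ * max (X γ) 0) ≤ μ.E (fun γ => bad γ * |X γ|) :=
      Law.E_mono μ fun i => mul_le_mul_of_nonneg_left
        (max_le (le_abs_self _) (abs_nonneg _)) (hbad0 _)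
    have hpos : μ.E (fun γ => max (X γ) 0) = 1 / 2 * μ.E (fun γ => |X γ|) := by
      have : μ.E (fun γ => max (X γ) 0) = μ.E (fun γ => 1 / 2 * |X γ| + 1 / 2 * X γ) :=
        Law.E_congr μ fun i => by
          rcases le_total (X (μ.path i)) 0 with hx | hx
          · rw [max_eq_right hx, abs_of_nonpos hx]; ring
          · rw [max_eq_left hx, abs_of_nonneg hx]; ring
      rw [this, Law.E_add, Law.E_mul_left, Law.E_mul_left, h.mean l]
      ring
    have hlow := h.abs_lower hab hs hs' hg l hQ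
    have hsq := Real.sqrt_nonneg Q
    have h14 : Real.sqrt Q / 1600 ≤
        μ.E (fun γ => max (X γ) 0) - μ.E (fun γ => bad γ * max (X γ) 0) := by
      have : 13 * r * Real.sqrt Q ≤ Real.sqrt Q / 1600 := by nlinarith
      linarith
    have h15 : 13 * r * Real.sqrt Q ≤
        η * (μ.E (fun γ => max (X γ) 0) - μ.E (fun γ => bad γ * max (X γ) 0)) := by
      calc 13 * r * Real.sqrt Q = η * (Real.sqrt Q / 1600) := by rw [hη]; ring
        _ ≤ _ := mul_le_mul_of_nonneg_left h14 hη0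
    linarith
  -- the new law
  set Zn := ∑ j : J, μ.wt j.1 * (1 + φ j) with hZn
  have hwn : ∀ j : J, 0 ≤ μ.wt j.1 * (1 + φ j) := fun j =>
    mul_nonneg (μ.nonneg _) (by linarith [hφ0 j])
  have hZlo : 1 - 8 * err ≤ Zn := hmass.trans <| sum_le_sum fun j _ =>
    le_mul_of_one_le_right (μ.nonneg _) (by linarith [hφ0 j])
  have hZhi : Zn ≤ 1 + η := by
    calc Zn ≤ ∑ j : J, μ.wt j.1 * (1 + η) :=
          sum_le_sum fun j _ => mul_le_mul_of_nonneg_left (by linarith [hφη j]) (μ.nonneg _)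
      _ ≤ 1 * (1 + η) := by rw [← sum_mul]; gcongr
      _ = 1 + η := one_mul _
  have hZpos : 0 < Zn := by linarith
  let μ' : Law d :=
    { ι := J
      fin := inferInstance
      wt := fun j => μ.wt j.1 * (1 + φ j) / Zn
      path := fun j => μ.path j.1
      nonneg := fun j => div_nonneg (hwn j) hZpos.le
      sum_one := by rw [← sum_div, div_self hZpos.ne'] }
  set k := 1 + loss * r with hk
  have hk1 : 1 ≤ k := by rw [hk, loss]; linarith
  have hdens : ∀ f : Path d → ℝ, (∀ γ, 0 ≤ f γ) → μ'.E f ≤ k * μ.E f := fun f hf => by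
    calc μ'.E f ≤ ∑ j : J, k * (μ.wt j.1 * f (μ.path j.1)) := by
          refine sum_le_sum fun j _ => ?_
          show μ.wt j.1 * (1 + φ j) / Zn * f (μ.path j.1) ≤ _
          rw [← mul_assoc k]
          refine mul_le_mul_of_nonneg_right ?_ (hf _)
          rw [div_le_iff₀ hZpos, mul_comm k, mul_assoc]
          refine mul_le_mul_of_nonneg_left ?_ (μ.nonneg _)
          have hj := hφη j
          have : 1 + η ≤ k * (1 - 8 * err) := by
            rw [hk, hη, loss, hr2]
            nlinarith [mul_le_mul_of_nonneg_left he' hr0, pow_nonneg hr0 3]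
          nlinarith [mul_le_mul_of_nonneg_left hZlo (by linarith : (0 : ℝ) ≤ k)]
      _ ≤ k * μ.E f := by
          rw [← mul_sum, sumG f]
          refine mul_le_mul_of_nonneg_left ?_ (by linarith)
          linarith [Law.E_nonneg μ (f := fun γ => bad γ * f γ) fun i => mul_nonneg (hbad0 _) (hf _)]
  have hmean : ∀ l, μ'.E (inc v κ a b l) = 0 := fun l => by
    have := congrArg (fun x => ⟪l, x⟫ / Zn) hφ
    simp only [inner_sum, inner_zero_right, zero_div, sum_div] at this
    refine (sum_congr rfl fun j _ => ?_).trans this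
    show μ.wt j.1 * (1 + φ j) / Zn * ⟪l, Z j⟫ = _
    rw [real_inner_smul_right, real_inner_smul_right]
    ring
  refine ⟨μ', ⟨fun j => h.start _, fun j => h.valid _, hmean, fun l => ?_, ?_⟩,
    fun j => ⟨j.1, rfl, j.2⟩⟩
  · -- variance
    set Q := qf v κ a b l
    have hQ : 0 ≤ Q := qf_nonneg hv h0 h1 a b l
    set X := inc v κ a b l
    have hC : 8 * err * μ.E (fun γ => (X γ ^ 2) ^ 2) ≤ (139 * r * Q) ^ 2 := by
      have h4 := (h.moments hab hs l hQ).2
      rw [show (fun γ => (X γ ^ 2) ^ 2) = fun γ => X γ ^ 4 by funext γ; ring, mul_pow, mul_pow,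
        ← hr2]
      calc 8 * err * μ.E (fun γ => X γ ^ 4) ≤ 8 * err * (24 * s ^ 2 * Q ^ 2) :=
            mul_le_mul_of_nonneg_left h4 (by positivity)
        _ ≤ 8 * err * (24 * 10 ^ 2 * Q ^ 2) := by gcongr
        _ ≤ 139 ^ 2 * err * Q ^ 2 := by nlinarith [mul_nonneg he (sq_nonneg Q)]
    have h139 := cs (fun γ => X γ ^ 2) _ (by positivity) hC
    simp only [abs_pow, sq_abs] at h139
    have h2 : μ.E (fun γ => X γ ^ 2) - μ.E (fun γ => bad γ * X γ ^ 2) ≤
        (1 + η) * μ'.E (fun γ => X γ ^ 2) := by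
      rw [← sumG, Law.E, mul_sum]
      refine sum_le_sum fun j _ => ?_
      show μ.wt j.1 * X (μ.path j.1) ^ 2 ≤
        (1 + η) * (μ.wt j.1 * (1 + φ j) / Zn * X (μ.path j.1) ^ 2)
      rw [← mul_assoc, ← mul_div_assoc]
      refine mul_le_mul_of_nonneg_right ?_ (sq_nonneg _)
      rw [le_div_iff₀ hZpos]
      calc μ.wt j.1 * Zn ≤ μ.wt j.1 * (1 + η) := mul_le_mul_of_nonneg_left hZhi (μ.nonneg _)
        _ ≤ (1 + η) * (μ.wt j.1 * (1 + φ j)) := by
            rw [mul_comm]
            exact mul_le_mul_of_nonneg_left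
              (le_mul_of_one_le_right (μ.nonneg _) (by linarith [hφ0 j])) (by linarith)
    have hvar := h.var l
    have h3 : (g - loss * r) * (1 + η) * Q ≤ (g - 139 * r) * Q := by
      refine mul_le_mul_of_nonneg_right ?_ hQ
      rw [hη, loss]
      nlinarith [mul_le_mul_of_nonneg_right hg' hr0, mul_nonneg hr0 hr0]
    refine le_of_mul_le_mul_left ?_ (show (0 : ℝ) < 1 + η by linarith)
    linarith
  · -- Laplace transform
    intro c c' hc hcc hc' w
    set Q := qf v κ c c' w
    have hQ : 0 ≤ Q := qf_nonneg hv h0 h1 c c' w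
    set X := inc v κ c c' w with hXdef
    by_cases hfull : c = a ∧ c' = b
    · obtain ⟨rfl, rfl⟩ := hfull
      rw [ends_self, pow_zero, one_mul]
      have hμ := h.mgf c c' le_rfl hcc le_rfl w
      rw [ends_self, pow_zero, one_mul] at hμ
      have h2 := hdens (fun γ => Real.exp (X γ) - 1 - X γ)
        fun γ => by linarith [Real.add_one_le_exp (X γ)]
      simp only [Law.E_sub, Law.E_const, hXdef, h.mean w, hmean w, sub_zero] at h2
      have h3 := one_add_mul_exp_le (y := s * Q / 2) hk1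
      rw [show k * s * Q / 2 = k * (s * Q / 2) by ring]
      have h4 : k * (μ.E (fun γ => Real.exp (X γ)) - 1) ≤ k * (Real.exp (s * Q / 2) - 1) :=
        mul_le_mul_of_nonneg_left (by linarith) (by linarith)
      linarith
    · refine (hdens _ fun γ => (Real.exp_pos _).le).trans ?_
      refine (mul_le_mul_of_nonneg_left (h.mgf c c' hc hcc hc' w) (by linarith)).trans ?_
      rw [mul_pow, ← mul_assoc]
      refine mul_le_mul ?_ ?_ (Real.exp_pos _).le (by positivity)
      · refine mul_le_mul_of_nonneg_right ?_ (by positivity)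
        exact le_self_pow₀ hk1 (by have := one_le_ends hfull; omega)
      · gcongr
        exact le_mul_of_one_le_left hs.le hk1

end Vale.Agent.P262.Prob
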