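import Vale.Agent.P262.ProbMoments

/-! P262, module C: the one-step law and the composition of laws. -/

namespace Vale.Agent.P262.Prob

open scoped RealInnerProductSpace
open Finset

variable {d : ℕ} {v : ℕ → Vec d} {κ : ℝ}

lemma exp_mul_le (y r : ℝ) (hr : |r| ≤ 3 / 2) :
    Real.exp (y * r) ≤ (1 / 2 + r / 3) * Real.exp (3 * y / 2) +
      (1 / 2 - r / 3) * Real.exp (-(3 * y / 2)) := by
  obtain ⟨h1, h2⟩ := abs_le.1 hr
  have h := convexOn_exp.2 (Set.mem_univ (3 * y / 2)) (Set.mem_univ (-(3 * y / 2)))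
    (show 0 ≤ 1 / 2 + r / 3 by linarith) (show 0 ≤ 1 / 2 - r / 3 by linarith) (by ring)
  simp only [smul_eq_mul] at h
  refine le_trans (le_of_eq ?_) h
  congr 1
  ring

/-- The law of one step. -/
theorem exists_stepLaw (hv : ∀ i, ‖v i‖ = 1) (h0 : 0 < κ) (h1 : κ ≤ 1 / 4) (t : ℕ) (p : Vec d) :
    ∃ μ : Law d, IsLaw v κ (9 / 4) (3 / 4) 1 t (t + 1) p μ := by
  set x := κ * ⟪v t, p⟫ with hx
  obtain ⟨x', base, hx', hbase, hZ⟩ : ∃ (x' : ℝ) (base : Vec d), |x'| ≤ 1 / 2 ∧
      (∀ e : ℝ, e = 1 ∨ e = -1 → StepOK κ (v t) p (base + e • v t)) ∧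
      ∀ e : ℝ, base + e • v t - Mop κ (v t) p = (e + x') • v t := by
    by_cases h : |x| ≤ 1 / 2
    · refine ⟨x, p, h, fun e he => ⟨e, he, Or.inl ⟨h, rfl⟩⟩, fun e => ?_⟩
      rw [Mop_apply, add_smul]
      abel
    · refine ⟨0, Mop κ (v t) p, by norm_num,
        fun e he => ⟨e, he, Or.inr ⟨not_le.1 h, rfl⟩⟩, fun e => ?_⟩
      rw [add_zero]
      abel
  obtain ⟨hl, hu⟩ := abs_le.1 hx'
  let sgn : Bool → ℝ := fun e => if e then 1 else -1
  let μ : Law d :=
    { ι := Bool
      fin := inferInstance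
      wt := fun e => if e then (1 - x') / 2 else (1 + x') / 2
      path := fun e u => if u ≤ t then p else base + sgn e • v t
      nonneg := fun e => by cases e <;> simp only [Bool.false_eq_true, if_true, if_false] <;> linarith
      sum_one := by simp only [Fintype.sum_bool, Bool.false_eq_true, if_true, if_false]; ring }
  have hpt : ∀ e : Bool, μ.path e t = p := fun e => if_pos le_rfl
  have hp1 : ∀ e : Bool, μ.path e (t + 1) = base + sgn e • v t := fun e => if_neg (by omega)
  have hinc : ∀ (e : Bool) (l : Vec d),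
      inc v κ t (t + 1) l (μ.path e) = (sgn e + x') * ⟪v t, l⟫ := fun e l => by
    rw [inc, hpt, hp1, fwd_succ v κ le_rfl, fwd_of_le v κ le_rfl, hZ, real_inner_smul_right,
      real_inner_comm]
  have hE : ∀ (l : Vec d) (F : ℝ → ℝ), μ.E (fun γ => F (inc v κ t (t + 1) l γ)) =
      (1 - x') / 2 * F ((1 + x') * ⟪v t, l⟫) + (1 + x') / 2 * F ((-1 + x') * ⟪v t, l⟫) := by
    intro l F
    simp only [Law.E]
    show ∑ e : Bool, μ.wt e * F (inc v κ t (t + 1) l (μ.path e)) = _
    rw [Fintype.sum_bool, hinc, hinc]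
    simp [μ, sgn]
  refine ⟨μ, hpt, fun e u hu1 hu2 => ?_, fun l => ?_, fun l => ?_, ?_⟩
  · obtain rfl : u = t := by omega
    rw [hpt, hp1]
    exact hbase _ (by cases e <;> simp [sgn])
  · exact (hE l id).trans (by simp only [id_eq]; ring)
  · have := hE l (fun y => y ^ 2)
    rw [this, qf_step hv h0 h1]
    nlinarith [mul_nonneg (mul_nonneg (by linarith : (0 : ℝ) ≤ 1 / 2 - x')
      (by linarith : (0 : ℝ) ≤ 1 / 2 + x')) (sq_nonneg ⟪v t, l⟫)]
  · intro c c' hc hcc hc' w
    by_cases hfull : c = t ∧ c' = t + 1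
    · obtain ⟨rfl, rfl⟩ := hfull
      rw [hE w Real.exp, qf_step hv h0 h1, one_pow, one_mul]
      set y := ⟪v c, w⟫
      have a1 := exp_mul_le y (1 + x') (abs_le.2 ⟨by linarith, by linarith⟩)
      have a2 := exp_mul_le y (-1 + x') (abs_le.2 ⟨by linarith, by linarith⟩)
      rw [mul_comm y] at a1 a2
      have hc := Real.cosh_le_exp_half_sq (3 * y / 2)
      rw [Real.cosh_eq, show (3 * y / 2) ^ 2 / 2 = 9 / 4 * y ^ 2 / 2 by ring] at hc
      refine le_trans (le_trans (add_le_add (mul_le_mul_of_nonneg_left a1 (by linarith))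
        (mul_le_mul_of_nonneg_left a2 (by linarith))) (le_of_eq ?_)) hc
      ring
    · obtain rfl : c = c' := by omega
      rw [one_pow, one_mul, qf_self, mul_zero, zero_div, Real.exp_zero]
      refine le_of_eq ((Law.E_congr μ fun e => ?_).trans (Law.E_const μ 1))
      rw [inc_self, Real.exp_zero]

variable {a m b : ℕ} {p : Vec d} {μ : Law d} {s g ρ : ℝ} {ν : Vec d → Law d}

/-- The law of a node of length zero. -/
theorem exists_constLaw (a : ℕ) (p : Vec d) :
    ∃ μ : Law d, IsLaw v κ s g ρ a a p μ := by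
  let μ : Law d :=
    { ι := Unit
      fin := inferInstance
      wt := fun _ => 1
      path := fun _ _ => p
      nonneg := fun _ => zero_le_one
      sum_one := by simp }
  refine ⟨μ, fun _ => rfl, fun _ u h h' => absurd h' (not_lt.2 h), fun l => ?_, fun l => ?_, ?_⟩
  · exact (Law.E_congr μ fun i => inc_self v κ a l _).trans (Law.E_const μ 0)
  · rw [qf_self, mul_zero]
    exact Law.E_nonneg μ fun i => sq_nonneg _
  · intro c c' hc hcc hc' w
    obtain rfl : c = a := by omega
    obtain rfl : c' = c := by omega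
    rw [qf_self, mul_zero, zero_div, Real.exp_zero, mul_one, ends_self, pow_zero]
    refine le_of_eq ((Law.E_congr μ fun e => ?_).trans (Law.E_const μ 1))
    rw [inc_self, Real.exp_zero]

/-- Composition keeps the parameters. -/
theorem IsLaw.bind (hμ : IsLaw v κ s g ρ a m p μ) (hν : ∀ q, IsLaw v κ s g ρ m b q (ν q))
    (hρ : 1 ≤ ρ) (ham : a ≤ m) (hmb : m ≤ b) : IsLaw v κ s g ρ a b p (μ.bind m ν) := by
  have hpow : ∀ {i j : ℕ}, i ≤ j → ρ ^ i ≤ ρ ^ j := fun h => pow_le_pow_right₀ hρ h
  -- values of a spliced path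
  have hright : ∀ (i : μ.ι) (j : (ν (μ.path i m)).ι) (u : ℕ), m ≤ u →
      splice m (μ.path i) ((ν (μ.path i m)).path j) u = (ν (μ.path i m)).path j u :=
    fun i j u hu => splice_right _ _ hu ((hν _).start j)
  have incR : ∀ (i : μ.ι) (j : (ν (μ.path i m)).ι) (c c' : ℕ) (w : Vec d), m ≤ c → m ≤ c' →
      inc v κ c c' w (splice m (μ.path i) ((ν (μ.path i m)).path j)) =
        inc v κ c c' w ((ν (μ.path i m)).path j) :=
    fun i j c c' w h h' => inc_congr v κ w (hright i j c h) (hright i j c' h')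
  have incL : ∀ (γ γ' : Path d) (c c' : ℕ) (w : Vec d), c ≤ m → c' ≤ m →
      inc v κ c c' w (splice m γ γ') = inc v κ c c' w γ :=
    fun γ γ' c c' w h h' => inc_congr v κ w (splice_left γ γ' h) (splice_left γ γ' h')
  refine ⟨fun x => (splice_left _ _ ham).trans (hμ.start x.1), ?_, fun l => ?_, fun l => ?_, ?_⟩
  · rintro ⟨i, j⟩ u hu hu'
    show StepOK κ (v u) (splice m (μ.path i) ((ν (μ.path i m)).path j) u)
      (splice m (μ.path i) ((ν (μ.path i m)).path j) (u + 1))
    by_cases h : u < m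
    · rw [splice_left _ _ h.le, splice_left _ _ (by omega)]
      exact hμ.valid i u hu h
    · rw [hright i j u (by omega), hright i j (u + 1) (by omega)]
      exact (hν _).valid j u (by omega) hu'
  · rw [Law.E_bind, ← hμ.mean (bwd v κ m b l)]
    refine Law.E_congr μ fun i => ?_
    rw [Law.E_congr (ν _) (g := fun γ' => inc v κ m b l γ' + inc v κ a m (bwd v κ m b l) (μ.path i))
      fun j => ?_, Law.E_add, Law.E_const, (hν _).mean l, zero_add]
    rw [inc_add v κ ham hmb, incR i j m b l le_rfl hmb, incL _ _ a m _ ham le_rfl]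
  · rw [Law.E_bind, qf_add v κ ham hmb, mul_add]
    have h2 : μ.E (fun γ => g * qf v κ m b l + inc v κ a m (bwd v κ m b l) γ ^ 2) ≤
        μ.E (fun γ => (ν (γ m)).E fun γ' => inc v κ a b l (splice m γ γ') ^ 2) := by
      refine Law.E_mono μ fun i => ?_
      have e : ((ν (μ.path i m)).E fun γ' => inc v κ a b l (splice m (μ.path i) γ') ^ 2) =
          (ν (μ.path i m)).E (fun γ' => inc v κ m b l γ' ^ 2 +
            (2 * inc v κ a m (bwd v κ m b l) (μ.path i)) * inc v κ m b l γ' +
            inc v κ a m (bwd v κ m b l) (μ.path i) ^ 2) := Law.E_congr _ fun j => by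
        rw [inc_add v κ ham hmb, incR i j m b l le_rfl hmb, incL _ _ a m _ ham le_rfl]
        ring
      rw [e, Law.E_add, Law.E_add, Law.E_const, Law.E_mul_left, (hν _).mean l, mul_zero, add_zero]
      linarith [(hν (μ.path i m)).var l]
    rw [Law.E_add, Law.E_const] at h2
    linarith [hμ.var (bwd v κ m b l)]
  · intro c c' hc hcc hc' w
    rw [Law.E_bind]
    by_cases hc'm : c' ≤ m
    · have e : μ.E (fun γ => (ν (γ m)).E fun γ' => Real.exp (inc v κ c c' w (splice m γ γ'))) =
          μ.E (fun γ => Real.exp (inc v κ c c' w γ)) := Law.E_congr μ fun i => by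
        rw [← Law.E_const (ν (μ.path i m)) (Real.exp (inc v κ c c' w (μ.path i)))]
        exact Law.E_congr _ fun j => by rw [incL _ _ c c' w (by omega) hc'm]
      rw [e]
      refine (hμ.mgf c c' hc hcc hc'm w).trans
        (mul_le_mul_of_nonneg_right (hpow ?_) (Real.exp_pos _).le)
      simp only [ends]
      split_ifs <;> omega
    by_cases hmc : m ≤ c
    · refine (Law.E_mono μ fun i => ?_).trans (le_of_eq (Law.E_const μ _))
      refine (le_of_eq (Law.E_congr _ fun j => ?_)).trans (((hν (μ.path i m)).mgf c c' hmc hcc hc' w).trans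
        (mul_le_mul_of_nonneg_right (hpow ?_) (Real.exp_pos _).le))
      · rw [incR i j c c' w hmc (by omega)]
      · simp only [ends]
        split_ifs <;> omega
    -- straddling
    have hcm : c ≤ m := by omega
    have hmc' : m ≤ c' := by omega
    set w' := bwd v κ m c' w
    set B := ρ ^ ends m b m c' * Real.exp (s * qf v κ m c' w / 2) with hB
    have h2 : μ.E (fun γ => (ν (γ m)).E fun γ' => Real.exp (inc v κ c c' w (splice m γ γ'))) ≤
        μ.E (fun γ => B * Real.exp (inc v κ c m w' γ)) := by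
      refine Law.E_mono μ fun i => ?_
      have e : ((ν (μ.path i m)).E fun γ' => Real.exp (inc v κ c c' w (splice m (μ.path i) γ'))) =
          (ν (μ.path i m)).E (fun γ' => Real.exp (inc v κ c m w' (μ.path i)) *
            Real.exp (inc v κ m c' w γ')) := Law.E_congr _ fun j => by
        rw [inc_add v κ hcm hmc', incR i j m c' w le_rfl hmc', incL _ _ c m _ hcm le_rfl,
          ← Real.exp_add, add_comm]
      rw [e, Law.E_mul_left, mul_comm B]
      exact mul_le_mul_of_nonneg_left ((hν _).mgf m c' le_rfl hmc' hc' w) (Real.exp_pos _).le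
    rw [Law.E_mul_left] at h2
    refine h2.trans ((mul_le_mul_of_nonneg_left (hμ.mgf c m hc hcm le_rfl w') (by positivity)).trans
      (le_of_eq ?_))
    have he : ends a b c c' = ends m b m c' + ends a m c m := by
      simp [ends, add_comm]
    rw [hB, qf_add v κ hcm hmc', he, pow_add, mul_add, add_div, Real.exp_add]
    ring

end Vale.Agent.P262.Prob
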