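import Vale.Agent.P262.Interface
import Vale.Agent.P262.ProbReweight
import Vale.Agent.P262.ProbStep

/-! P262, module C: induction over the levels. -/

namespace Vale.Agent.P262

open scoped RealInnerProductSpace
open Finset Classical

namespace Prob

variable {d : ℕ} {v : ℕ → Vec d} {κ : ℝ}

lemma pass_congr (e : Ev d) {γ γ' : Path d} (h : γ e.lo = γ' e.lo) (h' : γ e.hi = γ' e.hi)
    (hp : e.Pass v κ γ') : e.Pass v κ γ := by
  unfold Ev.Pass at hp ⊢
  rwa [incr_eq, inc_congr v κ e.w h h']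

lemma pass_of_lo_eq_hi (e : Ev d) (h : e.lo = e.hi) (γ : Path d) : e.Pass v κ γ := by
  unfold Ev.Pass
  rw [incr_eq, h, inc_self, abs_zero]
  exact Real.sqrt_nonneg _

/-- A test inside a node either crosses it or lies inside one of its children. -/
lemma crosses_or_child {S : ℕ → Finset ℕ} {J N : ℕ} (hS : Part S J N) {j a b : ℕ}
    (hn : Consec (S j) a b) (e : Ev d) (ha : a ≤ e.lo) (hb : e.hi ≤ b) (hlt : e.lo < e.hi) :
    Crosses S J j a b e ∨
      (j < J ∧ ∃ x y, Consec (S (j + 1)) x y ∧ a ≤ x ∧ y ≤ b ∧ x ≤ e.lo ∧ e.hi ≤ y) := by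
  by_cases hc : Crosses S J j a b e
  · exact Or.inl hc
  refine Or.inr ?_
  simp only [Crosses, ha, hb, hlt, true_and, Classical.not_imp] at hc
  obtain ⟨hj, hno⟩ := hc
  push Not at hno
  refine ⟨hj, ?_⟩
  have hsub := hS.mono j hj
  have ha' : a ∈ (S (j + 1)).filter (· ≤ e.lo) := mem_filter.2 ⟨hsub hn.1, ha⟩
  have hb' : b ∈ (S (j + 1)).filter (e.hi ≤ ·) := mem_filter.2 ⟨hsub hn.2.1, hb⟩
  obtain ⟨x, hx, hxmax⟩ := exists_max_image _ id ⟨a, ha'⟩
  obtain ⟨y, hy, hymin⟩ := exists_min_image _ id ⟨b, hb'⟩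
  obtain ⟨hx1, hx2⟩ := mem_filter.1 hx
  obtain ⟨hy1, hy2⟩ := mem_filter.1 hy
  refine ⟨x, y, ⟨hx1, hy1, by omega, fun c hc hxc => ?_⟩, hxmax a ha', hymin b hb', hx2, hy2⟩
  by_contra hcy
  by_cases hlo : c ≤ e.lo
  · have := hxmax c (mem_filter.2 ⟨hc, hlo⟩)
    simp only [id] at this
    omega
  · have h' := hno c hc (by omega)
    have := hymin c (mem_filter.2 ⟨hc, h'⟩)
    simp only [id] at this
    omega

/-- The parameters after `n` conditionings. -/
noncomputable def sPar (r : ℝ) (n : ℕ) : ℝ := (1 + loss * r) ^ n * (9 / 4)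

/-- The parameters after `n` conditionings. -/
noncomputable def gPar (r : ℝ) (n : ℕ) : ℝ := 3 / 4 - n * (loss * r)

/-- The parameters after `n` conditionings. -/
noncomputable def rPar (r : ℝ) (n : ℕ) : ℝ := (1 + loss * r) ^ n

lemma par_bounds {r : ℝ} (hr : 0 ≤ r) {n J : ℕ} (hn : n ≤ J + 1)
    (h : ((J : ℝ) + 1) * r ≤ 1 / 1000000) :
    0 < sPar r n ∧ sPar r n ≤ 10 ∧ 1 ≤ rPar r n ∧ rPar r n ≤ 2 ∧ 1 / 2 ≤ gPar r n ∧
      gPar r n ≤ 1 := by
  have hn' : (n : ℝ) ≤ (J : ℝ) + 1 := by exact_mod_cast hn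
  have h1 : (n : ℝ) * (loss * r) ≤ 1 / 10 := by
    have := mul_le_mul_of_nonneg_right hn' hr
    rw [loss]
    linarith
  have hl : 0 ≤ loss * r := mul_nonneg (by norm_num [loss]) hr
  have hp : (1 + loss * r) ^ n ≤ 2 := by
    calc (1 + loss * r) ^ n ≤ Real.exp (loss * r) ^ n :=
          pow_le_pow_left₀ (by linarith) (by linarith [Real.add_one_le_exp (loss * r)]) n
      _ = Real.exp (n * (loss * r)) := (Real.exp_nat_mul _ n).symm
      _ ≤ Real.exp (1 / 10) := by gcongr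
      _ ≤ 1 / (1 - 1 / 10) := Real.exp_bound_div_one_sub_of_interval (by norm_num) (by norm_num)
      _ ≤ 2 := by norm_num
  have hp1 : 1 ≤ (1 + loss * r) ^ n := one_le_pow₀ (by linarith)
  have hn0 : 0 ≤ (n : ℝ) * (loss * r) := by positivity
  refine ⟨?_, ?_, hp1, hp, ?_, ?_⟩ <;> simp only [sPar, gPar] <;> linarith

variable {S : ℕ → Finset ℕ} {J N n : ℕ} (e : Fin n → Ev d)

/-- Chaining the laws of the children. -/
lemma exists_chain {s g ρ : ℝ} (hρ : 1 ≤ ρ) (T : Finset ℕ) (a : ℕ) (haT : a ∈ T)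
    (hchild : ∀ x y, Consec T x y → a ≤ x → ∀ q, ∃ μ : Law d, IsLaw v κ s g ρ x y q μ ∧
      ∀ i k, x ≤ (e i).lo → (e i).hi ≤ y → (e i).Pass v κ (μ.path k))
    (c : ℕ) (hc : c ∈ T) (hac : a ≤ c) (hlh : ∀ i, (e i).lo ≤ (e i).hi) :
    ∀ p, ∃ μ : Law d, IsLaw v κ s g ρ a c p μ ∧
      ∀ i k, ∀ x y, Consec T x y → a ≤ x → y ≤ c → x ≤ (e i).lo → (e i).hi ≤ y →
        (e i).Pass v κ (μ.path k) := by
  induction c using Nat.strong_induction_on with
  | _ c ih =>
    intro p
    rcases hac.eq_or_lt with rfl | hlt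
    · obtain ⟨μ, hμ⟩ := exists_constLaw (v := v) (κ := κ) (s := s) (g := g) (ρ := ρ) a p
      exact ⟨μ, hμ, fun i k x y hxy hx hy _ _ => absurd hxy.2.2.1 (by omega)⟩
    · have ha' : a ∈ T.filter (· < c) := mem_filter.2 ⟨haT, hlt⟩
      obtain ⟨m, hm, hmax⟩ := exists_max_image _ id ⟨a, ha'⟩
      obtain ⟨hmT, hmc⟩ := mem_filter.1 hm
      have ham : a ≤ m := hmax a ha'
      have hcon : Consec T m c := ⟨hmT, hc, hmc, fun x hx hmx => by
        by_contra hxc
        have := hmax x (mem_filter.2 ⟨hx, by omega⟩)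
        simp only [id] at this
        omega⟩
      obtain ⟨μ, hμ, hμp⟩ := ih m hmc hmT ham p
      choose ν hν hνp using hchild m c hcon ham
      refine ⟨μ.bind m ν, hμ.bind hν hρ ham hmc.le, ?_⟩
      rintro i ⟨k, k'⟩ x y hxy hx hy hlo hhi
      by_cases hym : y ≤ m
      · refine pass_congr (e i) ?_ ?_ (hμp i k x y hxy hx hym hlo hhi)
        · exact splice_left _ _ (((hlh i).trans hhi).trans hym)
        · exact splice_left _ _ (hhi.trans hym)
      · have hyc : y = c := le_antisymm hy (hcon.2.2.2 y hxy.2.1 (by omega))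
        have hmx : m ≤ x := by
          by_contra hxm
          exact hym (hxy.2.2.2 m hmT (by omega))
        refine pass_congr (e i) ?_ ?_ (hνp (μ.path k m) i k' (hmx.trans hlo) (hyc ▸ hhi))
        · exact splice_right _ _ (hmx.trans hlo) ((hν _).start k')
        · exact splice_right _ _ ((hmx.trans hlo).trans (hlh i)) ((hν _).start k')

/-- The laws of all nodes, from the single steps up. -/
theorem exists_nodeLaw (hv : ∀ i, ‖v i‖ = 1) (h0 : 0 < κ) (h1 : κ ≤ 1 / 4) (hS : Part S J N)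
    (hadm : ∀ i, (e i).Adm v κ N) (err : ℝ) (he : 0 ≤ err)
    (hθ : ((J : ℝ) + 1) * Real.sqrt err ≤ 1 / 1000000)
    (hcr : ∀ j, j ≤ J → ∀ a b, Consec (S j) a b →
      ∑ i ∈ Finset.univ.filter (fun i => Crosses S J j a b (e i)),
        Real.exp (-(e i).lam) ≤ err) :
    ∀ m : ℕ, ∀ j, j + m = J → ∀ a b, Consec (S j) a b → ∀ p, ∃ μ : Law d,
      IsLaw v κ (sPar (Real.sqrt err) (m + 1)) (gPar (Real.sqrt err) (m + 1))
        (rPar (Real.sqrt err) (m + 1)) a b p μ ∧
      ∀ i k, a ≤ (e i).lo → (e i).hi ≤ b → (e i).Pass v κ (μ.path k) := by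
  set r := Real.sqrt err with hr
  have hr0 : 0 ≤ r := Real.sqrt_nonneg _
  have hr6 : r ≤ 1 / 1000000 :=
    (le_mul_of_one_le_left hr0 (le_add_of_nonneg_left (Nat.cast_nonneg J))).trans hθ
  -- one conditioning
  have cond : ∀ (m j : ℕ), j + m = J → ∀ a b, Consec (S j) a b → ∀ p,
      (∃ μ : Law d, IsLaw v κ (sPar r m) (gPar r m) (rPar r m) a b p μ ∧
        ∀ i k, j < J → ∀ x y, Consec (S (j + 1)) x y → a ≤ x → y ≤ b → x ≤ (e i).lo →
          (e i).hi ≤ y → (e i).Pass v κ (μ.path k)) →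
      ∃ μ : Law d, IsLaw v κ (sPar r (m + 1)) (gPar r (m + 1)) (rPar r (m + 1)) a b p μ ∧
        ∀ i k, a ≤ (e i).lo → (e i).hi ≤ b → (e i).Pass v κ (μ.path k) := by
    intro m j hjm a b hab p hμ
    obtain ⟨μ, hμ, hμp⟩ := hμ
    obtain ⟨hs, hs', hρ, hρ', hg, hg'⟩ := par_bounds hr0 (n := m) (J := J) (by omega) hθ
    set Cr := Finset.univ.filter (fun i => Crosses S J j a b (e i)) with hCr
    set G : Path d → Prop := fun γ => ∀ i ∈ Cr, (e i).Pass v κ γ with hGdef
    have hG : μ.E (fun γ => if G γ then 0 else 1) ≤ 8 * err := by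
      calc μ.E (fun γ => if G γ then 0 else 1)
          ≤ μ.E (fun γ => ∑ i ∈ Cr, if (e i).Pass v κ γ then 0 else 1) := by
            refine Law.E_mono μ fun k => ?_
            have hnn : ∀ i ∈ Cr, (0 : ℝ) ≤ if (e i).Pass v κ (μ.path k) then 0 else 1 :=
              fun i _ => by split_ifs <;> norm_num
            by_cases hk : G (μ.path k)
            · rw [if_pos hk]; exact Finset.sum_nonneg hnn
            · rw [if_neg hk]
              simp only [hGdef, not_forall] at hk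
              obtain ⟨i, hi, hf⟩ := hk
              exact (le_of_eq (if_neg hf).symm).trans (Finset.single_le_sum hnn hi)
        _ = ∑ i ∈ Cr, μ.E (fun γ => if (e i).Pass v κ γ then 0 else 1) := Law.E_sum μ _ _
        _ ≤ ∑ i ∈ Cr, 8 * Real.exp (-(e i).lam) := by
            refine Finset.sum_le_sum fun i hi => ?_
            obtain ⟨ha, hb, -, -⟩ := (Finset.mem_filter.1 hi).2
            refine le_trans (le_of_eq ?_) (hμ.tail hs hs' hρ hρ' N (e i) (hadm i) ha hb)
            exact Finset.sum_congr rfl fun k _ => by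
              by_cases hp : (e i).Pass v κ (μ.path k) <;> simp [hp]
        _ ≤ 8 * err := by
            rw [← Finset.mul_sum]
            exact mul_le_mul_of_nonneg_left (hcr j (by omega) a b hab) (by norm_num)
    obtain ⟨μ', hμ', hsub⟩ :=
      hμ.reweight hv h0 h1 hab.2.2.1.le hs hs' hρ hg hg' G err he hr6 (by convert hG)
    refine ⟨μ', ?_, fun i k ha hb => ?_⟩
    · have e1 : sPar r (m + 1) = (1 + loss * r) * sPar r m := by rw [sPar, sPar, pow_succ]; ring
      have e2 : gPar r (m + 1) = gPar r m - loss * r := by rw [gPar, gPar]; push_cast; ring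
      have e3 : rPar r (m + 1) = (1 + loss * r) * rPar r m := by rw [rPar, rPar, pow_succ]; ring
      rw [e1, e2, e3]
      exact hμ'
    · obtain ⟨k', hk', hGk⟩ := hsub k
      rw [hk']
      rcases (hadm i).1.eq_or_lt with heq | hlt
      · exact pass_of_lo_eq_hi (e i) heq _
      rcases crosses_or_child hS hab (e i) ha hb hlt with hc | ⟨hj, x, y, hxy, hx, hy, h2, h3⟩
      · exact hGk i (Finset.mem_filter.2 ⟨Finset.mem_univ _, hc⟩)
      · exact hμp i k' hj x y hxy hx hy h2 h3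
  intro m
  induction m with
  | zero =>
    intro j hj a b hab p
    obtain rfl : j = J := by omega
    obtain rfl : b = a + 1 := by
      obtain ⟨ha, hb, hlt, hmin⟩ := hab
      rw [hS.top, Finset.mem_range] at ha hb
      have := hmin (a + 1) (by rw [hS.top, Finset.mem_range]; omega) (by omega)
      omega
    refine cond 0 _ hj a _ hab p ?_
    obtain ⟨μ, hμ⟩ := exists_stepLaw hv h0 h1 a p
    exact ⟨μ, by simpa [sPar, gPar, rPar] using hμ, fun i k h => absurd h (lt_irrefl _)⟩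
  | succ m ih =>
    intro j hj a b hab p
    obtain ⟨-, -, hρ, -, -, -⟩ := par_bounds hr0 (n := m + 1) (J := J) (by omega) hθ
    have hsub := hS.mono j (by omega)
    obtain ⟨μ, hμ, hμp⟩ := exists_chain e hρ (S (j + 1)) a (hsub hab.1)
      (fun x y hxy _ q => ih (j + 1) (by omega) x y hxy q) b (hsub hab.2.1) hab.2.2.1.le
      (fun i => (hadm i).1) p
    exact cond (m + 1) j hj a b hab p ⟨μ, hμ, fun i k _ => hμp i k⟩

end Prob

/-- Module C. -/
theorem pathExists : PathExists := by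
  refine ⟨1 / 1000000, by norm_num, ?_⟩
  intro d v κ hv h0 h1 S J N hN hS n e err hadm he hθ hcr
  have hroot : Consec (S 0) 0 N := by
    rw [hS.zero]
    refine ⟨by simp, by simp, hN, fun c hc hc0 => ?_⟩
    simp only [Finset.mem_insert, Finset.mem_singleton] at hc
    omega
  obtain ⟨μ, hμ, hμp⟩ :=
    Prob.exists_nodeLaw e hv h0 h1 hS hadm err he hθ hcr J 0 (zero_add J) 0 N hroot 0
  obtain ⟨k⟩ := μ.nonempty
  exact ⟨μ.path k, hμ.start k, hμ.valid k,
    fun i => hμp i k (Nat.zero_le _) (hadm i).2.1⟩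

end Vale.Agent.P262
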