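import Vale.Agent.P262.Interface
import Vale.Agent.P262.Chobanyan

/-! Module E: Chobanyan's transference. -/

namespace Vale.Agent.P262

/-- Module E. -/
theorem transference : Transference := by
  intro d N σ hs v hv h0
  exact steinitz_of_signs σ hs v hv h0

end Vale.Agent.P262
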