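import Vale.Agent.P262.Interface
import Vale.Agent.P262.Prob
import Vale.Agent.P262.Transfer

/-! P262: assembly of the modules. -/

namespace Vale.Agent.P262

open scoped RealInnerProductSpace
open Finset

namespace Assembly

variable {d : ℕ}

/-- Forget the last coordinate. -/
noncomputable def proj (d : ℕ) : Vec (d + 1) →ₗ[ℝ] Vec d where
  toFun p := WithLp.toLp 2 fun i => p (Fin.castSucc i)
  map_add' p q := by ext i; simp
  map_smul' c p := by ext i; simp

lemma norm_proj_le (p : Vec (d + 1)) : ‖proj d p‖ ≤ ‖p‖ := by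
  refine (sq_le_sq₀ (norm_nonneg _) (norm_nonneg _)).1 ?_
  simp only [EuclideanSpace.norm_sq_eq, proj, LinearMap.coe_mk, AddHom.coe_mk]
  rw [Fin.sum_univ_castSucc fun i => ‖p i‖ ^ 2]
  exact le_add_of_nonneg_right (sq_nonneg _)

lemma exists_lift (v : Vec d) (hv : ‖v‖ ≤ 1) : ∃ w : Vec (d + 1), ‖w‖ = 1 ∧ proj d w = v := by
  refine ⟨WithLp.toLp 2 (Fin.snoc v.ofLp (Real.sqrt (1 - ‖v‖ ^ 2))), ?_, ?_⟩
  · have h : 0 ≤ 1 - ‖v‖ ^ 2 := by nlinarith [norm_nonneg v]
    rw [← sq_eq_sq₀ (norm_nonneg _) zero_le_one, EuclideanSpace.norm_sq_eq,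
      Fin.sum_univ_castSucc]
    simp only [Fin.snoc_castSucc, Fin.snoc_last, Real.norm_eq_abs, sq_abs, Real.sq_sqrt h]
    simp [EuclideanSpace.norm_sq_eq]
  · ext i
    simp [proj]

lemma signable_zero (N : ℕ) (σ : ℝ) (hσ : 0 ≤ σ) : Signable 0 N σ := fun v _ =>
  ⟨fun _ => 1, fun _ => Or.inl rfl, fun k => by
    rw [Subsingleton.elim (∑ i ∈ _, (1 : ℝ) • v i) 0, norm_zero]
    exact hσ⟩

lemma exists_log_bound (B : ℕ) : ∃ K : ℝ, 0 ≤ K ∧ ∀ d : ℕ, 1 ≤ d →
    (Nat.clog 2 (d + 1 + B) : ℝ) ≤ K * Real.log (d + 1) := by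
  have hl := Real.log_pos (show (1 : ℝ) < 2 by norm_num)
  set M := Real.log (2 * (1 + (B : ℝ))) with hM
  have hM0 : 0 ≤ M := Real.log_nonneg (by linarith [(Nat.cast_nonneg B : (0 : ℝ) ≤ B)])
  refine ⟨(M / Real.log 2 + 1) / Real.log 2, by positivity, fun d hd => ?_⟩
  set n := Nat.clog 2 (d + 1 + B)
  have h1 : 2 ^ n ≤ 2 * (d + 1 + B) := by
    have h : 2 ^ n.pred < d + 1 + B :=
      Nat.pow_pred_clog_lt_self (b := 2) one_lt_two (x := d + 1 + B) (by omega)
    have h' : 2 ^ n ≤ 2 ^ (n.pred + 1) :=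
      Nat.pow_le_pow_right (by norm_num) (by simp only [Nat.pred_eq_sub_one]; omega)
    rw [pow_succ] at h'
    omega
  have hd' : (1 : ℝ) ≤ d := by exact_mod_cast hd
  have h2 : (2 : ℝ) ^ n ≤ 2 * (1 + (B : ℝ)) * (d + 1) := by
    have h1' : (2 : ℝ) ^ n ≤ 2 * ((d : ℝ) + 1 + B) := by exact_mod_cast h1
    nlinarith [mul_nonneg (Nat.cast_nonneg B : (0 : ℝ) ≤ B) (by linarith : (0 : ℝ) ≤ d)]
  have h3 := Real.log_le_log (by positivity) h2
  rw [Real.log_pow, Real.log_mul (by positivity) (by positivity), ← hM] at h3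
  have h4 : Real.log 2 ≤ Real.log ((d : ℝ) + 1) := Real.log_le_log (by norm_num) (by linarith)
  have h5 : M ≤ M / Real.log 2 * Real.log ((d : ℝ) + 1) := by
    calc M = M / Real.log 2 * Real.log 2 := (div_mul_cancel₀ M hl.ne').symm
      _ ≤ _ := mul_le_mul_of_nonneg_left h4 (by positivity)
  rw [div_mul_eq_mul_div, le_div_iff₀ hl]
  linarith

end Assembly

open Assembly in
/-- The tests give the main bound. -/
theorem mainBound_of (hT : TestsExist) : MainBound := by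
  obtain ⟨θ, hθ, hpath⟩ := pathExists
  obtain ⟨A, B, hAB⟩ := hT θ hθ
  obtain ⟨K, hK, hlog⟩ := exists_log_bound B
  refine ⟨2 * A * K, fun d N => ?_⟩
  rcases Nat.eq_zero_or_pos d with rfl | hd
  · exact signable_zero N _ (by simp)
  have hlog0 : 0 ≤ Real.log ((d : ℝ) + 1) := Real.log_nonneg (by linarith [Nat.cast_nonneg (α := ℝ) d])
  rcases Nat.eq_zero_or_pos N with rfl | hN
  · refine fun v _ => ⟨fun _ => 1, fun _ => Or.inl rfl, fun k => ?_⟩
    simp only [Finset.univ_eq_empty, Finset.filter_empty, Finset.sum_empty, norm_zero]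
    positivity
  intro v hv
  choose w hw hwv using fun i => exists_lift (v i) (hv i)
  let u : ℕ → Vec (d + 1) := fun t =>
    if h : t < N then w ⟨t, h⟩ else EuclideanSpace.single (Fin.last d) 1
  have hu : ∀ t, ‖u t‖ = 1 := fun t => by
    simp only [u]
    split_ifs
    · exact hw _
    · simp
  set n₀ := Nat.clog 2 (d + 1 + B)
  obtain ⟨κ, S, J, n, e, err, hκ, hκ', hS, hadm, herr, herrθ, hcr, hall⟩ :=
    hAB (d + 1) u (by omega) hu n₀ (Nat.le_pow_clog one_lt_two _) N hN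
  obtain ⟨γ, hγ0, hval, hpass⟩ :=
    hpath (d + 1) u κ hu hκ hκ' S J N hN hS n e err hadm herr herrθ hcr
  obtain ⟨hlin, hbd⟩ := hall γ hγ0 hval hpass
  have hstep : ∀ i : Fin N, ∃ s : ℝ, (s = 1 ∨ s = -1) ∧ γ (i.val + 1) = γ i.val + s • u i.val := by
    intro i
    obtain ⟨s, hs, h⟩ := hval i.val (Nat.zero_le _) i.isLt
    rcases h with ⟨-, h⟩ | ⟨h, -⟩
    · exact ⟨s, hs, h⟩
    · exact absurd (hlin i.val i.isLt) (not_le.2 h)
  choose s hs hγ using hstep
  refine ⟨s, hs, fun k => ?_⟩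
  have hsum : ∀ k, k ≤ N → ∑ i ∈ Finset.univ.filter (fun i : Fin N => i.val < k), s i • v i =
      proj d (γ k) := by
    intro k hk
    induction k with
    | zero => simp [hγ0]
    | succ k ih =>
      have hfil : Finset.univ.filter (fun i : Fin N => i.val < k + 1) =
          insert ⟨k, hk⟩ (Finset.univ.filter (fun i : Fin N => i.val < k)) := by
        ext i
        simp only [Finset.mem_filter, Finset.mem_univ, true_and, Finset.mem_insert, Fin.ext_iff]
        omega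
      have hu' : u k = w ⟨k, hk⟩ := dif_pos hk
      rw [hfil, Finset.sum_insert (by simp), ih (by omega), hγ ⟨k, hk⟩, hu', map_add, map_smul, hwv,
        add_comm]
  have hk : ∑ i ∈ Finset.univ.filter (fun i : Fin N => i.val < k), s i • v i =
      proj d (γ (min k N)) := by
    rw [← hsum _ (min_le_right _ _)]
    refine Finset.sum_congr (Finset.filter_congr fun i _ => ?_) fun _ _ => rfl
    exact ⟨fun h => lt_min h i.isLt, fun h => h.trans_le (min_le_left _ _)⟩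
  rw [hk]
  refine (norm_proj_le _).trans ((hbd _ (min_le_right _ _)).trans ?_)
  have hsqrt : Real.sqrt ((d + 1 : ℕ) : ℝ) ≤ 2 * Real.sqrt d := by
    rw [Real.sqrt_le_iff]
    refine ⟨by positivity, ?_⟩
    rw [mul_pow, Real.sq_sqrt (Nat.cast_nonneg d)]
    have : (1 : ℝ) ≤ d := by exact_mod_cast hd
    push_cast
    linarith
  calc (A : ℝ) * n₀ * Real.sqrt ((d + 1 : ℕ) : ℝ)
      ≤ (A : ℝ) * (K * Real.log (d + 1)) * (2 * Real.sqrt d) :=
        mul_le_mul (mul_le_mul_of_nonneg_left (hlog d hd) (Nat.cast_nonneg A)) hsqrt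
          (Real.sqrt_nonneg _) (by positivity)
    _ = 2 * A * K * Real.sqrt d * Real.log (d + 1) := by ring

/-- The Steinitz constant inherits the bound. -/
theorem steinitz_of (h : MainBound) :
    ∃ C : ℝ, ∀ d N : ℕ, ∀ v : Fin N → Vec d, (∀ i, ‖v i‖ ≤ 1) → ∑ i, v i = 0 →
      ∃ π : Equiv.Perm (Fin N), ∀ k : ℕ,
        ‖∑ i ∈ Finset.univ.filter (fun i : Fin N => i.val < k), v (π i)‖ ≤
          C * Real.sqrt d * Real.log (d + 1) := by
  obtain ⟨C, hC⟩ := h
  exact ⟨C, fun d N => transference d N _ (hC d N)⟩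

/-- The statement to hand in. -/
theorem main_statement_of (hT : TestsExist) :
    ∃ C : ℝ, ∀ (d N : ℕ) (v : Fin N → EuclideanSpace ℝ (Fin d)), (∀ i, ‖v i‖ ≤ 1) →
      (∃ s : Fin N → ℝ, (∀ i, s i = 1 ∨ s i = -1) ∧ ∀ k : ℕ,
        ‖∑ i ∈ Finset.univ.filter (fun i : Fin N => i.val < k), s i • v i‖ ≤
          C * Real.sqrt d * Real.log (d + 1)) ∧
      (∑ i, v i = 0 → ∃ π : Equiv.Perm (Fin N), ∀ k : ℕ,
        ‖∑ i ∈ Finset.univ.filter (fun i : Fin N => i.val < k), v (π i)‖ ≤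
          C * Real.sqrt d * Real.log (d + 1)) := by
  obtain ⟨C, hC⟩ := mainBound_of hT
  exact ⟨C, fun d N v hv => ⟨hC d N v hv, transference d N _ (hC d N) v hv⟩⟩

end Vale.Agent.P262
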