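import Vale.Agent.P262.Defs

/-! P262, module C: linear basics and finite laws on paths. -/

namespace Vale.Agent.P262.Prob

open scoped RealInnerProductSpace

variable {d : ℕ} (v : ℕ → Vec d) (κ : ℝ)

lemma Mop_apply (w x : Vec d) : Mop κ w x = x - (κ * ⟪w, x⟫) • w := by
  simp [Mop, smul_smul]

lemma inner_Mop (w x y : Vec d) : ⟪Mop κ w x, y⟫ = ⟪x, Mop κ w y⟫ := by
  rw [Mop_apply, Mop_apply, inner_sub_left, inner_sub_right, real_inner_smul_left,
    real_inner_smul_right, real_inner_comm x w]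
  ring

lemma norm_Mop_sq {w : Vec d} (hw : ‖w‖ = 1) (x : Vec d) :
    ‖x‖ ^ 2 - ‖Mop κ w x‖ ^ 2 = (2 * κ - κ ^ 2) * ⟪w, x⟫ ^ 2 := by
  rw [Mop_apply, norm_sub_sq_real, real_inner_smul_right, norm_smul, hw, mul_one,
    Real.norm_eq_abs, sq_abs, real_inner_comm w x]
  ring

lemma norm_Mop_le {w : Vec d} (hw : ‖w‖ = 1) (h0 : 0 < κ) (h1 : κ ≤ 1 / 4) (x : Vec d) :
    ‖Mop κ w x‖ ≤ ‖x‖ := by
  have h : 0 ≤ (2 * κ - κ ^ 2) * ⟪w, x⟫ ^ 2 := mul_nonneg (by nlinarith) (sq_nonneg _)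
  rw [← norm_Mop_sq κ hw] at h
  exact (sq_le_sq₀ (norm_nonneg _) (norm_nonneg _)).1 (by linarith)

lemma fwd_succ {a b : ℕ} (h : a ≤ b) (p : Vec d) :
    fwd v κ a (b + 1) p = Mop κ (v b) (fwd v κ a b p) := by
  simp [fwd, h]

lemma bwd_succ {a b : ℕ} (h : a ≤ b) (p : Vec d) :
    bwd v κ a (b + 1) p = bwd v κ a b (Mop κ (v b) p) := by
  simp [bwd, h]

lemma fwd_of_le {a b : ℕ} (h : b ≤ a) (p : Vec d) : fwd v κ a b p = p := by
  cases b with
  | zero => rfl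
  | succ b => simp [fwd, show ¬ a ≤ b by omega]

lemma bwd_of_le {a b : ℕ} (h : b ≤ a) (p : Vec d) : bwd v κ a b p = p := by
  cases b with
  | zero => rfl
  | succ b => simp [bwd, show ¬ a ≤ b by omega]

lemma fwd_comp {a b c : ℕ} (h : a ≤ b) (h' : b ≤ c) (p : Vec d) :
    fwd v κ a c p = fwd v κ b c (fwd v κ a b p) := by
  induction c, h' using Nat.le_induction with
  | base => rw [fwd_of_le v κ le_rfl]
  | succ c hc ih => rw [fwd_succ v κ (h.trans hc), fwd_succ v κ hc, ih]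

lemma bwd_comp {a b c : ℕ} (h : a ≤ b) (h' : b ≤ c) (p : Vec d) :
    bwd v κ a c p = bwd v κ a b (bwd v κ b c p) := by
  induction c, h' using Nat.le_induction generalizing p with
  | base => rw [bwd_of_le v κ le_rfl]
  | succ c hc ih => rw [bwd_succ v κ (h.trans hc), bwd_succ v κ hc, ih]

lemma inner_fwd (a b : ℕ) (p w : Vec d) : ⟪fwd v κ a b p, w⟫ = ⟪p, bwd v κ a b w⟫ := by
  induction b generalizing w with
  | zero => rfl
  | succ b ih =>
    by_cases h : a ≤ b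
    · rw [fwd_succ v κ h, bwd_succ v κ h, inner_Mop, ih]
    · rw [fwd_of_le v κ (by omega), bwd_of_le v κ (by omega)]

variable {v κ}

lemma norm_bwd_le (hv : ∀ i, ‖v i‖ = 1) (h0 : 0 < κ) (h1 : κ ≤ 1 / 4) (a b : ℕ) (w : Vec d) :
    ‖bwd v κ a b w‖ ≤ ‖w‖ := by
  induction b generalizing w with
  | zero => rfl
  | succ b ih =>
    by_cases h : a ≤ b
    · rw [bwd_succ v κ h]
      exact (ih _).trans (norm_Mop_le κ (hv b) h0 h1 w)
    · rw [bwd_of_le v κ (by omega)]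

lemma sig2_pos (h0 : 0 < κ) (h1 : κ ≤ 1 / 4) : 0 < sig2 κ := by
  have : 0 < 2 * κ - κ ^ 2 := by nlinarith
  rw [sig2]
  positivity

lemma qf_nonneg (hv : ∀ i, ‖v i‖ = 1) (h0 : 0 < κ) (h1 : κ ≤ 1 / 4) (a b : ℕ) (w : Vec d) :
    0 ≤ qf v κ a b w :=
  mul_nonneg (sig2_pos h0 h1).le
    (sub_nonneg.2 ((sq_le_sq₀ (norm_nonneg _) (norm_nonneg _)).2 (norm_bwd_le hv h0 h1 a b w)))

lemma qf_step (hv : ∀ i, ‖v i‖ = 1) (h0 : 0 < κ) (h1 : κ ≤ 1 / 4) (t : ℕ) (w : Vec d) :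
    qf v κ t (t + 1) w = ⟪v t, w⟫ ^ 2 := by
  have hc : 0 < 2 * κ - κ ^ 2 := by nlinarith
  rw [qf, bwd_succ v κ le_rfl, bwd_of_le v κ le_rfl, norm_Mop_sq κ (hv t), sig2, one_div,
    inv_mul_cancel_left₀ hc.ne']

variable (v κ)

lemma qf_add {a m b : ℕ} (h : a ≤ m) (h' : m ≤ b) (w : Vec d) :
    qf v κ a b w = qf v κ m b w + qf v κ a m (bwd v κ m b w) := by
  rw [qf, qf, qf, bwd_comp v κ h h']
  ring

lemma qf_self (a : ℕ) (w : Vec d) : qf v κ a a w = 0 := by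
  simp [qf, bwd_of_le v κ (le_refl a)]

lemma qf_smul (a b : ℕ) (t : ℝ) (w : Vec d) :
    qf v κ a b (t • w) = t ^ 2 * qf v κ a b w := by
  rw [qf, qf, map_smul, norm_smul, norm_smul, mul_pow, mul_pow, Real.norm_eq_abs, sq_abs]
  ring

/-- A path. -/
abbrev Path (d : ℕ) := ℕ → Vec d

/-- The increment tested by `w` on `[c, c']`. -/
noncomputable def inc (c c' : ℕ) (w : Vec d) (γ : Path d) : ℝ :=
  ⟪w, γ c' - fwd v κ c c' (γ c)⟫

lemma inc_self (c : ℕ) (w : Vec d) (γ : Path d) : inc v κ c c w γ = 0 := by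
  simp [inc, fwd_of_le v κ (le_refl c)]

lemma inc_smul (c c' : ℕ) (t : ℝ) (w : Vec d) (γ : Path d) :
    inc v κ c c' (t • w) γ = t * inc v κ c c' w γ := real_inner_smul_left _ _ _

lemma inc_add {c m c' : ℕ} (h : c ≤ m) (h' : m ≤ c') (w : Vec d) (γ : Path d) :
    inc v κ c c' w γ = inc v κ m c' w γ + inc v κ c m (bwd v κ m c' w) γ := by
  simp only [inc, inner_sub_right, fwd_comp v κ h h']
  have e : ∀ x, ⟪bwd v κ m c' w, x⟫ = ⟪w, fwd v κ m c' x⟫ := fun x => by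
    rw [real_inner_comm, ← inner_fwd, real_inner_comm]
  rw [e, e]
  ring

lemma inc_congr {c c' : ℕ} (w : Vec d) {γ γ' : Path d} (h : γ c = γ' c) (h' : γ c' = γ' c') :
    inc v κ c c' w γ = inc v κ c c' w γ' := by
  simp [inc, h, h']

lemma incr_eq (e : Ev d) (γ : Path d) : e.incr v κ γ = inc v κ e.lo e.hi e.w γ := rfl

/-- A finite law on paths. -/
structure Law (d : ℕ) where
  ι : Type
  fin : Fintype ι
  wt : ι → ℝ
  path : ι → Path d
  nonneg : ∀ i, 0 ≤ wt i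
  sum_one : ∑ i, wt i = 1

attribute [instance] Law.fin

/-- Expectation. -/
def Law.E (μ : Law d) (f : Path d → ℝ) : ℝ := ∑ i, μ.wt i * f (μ.path i)

variable (μ : Law d)

lemma Law.E_add (f g : Path d → ℝ) : μ.E (fun γ => f γ + g γ) = μ.E f + μ.E g := by
  simp [Law.E, mul_add, Finset.sum_add_distrib]

lemma Law.E_sub (f g : Path d → ℝ) : μ.E (fun γ => f γ - g γ) = μ.E f - μ.E g := by
  simp [Law.E, mul_sub, Finset.sum_sub_distrib]

lemma Law.E_mul_left (c : ℝ) (f : Path d → ℝ) : μ.E (fun γ => c * f γ) = c * μ.E f := by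
  simp [Law.E, Finset.mul_sum, mul_left_comm]

lemma Law.E_const (c : ℝ) : μ.E (fun _ => c) = c := by
  simp [Law.E, ← Finset.sum_mul, μ.sum_one]

lemma Law.E_congr {f g : Path d → ℝ} (h : ∀ i, f (μ.path i) = g (μ.path i)) : μ.E f = μ.E g :=
  Finset.sum_congr rfl fun i _ => by rw [h]

lemma Law.E_mono {f g : Path d → ℝ} (h : ∀ i, f (μ.path i) ≤ g (μ.path i)) : μ.E f ≤ μ.E g :=
  Finset.sum_le_sum fun i _ => mul_le_mul_of_nonneg_left (h i) (μ.nonneg i)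

lemma Law.E_nonneg {f : Path d → ℝ} (h : ∀ i, 0 ≤ f (μ.path i)) : 0 ≤ μ.E f :=
  Finset.sum_nonneg fun i _ => mul_nonneg (μ.nonneg i) (h i)

lemma Law.E_sum {α : Type*} (s : Finset α) (f : α → Path d → ℝ) :
    μ.E (fun γ => ∑ a ∈ s, f a γ) = ∑ a ∈ s, μ.E (f a) := by
  simp only [Law.E, Finset.mul_sum]
  exact Finset.sum_comm

lemma Law.cauchy (f g : Path d → ℝ) :
    μ.E (fun γ => f γ * g γ) ^ 2 ≤ μ.E (fun γ => f γ ^ 2) * μ.E (fun γ => g γ ^ 2) :=
  Finset.sum_sq_le_sum_mul_sum_of_sq_le_mul _ (fun i _ => mul_nonneg (μ.nonneg i) (sq_nonneg _))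
    (fun i _ => mul_nonneg (μ.nonneg i) (sq_nonneg _)) fun i _ => le_of_eq (by ring)

lemma Law.nonempty : Nonempty μ.ι := by
  by_contra h
  rw [not_nonempty_iff] at h
  simpa using μ.sum_one

/-- Follow `γ` up to time `m`, then `γ'`. -/
def splice (m : ℕ) (γ γ' : Path d) : Path d := fun t => if t ≤ m then γ t else γ' t

lemma splice_left {m t : ℕ} (γ γ' : Path d) (h : t ≤ m) : splice m γ γ' t = γ t := if_pos h

lemma splice_right {m t : ℕ} (γ γ' : Path d) (h : m ≤ t) (he : γ' m = γ m) :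
    splice m γ γ' t = γ' t := by
  rcases h.eq_or_lt with rfl | h
  · rw [splice_left _ _ le_rfl, he]
  · exact if_neg (by omega)

/-- Run `μ` up to time `m`, then the law started at the value reached. -/
def Law.bind (m : ℕ) (ν : Vec d → Law d) : Law d where
  ι := Σ i : μ.ι, (ν (μ.path i m)).ι
  fin := inferInstance
  wt x := μ.wt x.1 * (ν (μ.path x.1 m)).wt x.2
  path x := splice m (μ.path x.1) ((ν (μ.path x.1 m)).path x.2)
  nonneg x := mul_nonneg (μ.nonneg _) ((ν _).nonneg _)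
  sum_one := by
    rw [Fintype.sum_sigma]
    simp [← Finset.mul_sum, (ν _).sum_one, μ.sum_one]

lemma Law.E_bind (m : ℕ) (ν : Vec d → Law d) (f : Path d → ℝ) :
    (μ.bind m ν).E f = μ.E (fun γ => (ν (γ m)).E fun γ' => f (splice m γ γ')) := by
  refine (Fintype.sum_sigma _).trans ?_
  simp only [Law.E, Law.bind, Finset.mul_sum, mul_assoc]

end Vale.Agent.P262.Prob
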