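import Vale.Agent.P262.ProbBasic

/-! P262, module C: moments and tails of increments. -/

namespace Vale.Agent.P262.Prob

open scoped RealInnerProductSpace
open Finset

variable {d : ℕ} (v : ℕ → Vec d) (κ : ℝ)

/-- The number of ends of `[c, c']` that are interior to `[a, b]`. -/
def ends (a b c c' : ℕ) : ℕ := (if c = a then 0 else 1) + (if c' = b then 0 else 1)

lemma ends_self (a b : ℕ) : ends a b a b = 0 := by simp [ends]

lemma ends_le_two (a b c c' : ℕ) : ends a b c c' ≤ 2 := by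
  rw [ends]; split_ifs <;> omega

lemma one_le_ends {a b c c' : ℕ} (h : ¬(c = a ∧ c' = b)) : 1 ≤ ends a b c c' := by
  rw [ends]; split_ifs <;> simp_all

/-- The properties of the law of a node `[a, b]` entered at `p`. -/
structure IsLaw (s g ρ : ℝ) (a b : ℕ) (p : Vec d) (μ : Law d) : Prop where
  start : ∀ i, μ.path i a = p
  valid : ∀ i, Valid v κ a b (μ.path i)
  mean : ∀ l, μ.E (inc v κ a b l) = 0
  var : ∀ l, g * qf v κ a b l ≤ μ.E (fun γ => inc v κ a b l γ ^ 2)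
  mgf : ∀ c c', a ≤ c → c ≤ c' → c' ≤ b → ∀ w,
    μ.E (fun γ => Real.exp (inc v κ c c' w γ)) ≤
      ρ ^ ends a b c c' * Real.exp (s * qf v κ c c' w / 2)

lemma cosh_lower (y : ℝ) : 1 + y ^ 2 / 2 + y ^ 4 / 24 ≤ Real.cosh y := by
  have h := sum_le_hasSum (range 3)
    (fun n _ => div_nonneg (by rw [pow_mul]; positivity) (Nat.cast_nonneg _))
    (Real.hasSum_cosh y)
  simp only [sum_range_succ, range_one, sum_singleton] at h
  norm_num [Nat.factorial] at h
  exact h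

variable {v κ} {μ : Law d} {a b : ℕ} {p : Vec d} {s g ρ : ℝ}

/-- Laplace transform of all multiples of an increment. -/
lemma IsLaw.mgf_smul (h : IsLaw v κ s g ρ a b p μ) {c c' : ℕ} (hc : a ≤ c) (hcc : c ≤ c')
    (hc' : c' ≤ b) (w : Vec d) (t : ℝ) :
    μ.E (fun γ => Real.exp (t * inc v κ c c' w γ)) ≤
      ρ ^ ends a b c c' * Real.exp (s * (t ^ 2 * qf v κ c c' w) / 2) := by
  simpa only [inc_smul, qf_smul] using h.mgf c c' hc hcc hc' (t • w)

lemma IsLaw.mgf_cosh (h : IsLaw v κ s g ρ a b p μ) {c c' : ℕ} (hc : a ≤ c) (hcc : c ≤ c')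
    (hc' : c' ≤ b) (w : Vec d) (t : ℝ) :
    μ.E (fun γ => Real.cosh (t * inc v κ c c' w γ)) ≤
      ρ ^ ends a b c c' * Real.exp (s * (t ^ 2 * qf v κ c c' w) / 2) := by
  have h1 := h.mgf_smul hc hcc hc' w t
  have h2 := h.mgf_smul hc hcc hc' w (-t)
  rw [neg_sq] at h2
  have : μ.E (fun γ => Real.cosh (t * inc v κ c c' w γ)) =
      (1 / 2 : ℝ) * (μ.E (fun γ => Real.exp (t * inc v κ c c' w γ)) +
        μ.E (fun γ => Real.exp (-t * inc v κ c c' w γ))) := by
    rw [← Law.E_add, ← Law.E_mul_left]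
    refine Law.E_congr μ fun i => ?_
    rw [Real.cosh_eq, neg_mul]
    ring
  rw [this]
  linarith

lemma exp_half_sub_one : Real.exp (1 / 2 : ℝ) - 1 ≤ 1 := by
  have := (Real.exp_bound_div_one_sub_of_interval (x := (1 / 2 : ℝ)) (by norm_num) (by norm_num))
  norm_num at this ⊢
  linarith

/-- Second and fourth moments of the increment over the whole node. -/
lemma IsLaw.moments (h : IsLaw v κ s g ρ a b p μ) (hab : a ≤ b) (hs : 0 < s) (l : Vec d)
    (hQ : 0 ≤ qf v κ a b l) :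
    μ.E (fun γ => inc v κ a b l γ ^ 2) ≤ 2 * s * qf v κ a b l ∧
      μ.E (fun γ => inc v κ a b l γ ^ 4) ≤ 24 * s ^ 2 * qf v κ a b l ^ 2 := by
  set Q := qf v κ a b l
  set X := inc v κ a b l
  have key : ∀ t : ℝ, t ^ 2 / 2 * μ.E (fun γ => X γ ^ 2) + t ^ 4 / 24 * μ.E (fun γ => X γ ^ 4)
      ≤ Real.exp (s * (t ^ 2 * Q) / 2) - 1 := fun t => by
    have h1 := h.mgf_cosh le_rfl hab le_rfl l t
    rw [ends_self, pow_zero, one_mul] at h1
    have h2 : μ.E (fun γ => 1 + (t ^ 2 / 2 * X γ ^ 2 + t ^ 4 / 24 * X γ ^ 4))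
        ≤ μ.E (fun γ => Real.cosh (t * X γ)) := Law.E_mono μ fun i => by
      have := cosh_lower (t * X (μ.path i))
      rw [mul_pow, mul_pow] at this
      linarith
    rw [Law.E_add, Law.E_add, Law.E_const, Law.E_mul_left, Law.E_mul_left] at h2
    linarith
  have h2n : 0 ≤ μ.E (fun γ => X γ ^ 2) := Law.E_nonneg μ fun i => sq_nonneg _
  have h4n : 0 ≤ μ.E (fun γ => X γ ^ 4) := Law.E_nonneg μ fun i => by positivity
  rcases hQ.eq_or_lt with hQ0 | hQ0
  · have h1 := key 1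
    rw [← hQ0] at h1 ⊢
    norm_num at h1
    constructor <;> linarith
  · have h1 := key (Real.sqrt (1 / (s * Q)))
    have ht : Real.sqrt (1 / (s * Q)) ^ 2 = 1 / (s * Q) := Real.sq_sqrt (by positivity)
    rw [show Real.sqrt (1 / (s * Q)) ^ 4 = (Real.sqrt (1 / (s * Q)) ^ 2) ^ 2 by ring, ht,
      show s * (1 / (s * Q) * Q) / 2 = 1 / 2 by field_simp] at h1
    have h3 := h1.trans exp_half_sub_one
    have n2 : 0 ≤ 1 / (s * Q) / 2 * μ.E (fun γ => X γ ^ 2) := by positivity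
    have n4 : 0 ≤ (1 / (s * Q)) ^ 2 / 24 * μ.E (fun γ => X γ ^ 4) := by positivity
    constructor
    · have : 1 / (s * Q) / 2 * μ.E (fun γ => X γ ^ 2) ≤ 1 := by linarith
      field_simp at this
      linarith
    · have : (1 / (s * Q)) ^ 2 / 24 * μ.E (fun γ => X γ ^ 4) ≤ 1 := by linarith
      field_simp at this
      linarith

/-- Anticoncentration: `E |X| ≥ √Q / 400`. -/
lemma IsLaw.abs_lower (h : IsLaw v κ s g ρ a b p μ) (hab : a ≤ b) (hs : 0 < s) (hs' : s ≤ 10)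
    (hg : 1 / 2 ≤ g) (l : Vec d) (hQ : 0 ≤ qf v κ a b l) :
    Real.sqrt (qf v κ a b l) / 400 ≤ μ.E (fun γ => |inc v κ a b l γ|) := by
  set Q := qf v κ a b l with hQdef
  set X := inc v κ a b l
  rcases hQ.eq_or_lt with hQ0 | hQ0
  · rw [← hQ0, Real.sqrt_zero, zero_div]
    exact Law.E_nonneg μ fun i => abs_nonneg _
  set A := 100 * Real.sqrt Q with hA
  have hA0 : 0 < A := by positivity
  have hA2 : A ^ 2 = 10000 * Q := by rw [hA, mul_pow, Real.sq_sqrt hQ]; norm_num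
  have h1 : μ.E (fun γ => X γ ^ 2) ≤ μ.E (fun γ => A * |X γ| + 1 / A ^ 2 * X γ ^ 4) := by
    refine Law.E_mono μ fun i => ?_
    set x := X (μ.path i)
    rcases le_total |x| A with hx | hx
    · have : x ^ 2 ≤ A * |x| := by rw [← sq_abs, sq]; gcongr
      have : 0 ≤ 1 / A ^ 2 * x ^ 4 := by positivity
      linarith
    · have hx2 : A ^ 2 ≤ x ^ 2 := by rw [← sq_abs x]; gcongr
      have : x ^ 2 ≤ 1 / A ^ 2 * x ^ 4 := by
        rw [one_div_mul_eq_div, le_div_iff₀ (by positivity)]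
        calc x ^ 2 * A ^ 2 ≤ x ^ 2 * x ^ 2 := by gcongr
          _ = x ^ 4 := by ring
      have : 0 ≤ A * |x| := by positivity
      linarith
  rw [Law.E_add, Law.E_mul_left, Law.E_mul_left] at h1
  have h4 := (h.moments hab hs l hQ).2
  have hv := h.var l
  have h5 : 1 / A ^ 2 * μ.E (fun γ => X γ ^ 4) ≤ Q / 4 := by
    rw [one_div_mul_eq_div, hA2, div_le_iff₀ (by positivity)]
    calc μ.E (fun γ => X γ ^ 4) ≤ 24 * s ^ 2 * Q ^ 2 := h4
      _ ≤ 24 * 10 ^ 2 * Q ^ 2 := by gcongr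
      _ ≤ Q / 4 * (10000 * Q) := by nlinarith [sq_nonneg Q]
  have hgQ : 1 / 2 * Q ≤ g * Q := by gcongr
  have h6 : Real.sqrt Q / 400 * A ≤ μ.E (fun γ => |X γ|) * A := by
    have : Real.sqrt Q / 400 * A = Q / 4 := by
      rw [hA]; linear_combination (1 / 4 : ℝ) * Real.mul_self_sqrt hQ
    rw [this]
    linarith
  exact le_of_mul_le_mul_right h6 hA0

/-- A test inside the node fails with probability at most `8 exp (-lam)`. -/
lemma IsLaw.tail (h : IsLaw v κ s g ρ a b p μ) (hs : 0 < s) (hs' : s ≤ 10)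
    (hρ : 1 ≤ ρ) (hρ' : ρ ≤ 2) (N : ℕ) (e : Ev d) (he : e.Adm v κ N) (ha : a ≤ e.lo)
    (hb : e.hi ≤ b) [∀ i, Decidable (e.Pass v κ (μ.path i))] :
    ∑ i, (if e.Pass v κ (μ.path i) then 0 else μ.wt i) ≤ 8 * Real.exp (-e.lam) := by
  obtain ⟨hlh, -, hlam, hvar, hq⟩ := he
  set R := Real.sqrt (20 * e.lam * e.var)
  set t := R / (s * e.var) with ht
  have hR2 : R ^ 2 = 20 * e.lam * e.var := Real.sq_sqrt (by positivity)
  have ht0 : 0 ≤ t := by positivity
  have h1 := h.mgf_cosh ha hlh hb e.w t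
  have hρk : ρ ^ ends a b e.lo e.hi ≤ 4 :=
    (pow_le_pow_left₀ (by linarith) hρ' _).trans
      ((pow_le_pow_right₀ (by norm_num) (ends_le_two _ _ _ _)).trans (by norm_num))
  have h2 : μ.E (fun γ => Real.cosh (t * inc v κ e.lo e.hi e.w γ)) ≤
      4 * Real.exp (s * (t ^ 2 * e.var) / 2) := by
    refine h1.trans (mul_le_mul hρk ?_ (Real.exp_pos _).le (by norm_num))
    gcongr
  have h3 : ∑ i, (if e.Pass v κ (μ.path i) then 0 else μ.wt i) ≤
      μ.E (fun γ => 2 * Real.exp (-(t * R)) * Real.cosh (t * inc v κ e.lo e.hi e.w γ)) := by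
    refine Finset.sum_le_sum fun i _ => ?_
    set x := inc v κ e.lo e.hi e.w (μ.path i)
    have hcn : 0 ≤ 2 * Real.exp (-(t * R)) * Real.cosh (t * x) :=
      mul_nonneg (by positivity) (Real.cosh_pos _).le
    split_ifs with hp
    · exact mul_nonneg (μ.nonneg i) hcn
    · refine le_mul_of_one_le_right (μ.nonneg i) ?_
      have hx : R ≤ |x| := (not_le.1 hp).le
      have : Real.exp (t * R) ≤ 2 * Real.cosh (t * x) := by
        rw [← Real.cosh_abs, abs_mul, abs_of_nonneg ht0, Real.cosh_eq]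
        have : Real.exp (t * R) ≤ Real.exp (t * |x|) := by gcongr
        linarith [Real.exp_pos (-(t * |x|))]
      calc (1 : ℝ) = Real.exp (-(t * R)) * Real.exp (t * R) := by
            rw [← Real.exp_add, neg_add_cancel, Real.exp_zero]
        _ ≤ Real.exp (-(t * R)) * (2 * Real.cosh (t * x)) := by gcongr
        _ = _ := by ring
  rw [Law.E_mul_left] at h3
  refine h3.trans ((mul_le_mul_of_nonneg_left h2 (by positivity)).trans ?_)
  rw [show 2 * Real.exp (-(t * R)) * (4 * Real.exp (s * (t ^ 2 * e.var) / 2))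
    = 8 * (Real.exp (-(t * R)) * Real.exp (s * (t ^ 2 * e.var) / 2)) by ring, ← Real.exp_add]
  gcongr
  rw [ht]
  have e1 : -(R / (s * e.var) * R) + s * ((R / (s * e.var)) ^ 2 * e.var) / 2
      = -(10 * e.lam / s) := by
    field_simp
    linear_combination (-1 : ℝ) * hR2
  rw [e1, neg_le_neg_iff, le_div_iff₀ hs, mul_comm 10]
  exact mul_le_mul_of_nonneg_left hs' hlam

end Vale.Agent.P262.Prob
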