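import Mathlib
import Vale.Agent.P262.Defs
import Vale.Agent.P262.Interface
import Vale.Agent.P262.ChainDet
import Vale.Agent.P262.HierStep

/-! Module D: the tests and their basic properties. -/

namespace Vale.Agent.P262

open scoped RealInnerProductSpace

variable {d : ℕ}

/-- The facts of module A that are used here. -/
structure Lin (v : ℕ → Vec d) (κ : ℝ) : Prop where
  fwd_comp : ∀ a b c p, a ≤ b → b ≤ c → fwd v κ a c p = fwd v κ b c (fwd v κ a b p)
  bwd_comp : ∀ a b c p, a ≤ b → b ≤ c → bwd v κ a c p = bwd v κ a b (bwd v κ b c p)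
  adj : ∀ a b p w, ⟪fwd v κ a b p, w⟫ = ⟪p, bwd v κ a b w⟫
  fwd_le : ∀ a b p, ‖fwd v κ a b p‖ ≤ ‖p‖
  bwd_le : ∀ a b p, ‖bwd v κ a b p‖ ≤ ‖p‖
  step : ∀ t, udim v κ t (t + 1) = 2 * κ - κ ^ 2
  ufun : UFun (udim v κ) d
  rows : ∀ x y, x ≤ y → ∃ h : Fin d → Vec d,
    (∀ w, ‖w‖ ^ 2 - ‖fwd v κ x y w‖ ^ 2 = ∑ i, ⟪h i, w⟫ ^ 2) ∧
    (∀ i, ‖h i‖ ≤ 1) ∧
    (∀ b, b ≤ x → ∑ i, ‖bwd v κ b x (h i)‖ ^ 2 = udim v κ b y - udim v κ b x)
  endRows : ∀ b N, ∑ i, ‖bwd v κ b N (EuclideanSpace.single i 1)‖ ^ 2 = d - udim v κ b N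
  incr_sq : ∀ c c' w γ, c ≤ c' → Valid v κ c c' γ →
    ⟪w, γ c' - fwd v κ c c' (γ c)⟫ ^ 2 ≤ 9 / 4 * ((c' - c : ℕ) : ℝ) * qf v κ c c' w

lemma lin_of_facts (h : LinFacts) {v : ℕ → Vec d} {κ : ℝ} (hv : ∀ i, ‖v i‖ = 1) (h1 : 0 < κ)
    (h2 : κ ≤ 1 / 4) : Lin v κ := by
  obtain ⟨a1, a2, a3, a4, a5, a6, a7, a8, a9, a10⟩ := h d v κ hv h1 h2
  exact ⟨a1, a2, a3, a4, a5, a6, a7, a8, a9, a10⟩

/-- The least element of `S` above `x`, or `x`. -/
noncomputable def nextIn (S : Finset ℕ) (x : ℕ) : ℕ :=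
  if h : (S.filter (fun y => x < y)).Nonempty then Finset.min' _ h else x

lemma consec_nextIn {S : Finset ℕ} {x N : ℕ} (hx : x ∈ S) (hN : N ∈ S) (hxN : x < N) :
    Consec S x (nextIn S x) := by
  have h : (S.filter (fun y => x < y)).Nonempty := ⟨N, by simp [hN, hxN]⟩
  have hm := Finset.min'_mem _ h
  rw [Finset.mem_filter] at hm
  rw [nextIn, dif_pos h]
  exact ⟨hx, hm.1, hm.2, fun c hc hxc => Finset.min'_le _ c (by simp [hc, hxc])⟩

lemma nextIn_le {S : Finset ℕ} {x N : ℕ} (hN : N ∈ S) (hxN : x < N) : nextIn S x ≤ N := by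
  have h : (S.filter (fun y => x < y)).Nonempty := ⟨N, by simp [hN, hxN]⟩
  rw [nextIn, dif_pos h]
  exact Finset.min'_le _ N (by simp [hN, hxN])

lemma consec_right_le {S : Finset ℕ} {a b N : ℕ} (h : Consec S a b)
    (hS : S ⊆ Finset.range (N + 1)) : b ≤ N :=
  Nat.lt_succ_iff.1 (Finset.mem_range.1 (hS h.2.1))

lemma consec_eq_nextIn {S : Finset ℕ} {a b : ℕ} (h : Consec S a b) : b = nextIn S a := by
  have h2 := consec_nextIn h.1 h.2.1 h.2.2.1
  exact le_antisymm (h.2.2.2 _ h2.2.1 h2.2.2.1) (h2.2.2.2 _ h.2.1 h.2.2.1)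

/-- The data of the tests. -/
structure Setup (d : ℕ) : Type where
  v : ℕ → Vec d
  κ : ℝ
  S : ℕ → Finset ℕ
  J : ℕ
  N : ℕ
  M : ℕ
  τ₀ : ℝ
  δ : ℝ
  L : ℝ

namespace Setup

variable (P : Setup d)

/-- The rows of `I - AᵀA` of an interval. -/
noncomputable def rowVec (x y : ℕ) : Fin d → Vec d :=
  open Classical in
  if h : ∃ h : Fin d → Vec d,
      (∀ w, ‖w‖ ^ 2 - ‖fwd P.v P.κ x y w‖ ^ 2 = ∑ i, ⟪h i, w⟫ ^ 2) ∧
      (∀ i, ‖h i‖ ≤ 1) ∧
      (∀ b, b ≤ x → ∑ i, ‖bwd P.v P.κ b x (h i)‖ ^ 2 = udim P.v P.κ b y - udim P.v P.κ b x)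
  then Classical.choose h else fun _ => 0

/-- The index of a test: level, time, row. Level `J + 1` is the end test. -/
abbrev Idx : Type := Fin (P.J + 2) × Fin (P.N + 1) × Fin d

/-- The time of a test. -/
def tx (q : P.Idx) : ℕ := q.2.1.val

/-- The vector of a test. -/
noncomputable def th (q : P.Idx) : Vec d :=
  if q.1.val = P.J + 1 then
    (if q.2.1.val = P.N then EuclideanSpace.single q.2.2 1 else 0)
  else if q.2.1.val ∈ P.S q.1.val ∧ q.2.1.val < P.N then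
    P.rowVec q.2.1.val (nextIn (P.S q.1.val) q.2.1.val) q.2.2
  else 0

/-- The weight of a test seen at time `c`. -/
noncomputable def tau (q : P.Idx) (c : ℕ) : ℝ := ‖bwd P.v P.κ c (P.tx q) (P.th q)‖ ^ 2

/-- All children of the node but the last have almost the whole of its `udim`. -/
def IsFree (j a b : ℕ) : Prop :=
  ∀ c c', Consec (P.S (j + 1)) c c' → a ≤ c → c' < b →
    udim P.v P.κ a b - 2 * P.δ < udim P.v P.κ c c'

/-- `g` is a crossing point of the test `q`. -/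
def IsCross (q : P.Idx) (g : ℕ) : Prop :=
  ∃ j a b, j < P.J ∧ Consec (P.S j) a b ∧ P.IsFree j a b ∧ a < P.tx q ∧ P.tx q < b ∧
    g ∈ P.S (j + 1) ∧ a < g ∧ g ≤ P.tx q ∧ P.τ₀ < P.tau q g

/-- The crossing point of a test (or `0`). -/
noncomputable def gpt (q : P.Idx) : ℕ :=
  open Classical in if h : ∃ g, P.IsCross q g then Classical.choose h else 0

/-- The index of a piece of an event of a test. -/
abbrev EIdx : Type :=
  P.Idx × Fin (P.M + 1) × Option (Σ i : Fin P.N, Fin (2 ^ i.val)) × Bool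

/-- Forget the bounds. -/
def optPair : Option (Σ i : Fin P.N, Fin (2 ^ i.val)) → Option (ℕ × ℕ) :=
  Option.map (fun p => (p.1.val, p.2.val))

/-- An event that never matters. -/
def trivialEv : Ev d := ⟨0, 0, 0, 0, 1⟩

/-- The pair of times of an event, cut at the crossing point. -/
noncomputable def piece (e : P.EIdx) : ℕ × ℕ :=
  let q := chainPair (P.tau e.1) P.τ₀ (P.tx e.1) e.2.1.val (P.optPair e.2.2.1)
  let g := max q.1 (min (P.gpt e.1) q.2)
  if e.2.2.2 then (q.1, g) else (g, q.2)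

/-- The event is one that has to be tested. -/
def Relevant (e : P.EIdx) : Prop :=
  (P.piece e).1 < (P.piece e).2 ∧ (P.piece e).2 ≤ P.tx e.1 ∧
    P.τ₀ < P.tau e.1 ((P.piece e).1 + 1) ∧
    P.tau e.1 (P.piece e).2 - P.tau e.1 (P.piece e).1 ≤
      chainVar P.τ₀ e.2.1.val (P.optPair e.2.2.1)

/-- The event of an index. -/
noncomputable def ev (e : P.EIdx) : Ev d :=
  open Classical in
  if P.Relevant e then
    ⟨(P.piece e).1, (P.piece e).2, bwd P.v P.κ (P.piece e).2 (P.tx e.1) (P.th e.1),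
      chainLam P.L (P.optPair e.2.2.1),
      sig2 P.κ * chainVar P.τ₀ e.2.1.val (P.optPair e.2.2.1)⟩
  else trivialEv

/-- The standing hypotheses. -/
structure Ok (F : Finset ℕ) : Prop where
  lin : Lin P.v P.κ
  hier : Hier (udim P.v P.κ) P.S F P.J P.N P.δ
  card_F : F.card ≤ d
  kpos : 0 < P.κ
  kle : P.κ ≤ 1 / 4
  τpos : 0 < P.τ₀
  two_δ : 2 * P.δ ≤ P.τ₀
  δpos : 0 < P.δ
  Lge : 8 ≤ P.L
  cover : 1 ≤ P.τ₀ * 2 ^ P.M
  Npos : 1 ≤ P.N

variable {P} {F : Finset ℕ}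

lemma Ok.sig2_pos (hP : P.Ok F) : 0 < sig2 P.κ := by
  have h1 := hP.kpos
  have h2 := hP.kle
  unfold sig2
  have : 0 < 2 * P.κ - P.κ ^ 2 := by nlinarith
  positivity

lemma Ok.subset_top (hP : P.Ok F) : ∀ j, j ≤ P.J → P.S j ⊆ Finset.range (P.N + 1) := by
  intro j hj
  obtain ⟨k, hk⟩ := Nat.exists_eq_add_of_le hj
  induction k generalizing j with
  | zero =>
    have : j = P.J := by omega
    rw [this, hP.hier.part.top]
  | succ k ih =>
    exact (hP.hier.part.mono j (by omega)).trans (ih (j + 1) (by omega) (by omega))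

lemma Ok.subset_of_le (hP : P.Ok F) {i j : ℕ} (hij : i ≤ j) (hj : j ≤ P.J) : P.S i ⊆ P.S j := by
  induction j with
  | zero => rw [Nat.le_zero.1 hij]
  | succ j ih =>
    rcases Nat.le_succ_iff.1 hij with h | h
    · exact (ih h (by omega)).trans (hP.hier.part.mono j (by omega))
    · rw [h]

lemma Ok.zero_mem (hP : P.Ok F) {j : ℕ} (hj : j ≤ P.J) : 0 ∈ P.S j :=
  hP.subset_of_le (Nat.zero_le j) hj (by rw [hP.hier.part.zero]; simp)

lemma Ok.end_mem (hP : P.Ok F) {j : ℕ} (hj : j ≤ P.J) : P.N ∈ P.S j :=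
  hP.subset_of_le (Nat.zero_le j) hj (by rw [hP.hier.part.zero]; simp)

lemma tau_nonneg (q : P.Idx) (c : ℕ) : 0 ≤ P.tau q c := sq_nonneg _

lemma tx_le (q : P.Idx) : P.tx q ≤ P.N := Nat.lt_succ_iff.1 q.2.1.isLt

lemma rowVec_spec (hP : P.Ok F) {x y : ℕ} (hxy : x ≤ y) :
    (∀ w, ‖w‖ ^ 2 - ‖fwd P.v P.κ x y w‖ ^ 2 = ∑ i, ⟪P.rowVec x y i, w⟫ ^ 2) ∧
    (∀ i, ‖P.rowVec x y i‖ ≤ 1) ∧
    (∀ b, b ≤ x → ∑ i, ‖bwd P.v P.κ b x (P.rowVec x y i)‖ ^ 2 =
      udim P.v P.κ b y - udim P.v P.κ b x) := by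
  have h := hP.lin.rows x y hxy
  simp only [rowVec, dif_pos h]
  exact Classical.choose_spec h

lemma norm_th_le (hP : P.Ok F) (q : P.Idx) : ‖P.th q‖ ≤ 1 := by
  unfold th
  split_ifs with h1 h2 h3
  · simp
  · simp
  · have hj : q.1.val ≤ P.J := by have := q.1.isLt; omega
    exact (rowVec_spec hP (consec_nextIn h3.1 (hP.end_mem hj) h3.2).2.2.1.le).2.1 _
  · simp

lemma tau_le_one (hP : P.Ok F) (q : P.Idx) (c : ℕ) : P.tau q c ≤ 1 := by
  have h := (hP.lin.bwd_le c (P.tx q) (P.th q)).trans (norm_th_le hP q)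
  unfold tau
  have h0 := norm_nonneg (bwd P.v P.κ c (P.tx q) (P.th q))
  nlinarith

lemma tau_mono (hP : P.Ok F) (q : P.Idx) {c c' : ℕ} (h : c ≤ c') (h' : c' ≤ P.tx q) :
    P.tau q c ≤ P.tau q c' := by
  unfold tau
  rw [hP.lin.bwd_comp c c' (P.tx q) (P.th q) h h']
  exact pow_le_pow_left₀ (norm_nonneg _) (hP.lin.bwd_le _ _ _) 2

lemma qf_bwd (hP : P.Ok F) (q : P.Idx) {c c' : ℕ} (h : c ≤ c') (h' : c' ≤ P.tx q) :
    qf P.v P.κ c c' (bwd P.v P.κ c' (P.tx q) (P.th q)) =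
      sig2 P.κ * (P.tau q c' - P.tau q c) := by
  unfold qf tau
  rw [← hP.lin.bwd_comp c c' (P.tx q) (P.th q) h h']

/-- A node of a deeper level inside a free node sees at most `2δ` from before the previous
child. -/
lemma tau_le_of_free (hP : P.Ok F) (q : P.Idx) {j a b : ℕ} (hj : j < P.J)
    (hab : Consec (P.S j) a b) (hf : P.IsFree j a b) (hax : a < P.tx q) (hxb : P.tx q < b)
    {m m' c : ℕ} (hm : m ∈ P.S (j + 1)) (hm' : m' ∈ P.S (j + 1)) (ham : a ≤ m) (hmm : m < m')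
    (hmx : m' ≤ P.tx q) (hcm : c ≤ m) : P.tau q c ≤ 2 * P.δ := by
  have hj1 : j + 1 ≤ P.J := hj
  have hm'N : m' ≤ P.N := Nat.lt_succ_iff.1 (Finset.mem_range.1 (hP.subset_top _ hj1 hm'))
  -- the child ending at m'
  obtain ⟨e, e', hee, he1, he2⟩ := exists_node (t := m' - 1) (hP.zero_mem hj1) (hP.end_mem hj1)
    (by omega)
  have heq : e' = m' := le_antisymm (hee.2.2.2 m' hm' (by omega)) (by omega)
  subst heq
  have hem : m ≤ e := by
    by_contra hc
    have := hee.2.2.2 m hm (not_le.1 hc)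
    omega
  have hfull := hf e e' hee (ham.trans hem) (by omega)
  by_cases hzero : P.th q = 0
  · have h0 := hP.δpos
    unfold tau
    rw [hzero, map_zero, norm_zero]
    linarith
  -- the test is a row of a node inside `[a, b)`
  have hne : q.1.val ≠ P.J + 1 := by
    intro h
    unfold th at hzero
    rw [if_pos h] at hzero
    by_cases hN : q.2.1.val = P.N
    · have := consec_right_le hab (hP.subset_top _ hj.le)
      have : P.tx q = P.N := hN
      omega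
    · exact hzero (if_neg hN)
  have hmem : q.2.1.val ∈ P.S q.1.val ∧ q.2.1.val < P.N := by
    by_contra h
    exact hzero (by unfold th; rw [if_neg hne, if_neg h])
  have hqJ : q.1.val ≤ P.J := by have := q.1.isLt; omega
  have hlev : j < q.1.val := by
    by_contra hle
    have := hab.2.2.2 (P.tx q) (hP.subset_of_le (not_lt.1 hle) hj.le hmem.1) hax
    omega
  set y := nextIn (P.S q.1.val) (P.tx q) with hy
  have hcon : Consec (P.S q.1.val) (P.tx q) y := consec_nextIn hmem.1 (hP.end_mem hqJ) hmem.2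
  have hyb : y ≤ b := hcon.2.2.2 b (hP.subset_of_le hlev.le hqJ hab.2.1) hxb
  have hth : P.th q = P.rowVec (P.tx q) y q.2.2 := by
    unfold th
    rw [if_neg hne, if_pos hmem]
    rfl
  have hsum := (rowVec_spec hP hcon.2.2.1.le).2.2 e (by omega)
  have hone : ‖bwd P.v P.κ e (P.tx q) (P.rowVec (P.tx q) y q.2.2)‖ ^ 2 ≤
      udim P.v P.κ e y - udim P.v P.κ e (P.tx q) :=
    hsum ▸ Finset.single_le_sum
      (f := fun i => ‖bwd P.v P.κ e (P.tx q) (P.rowVec (P.tx q) y i)‖ ^ 2)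
      (fun i _ => sq_nonneg _) (Finset.mem_univ q.2.2)
  have hey : e ≤ y := le_trans (le_trans hee.2.2.1.le hmx) hcon.2.2.1.le
  have u1 := hP.lin.ufun.mono a e y b (ham.trans hem) hey hyb
  have u2 := hP.lin.ufun.mono e e e' (P.tx q) le_rfl hee.2.2.1.le hmx
  have u3 := tau_mono hP q (c := c) (c' := e) (hcm.trans hem) (by omega)
  have u4 : P.tau q e ≤ udim P.v P.κ e y - udim P.v P.κ e (P.tx q) := by
    unfold tau
    rw [hth]
    exact hone
  linarith

lemma cross_unique (hP : P.Ok F) (q : P.Idx) {g g' : ℕ} (hg : P.IsCross q g)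
    (hg' : P.IsCross q g') : g = g' := by
  -- it is enough to treat `g` from a level at least as coarse
  have key : ∀ g g' j a b j' a' b', j ≤ j' → j' < P.J → Consec (P.S j) a b → P.IsFree j a b →
      Consec (P.S j') a' b' → P.IsFree j' a' b' → a < P.tx q → P.tx q < b → a' < P.tx q →
      P.tx q < b' → g ∈ P.S (j + 1) → g' ∈ P.S (j' + 1) → a < g → a' < g' → g ≤ P.tx q →
      g' ≤ P.tx q → P.τ₀ < P.tau q g → P.τ₀ < P.tau q g' → g = g' := by
    intro g g' j a b j' a' b' hjj hj' hab hf hab' hf' h1 h2 h3 h4 hg hg' hag hag' hgx hgx' ht ht'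
    have hδ := hP.two_δ
    rcases hjj.lt_or_eq with hlt | heq
    · have hgS : g ∈ P.S j' := hP.subset_of_le hlt hj'.le hg
      have hga : g ≤ a' := by
        by_contra hc
        have := hab'.2.2.2 g hgS (not_le.1 hc)
        omega
      have := tau_le_of_free hP q hj' hab' hf' h3 h4
        (hP.hier.part.mono j' hj' hab'.1) hg' le_rfl hag' hgx' hga
      linarith
    · subst heq
      obtain ⟨rfl, rfl⟩ := consec_unique hab hab' h1.le h2 h3.le h4
      by_contra hne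
      rcases lt_or_gt_of_ne hne with hlt | hlt
      · have := tau_le_of_free hP q hj' hab hf h1 h2 hg hg' hag.le hlt hgx' le_rfl
        linarith
      · have := tau_le_of_free hP q hj' hab hf h1 h2 hg' hg hag'.le hlt hgx le_rfl
        linarith
  obtain ⟨j, a, b, hj, hab, hf, h1, h2, h3, h4, h5, h6⟩ := hg
  obtain ⟨j', a', b', hj', hab', hf', k1, k2, k3, k4, k5, k6⟩ := hg'
  rcases le_total j j' with h | h
  · exact key g g' j a b j' a' b' h hj' hab hf hab' hf' h1 h2 k1 k2 h3 k3 h4 k4 h5 k5 h6 k6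
  · exact (key g' g j' a' b' j a b h hj hab' hf' hab hf k1 k2 h1 h2 k3 h3 k4 h4 k5 h5 k6 h6).symm

lemma gpt_eq (hP : P.Ok F) (q : P.Idx) {g : ℕ} (hg : P.IsCross q g) : P.gpt q = g := by
  have h : ∃ g, P.IsCross q g := ⟨g, hg⟩
  rw [gpt, dif_pos h]
  exact cross_unique hP q (Classical.choose_spec h) hg

end Setup

end Vale.Agent.P262
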