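import Mathlib
import Vale.Agent.P262.Defs
import Vale.Agent.P262.ChainDet
import Vale.Agent.P262.Tests
import Vale.Agent.P262.LinBasic

/-! Module D: passing all tests bounds the path. -/

namespace Vale.Agent.P262

open scoped RealInnerProductSpace

variable {d : ℕ}

namespace Setup

variable {P : Setup d} {F : Finset ℕ}

/-- The coefficient of `τ + τ₀` in the bound on the square of a test. -/
noncomputable def coefA (P : Setup d) : ℝ := 16000 * (P.L * sig2 P.κ)

lemma coefA_nonneg (hP : P.Ok F) : 0 ≤ P.coefA := by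
  have := hP.sig2_pos
  have := hP.Lge
  unfold coefA
  have : 0 ≤ P.L * sig2 P.κ := mul_nonneg (by linarith) hP.sig2_pos.le
  linarith

lemma valid_mono {γ : ℕ → Vec d} (hv : Valid P.v P.κ 0 P.N γ) {c c' : ℕ} (h : c' ≤ P.N) :
    Valid P.v P.κ c c' γ := fun t _ h2 => hv t (Nat.zero_le t) (lt_of_lt_of_le h2 h)

/-- A single test at a single time. -/
lemma test_sq_le (hP : P.Ok F) {γ : ℕ → Vec d} {X : ℝ} (hγ0 : γ 0 = 0)
    (hv : Valid P.v P.κ 0 P.N γ) (hpass : ∀ e : P.EIdx, (P.ev e).Pass P.v P.κ γ)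
    (hX : ∀ c, c ≤ P.N → ‖γ c‖ ^ 2 ≤ X) (q : P.Idx) {t : ℕ} (ht : t ≤ P.tx q) :
    ⟪bwd P.v P.κ t (P.tx q) (P.th q), γ t⟫ ^ 2 ≤
      2 * X * P.τ₀ + P.coefA * (P.tau q t + P.τ₀) := by
  classical
  have hX0 : 0 ≤ X := le_trans (sq_nonneg _) (hX 0 (Nat.zero_le _))
  set z : ℕ → ℝ := fun c => ⟪bwd P.v P.κ c (P.tx q) (P.th q), γ c⟫ with hz
  have hincr : ∀ c c', c ≤ c' → c' ≤ P.tx q → z c' - z c =
      ⟪bwd P.v P.κ c' (P.tx q) (P.th q), γ c' - fwd P.v P.κ c c' (γ c)⟫ := by
    intro c c' h h'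
    simp only [hz]
    rw [inner_sub_right]
    congr 1
    rw [hP.lin.bwd_comp c c' (P.tx q) (P.th q) h h', real_inner_comm, ← hP.lin.adj,
      real_inner_comm]
  have hsmall : ∀ c, c ≤ P.tx q → P.tau q c ≤ P.τ₀ → |z c| ≤ Real.sqrt X * Real.sqrt P.τ₀ := by
    intro c hc hτ
    refine (abs_real_inner_le_norm _ _).trans ?_
    rw [mul_comm (Real.sqrt X)]
    refine mul_le_mul ?_ ?_ (norm_nonneg _) (Real.sqrt_nonneg _)
    · exact Real.le_sqrt_of_sq_le hτ
    · exact Real.le_sqrt_of_sq_le (hX c (le_trans hc (tx_le q)))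
  have hres : ∀ c c', c ≤ c' → c' ≤ P.tx q →
      (z c' - z c) ^ 2 ≤ 9 / 4 * (P.N : ℝ) * (sig2 P.κ * (P.tau q c' - P.tau q c)) := by
    intro c c' h h'
    have hc'N := le_trans h' (tx_le q)
    have h1 := hP.lin.incr_sq c c' (bwd P.v P.κ c' (P.tx q) (P.th q)) γ h (valid_mono hv hc'N)
    rw [← hincr c c' h h', qf_bwd hP q h h'] at h1
    refine h1.trans ?_
    have : 0 ≤ sig2 P.κ * (P.tau q c' - P.tau q c) :=
      mul_nonneg hP.sig2_pos.le (sub_nonneg.2 (tau_mono hP q h h'))
    gcongr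
    omega
  have hcover : ∀ c, c ≤ P.tx q → P.tau q c ≤ P.τ₀ + P.τ₀ * 2 ^ P.M := by
    intro c _
    linarith [tau_le_one hP q c, hP.cover, hP.τpos]
  have hev : ∀ m, m ≤ P.M → ∀ o : Option (ℕ × ℕ), (∀ p ∈ o, p.1 < P.N ∧ p.2 < 2 ^ p.1) →
      ∀ c c', chainPair (P.tau q) P.τ₀ (P.tx q) m o = (c, c') → c < c' → c' ≤ P.tx q →
        P.τ₀ < P.tau q (c + 1) → P.tau q c' - P.tau q c ≤ chainVar P.τ₀ m o →
        |z c' - z c| ≤
          2 * Real.sqrt (20 * chainLam P.L o * (sig2 P.κ * chainVar P.τ₀ m o)) := by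
    intro m hm o ho c c' hpair hlt hc'x hfirst hvar
    obtain ⟨o', ho'⟩ : ∃ o' : Option (Σ i : Fin P.N, Fin (2 ^ i.val)), P.optPair o' = o := by
      cases o with
      | none => exact ⟨none, rfl⟩
      | some p =>
        have hp := ho p rfl
        exact ⟨some ⟨⟨p.1, hp.1⟩, ⟨p.2, hp.2⟩⟩, rfl⟩
    set g := max c (min (P.gpt q) c') with hg
    have hcg : c ≤ g := le_max_left _ _
    have hgc : g ≤ c' := max_le hlt.le (min_le_right _ _)
    have one : ∀ b : Bool, ∀ lo hi, (if b then (c, g) else (g, c')) = (lo, hi) →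
        c ≤ lo → lo ≤ hi → hi ≤ c' →
        |z hi - z lo| ≤ Real.sqrt (20 * chainLam P.L o * (sig2 P.κ * chainVar P.τ₀ m o)) := by
      intro b lo hi hb h1 h2 h3
      rcases h2.lt_or_eq with h2' | h2'
      · let e : P.EIdx := (q, ⟨m, Nat.lt_succ_of_le hm⟩, o', b)
        have hpiece : P.piece e = (lo, hi) := by
          simp only [piece, e, ho', hpair]
          exact hb
        have hrel : P.Relevant e := by
          refine ⟨?_, ?_, ?_, ?_⟩
          · rw [hpiece]; exact h2'
          · rw [hpiece]; exact le_trans h3 hc'x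
          · rw [hpiece]
            exact lt_of_lt_of_le hfirst (tau_mono hP q (by omega) (by simp only [e]; omega))
          · rw [hpiece]
            simp only [e, ho']
            have u1 := tau_mono hP q h1 (le_trans h2 (le_trans h3 hc'x))
            have u2 := tau_mono hP q h3 hc'x
            linarith
        have h := hpass e
        have hev' : P.ev e = ⟨lo, hi, bwd P.v P.κ hi (P.tx q) (P.th q), chainLam P.L o,
            sig2 P.κ * chainVar P.τ₀ m o⟩ := by
          rw [ev, if_pos hrel, hpiece]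
          simp only [e, ho']
        rw [hev'] at h
        simp only [Ev.Pass, Ev.incr] at h
        rwa [← hincr lo hi h2 (le_trans h3 hc'x)] at h
      · rw [h2', sub_self, abs_zero]
        exact Real.sqrt_nonneg _
    have p1 := one true c g rfl le_rfl hcg hgc
    have p2 := one false g c' rfl hcg hgc le_rfl
    have := abs_sub_le (z c') (z g) (z c)
    linarith
  have h := chain_bound (P.tau q) z P.τ₀ (Real.sqrt X) P.L (sig2 P.κ) (P.tx q) P.M P.N (tx_le q)
    hP.τpos (Real.sqrt_nonneg _) hP.Lge hP.sig2_pos.le (fun c c' h h' => tau_mono hP q h h')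
    (fun c _ => tau_nonneg q c) hcover (by simp [hz, hγ0]) hsmall hres hev ht
  rw [Real.sq_sqrt hX0] at h
  unfold coefA
  calc ⟪bwd P.v P.κ t (P.tx q) (P.th q), γ t⟫ ^ 2 = z t ^ 2 := rfl
    _ ≤ 2 * X * P.τ₀ + 16000 * (P.L * sig2 P.κ * (P.tau q t + P.τ₀)) := h
    _ = _ := by ring

/-- The loss per node. -/
noncomputable def slack (P : Setup d) (X : ℝ) : ℝ := (d : ℝ) * P.τ₀ * (2 * X + P.coefA)

lemma slack_nonneg (hP : P.Ok F) {X : ℝ} (hX : 0 ≤ X) : 0 ≤ P.slack X := by
  have := coefA_nonneg hP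
  have := hP.τpos
  unfold slack
  positivity

/-- The energy seen at time `t` between two times. -/
noncomputable def energy (P : Setup d) (γ : ℕ → Vec d) (t y : ℕ) : ℝ :=
  ‖fwd P.v P.κ t y (γ t)‖ ^ 2

/-- One node of any level. -/
lemma node_energy (hP : P.Ok F) {γ : ℕ → Vec d} {X : ℝ} (hγ0 : γ 0 = 0)
    (hv : Valid P.v P.κ 0 P.N γ) (hpass : ∀ e : P.EIdx, (P.ev e).Pass P.v P.κ γ)
    (hX : ∀ c, c ≤ P.N → ‖γ c‖ ^ 2 ≤ X) {j x y t : ℕ} (hj : j ≤ P.J)
    (hxy : Consec (P.S j) x y) (htx : t ≤ x) :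
    P.energy γ t x - P.energy γ t y ≤
      P.coefA * (udim P.v P.κ t y - udim P.v P.κ t x) + P.slack X := by
  have hyN : y ≤ P.N := consec_right_le hxy (hP.subset_top _ hj)
  have hxN : x < P.N := lt_of_lt_of_le hxy.2.2.1 hyN
  have hsp := rowVec_spec hP hxy.2.2.1.le
  have e1 : P.energy γ t x - P.energy γ t y =
      ∑ i, ⟪bwd P.v P.κ t x (P.rowVec x y i), γ t⟫ ^ 2 := by
    unfold energy
    rw [hP.lin.fwd_comp t x y (γ t) htx hxy.2.2.1.le, hsp.1]
    refine Finset.sum_congr rfl fun i _ => ?_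
    rw [real_inner_comm, hP.lin.adj, real_inner_comm]
  rw [e1]
  have hq : ∀ i : Fin d, ⟪bwd P.v P.κ t x (P.rowVec x y i), γ t⟫ ^ 2 ≤
      2 * X * P.τ₀ + P.coefA * (‖bwd P.v P.κ t x (P.rowVec x y i)‖ ^ 2 + P.τ₀) := by
    intro i
    let q : P.Idx := (⟨j, by omega⟩, ⟨x, by omega⟩, i)
    have hth : P.th q = P.rowVec x y i := by
      simp only [th, q]
      rw [if_neg (by omega), if_pos ⟨hxy.1, hxN⟩, ← consec_eq_nextIn hxy]
    have h := test_sq_le hP hγ0 hv hpass hX q (t := t) htx
    unfold tau at h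
    rw [hth] at h
    exact h
  refine (Finset.sum_le_sum fun i _ => hq i).trans ?_
  rw [Finset.sum_add_distrib, ← Finset.mul_sum _ _ P.coefA, Finset.sum_add_distrib, hsp.2.2 t htx]
  simp only [Finset.sum_const, Finset.card_univ, Fintype.card_fin, nsmul_eq_mul]
  unfold slack
  exact le_of_eq (by ring)

/-- The last piece, from `N` on. -/
lemma end_energy (hP : P.Ok F) {γ : ℕ → Vec d} {X : ℝ} (hγ0 : γ 0 = 0)
    (hv : Valid P.v P.κ 0 P.N γ) (hpass : ∀ e : P.EIdx, (P.ev e).Pass P.v P.κ γ)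
    (hX : ∀ c, c ≤ P.N → ‖γ c‖ ^ 2 ≤ X) {t : ℕ} (ht : t ≤ P.N) :
    P.energy γ t P.N ≤ P.coefA * (d - udim P.v P.κ t P.N) + P.slack X := by
  have e1 : P.energy γ t P.N =
      ∑ i, ⟪bwd P.v P.κ t P.N (EuclideanSpace.single i 1), γ t⟫ ^ 2 := by
    unfold energy
    rw [EuclideanSpace.norm_sq_eq]
    refine Finset.sum_congr rfl fun i _ => ?_
    rw [real_inner_comm, ← hP.lin.adj, real_inner_comm]
    simp [EuclideanSpace.inner_single_left]
  rw [e1]
  have hq : ∀ i : Fin d, ⟪bwd P.v P.κ t P.N (EuclideanSpace.single i 1), γ t⟫ ^ 2 ≤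
      2 * X * P.τ₀ + P.coefA *
        (‖bwd P.v P.κ t P.N (EuclideanSpace.single i 1)‖ ^ 2 + P.τ₀) := by
    intro i
    let q : P.Idx := (⟨P.J + 1, by omega⟩, ⟨P.N, by omega⟩, i)
    have hth : P.th q = EuclideanSpace.single i 1 := by simp [th, q]
    have h := test_sq_le hP hγ0 hv hpass hX q (t := t) ht
    unfold tau at h
    rw [hth] at h
    exact h
  refine (Finset.sum_le_sum fun i _ => hq i).trans ?_
  rw [Finset.sum_add_distrib, ← Finset.mul_sum _ _ P.coefA, Finset.sum_add_distrib, hP.lin.endRows t P.N]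
  simp only [Finset.sum_const, Finset.card_univ, Fintype.card_fin, nsmul_eq_mul]
  unfold slack
  exact le_of_eq (by ring)

/-- Children of a node from a cut on. -/
lemma cuts_energy (hP : P.Ok F) {γ : ℕ → Vec d} {X : ℝ} (hγ0 : γ 0 = 0)
    (hv : Valid P.v P.κ 0 P.N γ) (hpass : ∀ e : P.EIdx, (P.ev e).Pass P.v P.κ γ)
    (hX : ∀ c, c ≤ P.N → ‖γ c‖ ^ 2 ≤ X) {j b t : ℕ} (hj : j ≤ P.J) (hb : b ∈ P.S j) :
    ∀ k x, x ∈ P.S j → x ≤ b → b ≤ x + k → t ≤ x →
      P.energy γ t x - P.energy γ t b ≤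
        P.coefA * (udim P.v P.κ t b - udim P.v P.κ t x) +
          (((P.S j).filter (fun c => x ≤ c ∧ c < b)).card : ℝ) * P.slack X := by
  have hX0 : 0 ≤ X := le_trans (sq_nonneg _) (hX 0 (Nat.zero_le _))
  intro k
  induction k with
  | zero =>
    intro x _ h1 h2 _
    have : x = b := by omega
    subst this
    have := slack_nonneg hP hX0
    simp only [sub_self, mul_zero, zero_add]
    positivity
  | succ k ih =>
    intro x hx h1 h2 h3
    rcases h1.lt_or_eq with hlt | rfl
    · have hc := consec_nextIn hx hb hlt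
      set y := nextIn (P.S j) x
      have hyb : y ≤ b := hc.2.2.2 b hb hlt
      have hyx : x < y := hc.2.2.1
      have a1 := node_energy hP hγ0 hv hpass hX hj hc h3
      have a2 := ih y hc.2.1 hyb (by omega) (by omega)
      have hsub : insert x ((P.S j).filter (fun c => y ≤ c ∧ c < b)) ⊆
          (P.S j).filter (fun c => x ≤ c ∧ c < b) := by
        intro c hc'
        simp only [Finset.mem_insert, Finset.mem_filter] at hc' ⊢
        rcases hc' with rfl | ⟨u1, u2, u3⟩
        · exact ⟨hx, le_rfl, hlt⟩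
        · exact ⟨u1, by omega, u3⟩
      have hcard := Finset.card_le_card hsub
      rw [Finset.card_insert_of_notMem (by simp; omega)] at hcard
      have hcard' : (((P.S j).filter (fun c => y ≤ c ∧ c < b)).card : ℝ) + 1 ≤
          (((P.S j).filter (fun c => x ≤ c ∧ c < b)).card : ℝ) := by exact_mod_cast hcard
      have := mul_le_mul_of_nonneg_right hcard' (slack_nonneg hP hX0)
      linarith
    · have := slack_nonneg hP hX0
      simp only [sub_self, mul_zero, zero_add]
      positivity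

/-- Passing from a node to its child that contains `t`. -/
lemma level_energy (hP : P.Ok F) {γ : ℕ → Vec d} {X : ℝ} (hγ0 : γ 0 = 0)
    (hv : Valid P.v P.κ 0 P.N γ) (hpass : ∀ e : P.EIdx, (P.ev e).Pass P.v P.κ γ)
    (hX : ∀ c, c ≤ P.N → ‖γ c‖ ^ 2 ≤ X) {j a b a' b' t : ℕ} (hj : j < P.J)
    (hab : Consec (P.S j) a b) (hab' : Consec (P.S (j + 1)) a' b') (hat : a ≤ t)
    (htb : t < b) (hat' : a' ≤ t) (htb' : t < b') :
    P.energy γ t b' - P.energy γ t b ≤
      P.coefA * (udim P.v P.κ t b - udim P.v P.κ t b') + 2 * P.slack X +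
        (if j ∈ F then 2 * P.δ * X else 0) := by
  have hX0 : 0 ≤ X := le_trans (sq_nonneg _) (hX 0 (Nat.zero_le _))
  have hs := slack_nonneg hP hX0
  have hδ := hP.δpos
  have hbS : b ∈ P.S (j + 1) := hP.hier.part.mono j hj hab.2.1
  have hb'b : b' ≤ b := hab'.2.2.2 b hbS (by omega)
  have hite : 0 ≤ (if j ∈ F then 2 * P.δ * X else 0) := by
    split_ifs
    · positivity
    · exact le_rfl
  rcases hP.hier.node j hj a b hab with hfew | ⟨hjF, hfree⟩
  · have h1 := cuts_energy hP hγ0 hv hpass hX (t := t) (j := j + 1) hj hbS b b' hab'.2.1 hb'b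
      (by omega) htb'.le
    have hsub : (P.S (j + 1)).filter (fun c => b' ≤ c ∧ c < b) ⊆
        (P.S (j + 1)).filter (fun c => a < c ∧ c < b) := by
      intro c hc
      simp only [Finset.mem_filter] at hc ⊢
      exact ⟨hc.1, by omega, hc.2.2⟩
    have hcard : (((P.S (j + 1)).filter (fun c => b' ≤ c ∧ c < b)).card : ℝ) ≤ 2 := by
      exact_mod_cast (Finset.card_le_card hsub).trans hfew
    have := mul_le_mul_of_nonneg_right hcard hs
    linarith
  · rw [if_pos hjF] at hite ⊢
    rcases hb'b.lt_or_eq with hlt | rfl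
    · have hc := consec_nextIn hab'.2.1 hbS hlt
      set y := nextIn (P.S (j + 1)) b'
      have hyb : y ≤ b := hc.2.2.2 b hbS hlt
      have hb'y : b' < y := hc.2.2.1
      have h1 := node_energy hP hγ0 hv hpass hX (j := j + 1) hj hc htb'.le
      rcases hyb.lt_or_eq with hylt | hye
      · have hfull := hfree b' y hc (by omega) hylt
        obtain ⟨r1, -, r3⟩ := rowVec_spec hP (x := y) (y := b) hylt.le
        have e2 : P.energy γ t y - P.energy γ t b =
            ∑ i, ⟪bwd P.v P.κ t y (P.rowVec y b i), γ t⟫ ^ 2 := by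
          unfold energy
          rw [hP.lin.fwd_comp t y b (γ t) (by omega) hylt.le, r1]
          refine Finset.sum_congr rfl fun i _ => ?_
          rw [real_inner_comm, hP.lin.adj, real_inner_comm]
        have htN : t ≤ P.N := by
          have := consec_right_le hab (hP.subset_top _ hj.le)
          omega
        have h2 : P.energy γ t y - P.energy γ t b ≤
            (udim P.v P.κ t b - udim P.v P.κ t y) * X := by
          rw [e2, ← r3 t (by omega), Finset.sum_mul]
          refine Finset.sum_le_sum fun i _ => ?_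
          have hcs := pow_le_pow_left₀ (abs_nonneg _)
            (abs_real_inner_le_norm (bwd P.v P.κ t y (P.rowVec y b i)) (γ t)) 2
          rw [sq_abs, mul_pow] at hcs
          exact hcs.trans (mul_le_mul_of_nonneg_left (hX t htN) (sq_nonneg _))
        have u1 := hP.lin.ufun.mono a t b b hat (by omega) le_rfl
        have u2 := hP.lin.ufun.mono t b' y y htb'.le hb'y.le le_rfl
        have u3 := hP.lin.ufun.mono t t y b le_rfl (by omega) hylt.le
        have u4 : (udim P.v P.κ t b - udim P.v P.κ t y) * X ≤ 2 * P.δ * X :=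
          mul_le_mul_of_nonneg_right (by linarith) hX0
        have u5 := mul_le_mul_of_nonneg_left
          (show udim P.v P.κ t y - udim P.v P.κ t b' ≤ udim P.v P.κ t b - udim P.v P.κ t b' by
            linarith) (coefA_nonneg hP)
        linarith
      · rw [hye] at h1
        linarith
    · simp only [sub_self, mul_zero, zero_add]
      linarith

lemma energy_self (γ : ℕ → Vec d) (t : ℕ) : P.energy γ t t = ‖γ t‖ ^ 2 := by
  unfold energy
  rw [fwd_of_le (v := P.v) (κ := P.κ) le_rfl]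
  rfl

/-- All levels together. -/
lemma energy_chain (hP : P.Ok F) {γ : ℕ → Vec d} {X : ℝ} (hγ0 : γ 0 = 0)
    (hv : Valid P.v P.κ 0 P.N γ) (hpass : ∀ e : P.EIdx, (P.ev e).Pass P.v P.κ γ)
    (hX : ∀ c, c ≤ P.N → ‖γ c‖ ^ 2 ≤ X) {t : ℕ} (ht : t < P.N) :
    ∀ j, j ≤ P.J → ∀ a b, Consec (P.S j) a b → a ≤ t → t < b →
      P.energy γ t b - P.energy γ t P.N ≤
        P.coefA * (udim P.v P.κ t P.N - udim P.v P.κ t b) + 2 * (j : ℝ) * P.slack X +
          ((F.filter (fun i => i < j)).card : ℝ) * (2 * P.δ * X) := by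
  classical
  intro j
  induction j with
  | zero =>
    intro _ a b hab _ htb
    have hb : b = P.N := by
      have := hab.2.1
      rw [hP.hier.part.zero, Finset.mem_insert, Finset.mem_singleton] at this
      rcases this with h | h
      · omega
      · exact h
    subst hb
    simp
  | succ j ih =>
    intro hj a' b' hab' hat' htb'
    obtain ⟨a, b, hab, hat, htb⟩ := exists_node (t := t) (hP.zero_mem (j := j) (by omega))
      (hP.end_mem (by omega)) ht
    have h1 := ih (by omega) a b hab hat htb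
    have h2 := level_energy hP hγ0 hv hpass hX hj hab hab' hat htb hat' htb'
    have hcard : ((F.filter (fun i => i < j + 1)).card : ℝ) =
        ((F.filter (fun i => i < j)).card : ℝ) + (if j ∈ F then 1 else 0) := by
      split_ifs with hjF
      · have : F.filter (fun i => i < j + 1) = insert j (F.filter (fun i => i < j)) := by
          ext i
          simp only [Finset.mem_filter, Finset.mem_insert]
          constructor
          · intro h
            rcases Nat.lt_succ_iff_lt_or_eq.1 h.2 with h' | h'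
            · exact Or.inr ⟨h.1, h'⟩
            · exact Or.inl h'
          · rintro (rfl | h)
            · exact ⟨hjF, Nat.lt_succ_self _⟩
            · exact ⟨h.1, by omega⟩
        rw [this, Finset.card_insert_of_notMem (by simp)]
        push_cast
        ring
      · have : F.filter (fun i => i < j + 1) = F.filter (fun i => i < j) := by
          refine Finset.filter_congr fun i hi => ?_
          have : i ≠ j := fun h => hjF (h ▸ hi)
          omega
        rw [this, add_zero]
    rw [hcard]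
    push_cast
    split_ifs at h2 ⊢ <;> linarith

/-- The bound on the norm and the linearity of the step at time `t`. -/
lemma path_bounds (hP : P.Ok F) (hvu : ∀ i, ‖P.v i‖ = 1) {γ : ℕ → Vec d} {X : ℝ} (hγ0 : γ 0 = 0)
    (hv : Valid P.v P.κ 0 P.N γ) (hpass : ∀ e : P.EIdx, (P.ev e).Pass P.v P.κ γ)
    (hX : ∀ c, c ≤ P.N → ‖γ c‖ ^ 2 ≤ X) {t : ℕ} (ht : t ≤ P.N) :
    ‖γ t‖ ^ 2 ≤ P.coefA * d + (2 * (P.J : ℝ) + 2) * P.slack X + (d : ℝ) * (2 * P.δ * X) ∧
    (t < P.N → (2 * P.κ - P.κ ^ 2) * ⟪P.v t, γ t⟫ ^ 2 ≤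
      P.coefA * (2 * P.κ - P.κ ^ 2) + P.slack X) := by
  classical
  have hX0 : 0 ≤ X := le_trans (sq_nonneg _) (hX 0 (Nat.zero_le _))
  have hs := slack_nonneg hP hX0
  have hA := coefA_nonneg hP
  have hδ := hP.δpos
  have hJ : (0 : ℝ) ≤ P.J := Nat.cast_nonneg _
  have hJs : 0 ≤ (P.J : ℝ) * P.slack X := mul_nonneg hJ hs
  have hdX : 0 ≤ (d : ℝ) * (2 * P.δ * X) := by positivity
  have hend := end_energy hP hγ0 hv hpass hX ht
  rcases ht.lt_or_eq with htN | rfl
  · have hcon : Consec (P.S P.J) t (t + 1) := by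
      rw [hP.hier.part.top]
      refine ⟨by simp; omega, by simp; omega, by omega, fun c _ hc => hc⟩
    have h1 := node_energy hP hγ0 hv hpass hX le_rfl hcon le_rfl
    have h2 := energy_chain hP hγ0 hv hpass hX htN P.J le_rfl t (t + 1) hcon le_rfl (by omega)
    have hg0 := hP.lin.ufun.nonneg t t
    have hcF : ((F.filter (fun i => i < P.J)).card : ℝ) * (2 * P.δ * X) ≤
        (d : ℝ) * (2 * P.δ * X) := by
      refine mul_le_mul_of_nonneg_right ?_ (by positivity)
      exact_mod_cast (Finset.card_filter_le _ _).trans hP.card_F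
    have hAg := mul_nonneg hA hg0
    rw [energy_self] at h1
    constructor
    · linarith
    · intro _
      have e : P.energy γ t (t + 1) =
          ‖γ t‖ ^ 2 - (2 * P.κ - P.κ ^ 2) * ⟪P.v t, γ t⟫ ^ 2 := by
        unfold energy
        rw [fwd_one]
        linarith [norm_sq_Mop P.κ (P.v t) (γ t) (hvu t)]
      rw [e, hP.lin.step] at h1
      linarith
  · constructor
    · rw [energy_self] at hend
      have := mul_nonneg hA (hP.lin.ufun.nonneg P.N P.N)
      linarith
    · intro h
      exact absurd h (lt_irrefl _)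

end Setup

end Vale.Agent.P262
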