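import Mathlib
import Vale.Agent.P262.Defs
import Vale.Agent.P262.Interface
import Vale.Agent.P262.Lin
import Vale.Agent.P262.Hier
import Vale.Agent.P262.Tests
import Vale.Agent.P262.TestBound
import Vale.Agent.P262.Count

/-! Module D: the choice of the parameters. -/

namespace Vale.Agent.P262

open scoped RealInnerProductSpace

/-- Numerical facts about the parameters; `Q = 2 ^ n`. -/
lemma param_facts {d n J : ℕ} {Q : ℝ} (hQ : Q = 2 ^ n) (hn : 1 ≤ n) (hd : (d : ℝ) + 1 ≤ Q)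
    (hbig : 7680000 ≤ Q) (hJ : J ≤ (d + 1) * (2 * (44 * n) + 4)) :
    (J : ℝ) ≤ Q ^ 3 ∧ (4 / 5 : ℝ) ^ (44 * n) ≤ 1 / Q ^ 11 ∧
      Real.exp (-(60 * (n : ℝ))) ≤ 1 / Q ^ 60 ∧ (n : ℝ) ≤ Q ∧ (2 : ℝ) ^ (10 * n) = Q ^ 10 := by
  have hn' : (n : ℝ) ≤ Q := by
    rw [hQ]; exact_mod_cast (Nat.lt_two_pow_self).le
  have hQ0 : (0 : ℝ) < Q := by linarith
  refine ⟨?_, ?_, ?_, hn', ?_⟩
  · have hJ' : (J : ℝ) ≤ ((d : ℝ) + 1) * (2 * (44 * (n : ℝ)) + 4) := by exact_mod_cast hJ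
    have hn1 : (1 : ℝ) ≤ n := by exact_mod_cast hn
    calc (J : ℝ) ≤ ((d : ℝ) + 1) * (2 * (44 * (n : ℝ)) + 4) := hJ'
      _ ≤ Q * (92 * Q) := mul_le_mul hd (by linarith) (by positivity) hQ0.le
      _ = 92 * Q ^ 2 := by ring
      _ ≤ Q * Q ^ 2 := mul_le_mul_of_nonneg_right (by linarith) (by positivity)
      _ = Q ^ 3 := by ring
  · rw [hQ, ← pow_mul, show 44 * n = 4 * (n * 11) by ring, pow_mul (4 / 5 : ℝ) 4,
      one_div, ← inv_pow]
    exact pow_le_pow_left₀ (by positivity) (by norm_num) _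
  · rw [hQ, ← pow_mul, one_div, ← inv_pow,
      show -(60 * (n : ℝ)) = ((n * 60 : ℕ) : ℝ) * (-1) by push_cast; ring, Real.exp_nat_mul]
    refine pow_le_pow_left₀ (Real.exp_pos _).le ?_ _
    rw [Real.exp_neg]
    refine inv_anti₀ (by norm_num) ?_
    linarith [Real.add_one_le_exp (1 : ℝ)]
  · rw [hQ, ← pow_mul, mul_comm n 10]

theorem testsExist : TestsExist := by
  intro θ hθ
  refine ⟨5431000, ⌈1 / θ⌉₊ + 7680000, ?_⟩
  intro d v hd hv n hn N hN
  classical
  have hn1 : 1 ≤ n := by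
    by_contra h
    have : n = 0 := by omega
    subst this
    simp only [pow_zero] at hn
    omega
  obtain ⟨Q, hQ⟩ : ∃ Q : ℝ, Q = 2 ^ n := ⟨_, rfl⟩
  have hnQ : (d : ℝ) + ((⌈1 / θ⌉₊ : ℕ) : ℝ) + 7680000 ≤ Q := by
    have : ((d + (⌈1 / θ⌉₊ + 7680000) : ℕ) : ℝ) ≤ ((2 ^ n : ℕ) : ℝ) := by exact_mod_cast hn
    push_cast at this
    rw [hQ]
    linarith
  have hθQ : 1 / θ ≤ Q := by
    have := Nat.le_ceil (1 / θ)
    have : (0 : ℝ) ≤ d := Nat.cast_nonneg d
    linarith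
  have hceil : (0 : ℝ) ≤ ((⌈1 / θ⌉₊ : ℕ) : ℝ) := Nat.cast_nonneg _
  have hd1 : (d : ℝ) + 1 ≤ Q := by linarith
  have hd0 : (0 : ℝ) ≤ d := Nat.cast_nonneg d
  have hd' : (1 : ℝ) ≤ d := by exact_mod_cast hd
  have hbig : 7680000 ≤ Q := by linarith
  have hQ0 : 0 < Q := by linarith
  have hQ1 : 1 ≤ Q := by linarith
  have hnR : (1 : ℝ) ≤ n := by exact_mod_cast hn1
  set κ : ℝ := 1 / (7680000 * n) with hκ
  have hκ0 : 0 < κ := by positivity
  have hκ1 : κ ≤ 1 / 4 := by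
    rw [hκ]; gcongr; linarith
  have hlin : Lin v κ := lin_of_facts linFacts hv hκ0 hκ1
  have hnQ' : (n : ℝ) ≤ Q := by rw [hQ]; exact_mod_cast (Nat.lt_two_pow_self).le
  have hκQ : 1 / Q ^ 2 ≤ κ := by
    rw [hκ]; gcongr
    rw [sq]
    exact mul_le_mul hbig hnQ' (by positivity) hQ0.le
  have hc0 : κ ≤ 2 * κ - κ ^ 2 := by nlinarith
  set δ : ℝ := (4 / 5 : ℝ) ^ (44 * n) / 2 with hδ
  have hδQ0 : (4 / 5 : ℝ) ^ (44 * n) ≤ 1 / Q ^ 11 :=
    (param_facts (J := 0) hQ hn1 hd1 hbig (Nat.zero_le _)).2.1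
  have hstep : ∀ t, δ < udim v κ t (t + 1) := by
    intro t
    rw [hlin.step]
    have h1 : 1 / Q ^ 11 ≤ 1 / Q ^ 2 := by
      exact one_div_le_one_div_of_le (by positivity) (pow_le_pow_right₀ hQ1 (by norm_num))
    have h2 : (0 : ℝ) < (4 / 5) ^ (44 * n) := by positivity
    linarith
  obtain ⟨S, F, J, hH, hF, hJ⟩ :=
    hierExists (udim v κ) d N (44 * n) hlin.ufun hd hN (by omega) hstep
  obtain ⟨hJQ, hδQ, hexp, -, hpow⟩ := param_facts hQ hn1 hd1 hbig hJ
  set P : Setup d := ⟨v, κ, S, J, N, 10 * n, 1 / 2 ^ (10 * n), δ, 60 * n⟩ with hP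
  have hτ : P.τ₀ = 1 / Q ^ 10 := by simp only [hP, hpow]
  have hOk : P.Ok F :=
    { lin := hlin
      hier := hH
      card_F := hF
      kpos := hκ0
      kle := hκ1
      τpos := by rw [hτ]; positivity
      two_δ := by
        rw [hτ]
        have h1 : 1 / Q ^ 11 ≤ 1 / Q ^ 10 := by
          exact one_div_le_one_div_of_le (by positivity) (pow_le_pow_right₀ hQ1 (by norm_num))
        simp only [hP, hδ]
        linarith
      δpos := by simp only [hP, hδ]; positivity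
      Lge := by simp only [hP]; linarith
      cover := le_of_eq (by simp only [hP]; field_simp)
      Npos := hN }
  let enum : Fin (Fintype.card P.EIdx) ≃ P.EIdx := (Fintype.equivFin P.EIdx).symm
  refine ⟨κ, S, J, Fintype.card P.EIdx, fun i => P.ev (enum i), 1 / Q ^ 40,
    hκ0, hκ1, hH.part, fun i => Setup.ev_adm hOk (enum i), by positivity, ?_, ?_, ?_⟩
  · have hs : Real.sqrt (1 / Q ^ 40) = 1 / Q ^ 20 := by
      rw [show 1 / Q ^ 40 = (1 / Q ^ 20) ^ 2 by rw [div_pow, one_pow, ← pow_mul],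
        Real.sqrt_sq (by positivity)]
    rw [hs]
    calc ((J : ℝ) + 1) * (1 / Q ^ 20) ≤ Q ^ 4 * (1 / Q ^ 20) := by
          gcongr
          have : (2 : ℝ) * Q ^ 3 ≤ Q * Q ^ 3 :=
            mul_le_mul_of_nonneg_right (by linarith) (by positivity)
          have : (1 : ℝ) ≤ Q ^ 3 := one_le_pow₀ hQ1
          linarith [show Q * Q ^ 3 = Q ^ 4 by ring]
      _ = 1 / Q ^ 16 := by field_simp
      _ ≤ 1 / Q := by gcongr; exact le_self_pow₀ hQ1 (by norm_num)
      _ ≤ θ := by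
          rw [one_div_le hQ0 hθ]; exact hθQ
  · intro j hj a b hab
    have h := Setup.count_bound hOk hj hab
    have hsum : ∑ i ∈ Finset.univ.filter (fun i => Crosses S J j a b (P.ev (enum i))),
        Real.exp (-(P.ev (enum i)).lam) =
        ∑ e ∈ Finset.univ.filter (fun e => Crosses P.S P.J j a b (P.ev e)),
          Real.exp (-(P.ev e).lam) :=
      Finset.sum_equiv enum (fun i => by simp [hP]) (fun i _ => rfl)
    refine (le_of_eq hsum).trans (h.trans ?_)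
    simp only [hP, hpow]
    push_cast
    calc 12 * ((J : ℝ) + 2) * d * (10 * (n : ℝ) + 1) / (1 / Q ^ 10) *
          Real.exp (-(60 * (n : ℝ)))
        ≤ 12 * (3 * Q ^ 3) * Q * (11 * Q) / (1 / Q ^ 10) * (1 / Q ^ 60) := by
          have : (1 : ℝ) ≤ Q ^ 3 := one_le_pow₀ hQ1
          gcongr <;> linarith
      _ = 396 / Q ^ 45 := by field_simp; ring
      _ ≤ Q ^ 5 / Q ^ 45 := by
          gcongr
          exact le_trans (by linarith) (le_self_pow₀ hQ1 (by norm_num : (5 : ℕ) ≠ 0))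
      _ = 1 / Q ^ 40 := by field_simp
  · intro γ hγ0 hval hpass
    have hpass' : ∀ e : P.EIdx, (P.ev e).Pass P.v P.κ γ := by
      intro e
      have := hpass (enum.symm e)
      simpa [hP] using this
    obtain ⟨m, hm, hmax⟩ := Finset.exists_max_image (Finset.range (N + 1))
      (fun c => ‖γ c‖ ^ 2) ⟨0, by simp⟩
    set X := ‖γ m‖ ^ 2 with hX
    have hXle : ∀ c, c ≤ P.N → ‖γ c‖ ^ 2 ≤ X := fun c hc =>
      hmax c (Finset.mem_range.2 (Nat.lt_succ_of_le hc))
    have hb : ∀ t, t ≤ N → _ := fun t ht =>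
      Setup.path_bounds hOk hv hγ0 hval hpass' hXle (t := t) ht
    have hA0 : 0 ≤ P.coefA := Setup.coefA_nonneg hOk
    have hX0 : 0 ≤ X := sq_nonneg _
    have hsig : sig2 κ ≤ 1 / κ := by
      unfold sig2; gcongr
    have hA : P.coefA ≤ 16000 * 60 * 7680000 * (n : ℝ) ^ 2 := by
      calc P.coefA = 16000 * (60 * (n : ℝ) * sig2 κ) := rfl
        _ ≤ 16000 * (60 * (n : ℝ) * (1 / κ)) := by gcongr
        _ = _ := by rw [hκ]; field_simp
    -- the loss terms are small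
    have hE : (2 * (J : ℝ) + 2) * ((d : ℝ) * P.τ₀) ≤ 1 / 8 := by
      rw [hτ]
      calc (2 * (J : ℝ) + 2) * ((d : ℝ) * (1 / Q ^ 10)) ≤ 4 * Q ^ 3 * (Q * (1 / Q ^ 10)) := by
            have : (1 : ℝ) ≤ Q ^ 3 := one_le_pow₀ hQ1
            gcongr <;> linarith
        _ = 4 / Q ^ 6 := by field_simp
        _ ≤ 4 / 32 := by
            gcongr
            exact le_trans (by linarith) (le_self_pow₀ hQ1 (by norm_num : (6 : ℕ) ≠ 0))
        _ = 1 / 8 := by norm_num
    have hD : (d : ℝ) * (2 * δ) ≤ 1 / 8 := by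
      calc (d : ℝ) * (2 * δ) ≤ Q * (1 / Q ^ 11) :=
            mul_le_mul (by linarith) (by linarith) (by rw [hδ]; positivity) hQ0.le
        _ = 1 / Q ^ 10 := by field_simp
        _ ≤ 1 / 8 := by
            gcongr
            exact le_trans (by linarith) (le_self_pow₀ hQ1 (by norm_num : (10 : ℕ) ≠ 0))
    have hXA : X ≤ 4 * P.coefA * d := by
      have h := (hb m (Nat.lt_succ_iff.1 (Finset.mem_range.1 hm))).1
      simp only [Setup.slack] at h
      have h1 : (2 * (J : ℝ) + 2) * ((d : ℝ) * P.τ₀ * (2 * X + P.coefA)) ≤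
          1 / 8 * (2 * X + P.coefA) := by
        rw [← mul_assoc]
        exact mul_le_mul_of_nonneg_right hE (by linarith)
      have h2 : (d : ℝ) * (2 * δ * X) ≤ 1 / 8 * X := by
        rw [← mul_assoc]
        exact mul_le_mul_of_nonneg_right hD hX0
      have h3 : P.coefA ≤ P.coefA * d := le_mul_of_one_le_right hA0 hd'
      simp only [hP] at h h1 ⊢
      linarith
    constructor
    · intro t ht
      have h := (hb t ht.le).2 ht
      simp only [Setup.slack] at h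
      have h1 : (d : ℝ) * P.τ₀ * (2 * X + P.coefA) ≤ P.coefA * κ := by
        calc (d : ℝ) * P.τ₀ * (2 * X + P.coefA)
            ≤ Q * P.τ₀ * (9 * Q * P.coefA) := by
              have h5 : P.coefA * d ≤ P.coefA * Q := mul_le_mul_of_nonneg_left (by linarith) hA0
              have h6 : P.coefA ≤ P.coefA * Q := le_mul_of_one_le_right hA0 hQ1
              have hτ0 := hOk.τpos
              gcongr <;> linarith
          _ = P.coefA * (9 / Q ^ 8) := by rw [hτ]; field_simp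
          _ ≤ P.coefA * κ := by
              refine mul_le_mul_of_nonneg_left (le_trans ?_ hκQ) hA0
              rw [div_le_div_iff₀ (by positivity) (by positivity)]
              have h9 : 9 ≤ Q ^ 6 :=
                le_trans (by linarith) (le_self_pow₀ hQ1 (by norm_num : (6 : ℕ) ≠ 0))
              calc 9 * Q ^ 2 ≤ Q ^ 6 * Q ^ 2 := by gcongr
                _ = 1 * Q ^ 8 := by ring
      have hpos : 0 < 2 * κ - κ ^ 2 := lt_of_lt_of_le hκ0 hc0
      have h2 : ⟪v t, γ t⟫ ^ 2 ≤ 2 * P.coefA := by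
        refine le_of_mul_le_mul_left ?_ hpos
        have := mul_le_mul_of_nonneg_left hc0 hA0
        simp only [hP] at h h1 this ⊢
        linarith
      have h3 : (κ * ⟪v t, γ t⟫) ^ 2 ≤ (1 / 2) ^ 2 := by
        calc (κ * ⟪v t, γ t⟫) ^ 2 = κ ^ 2 * ⟪v t, γ t⟫ ^ 2 := by ring
          _ ≤ κ ^ 2 * (2 * (16000 * 60 * 7680000 * (n : ℝ) ^ 2)) := by gcongr; linarith
          _ = 2 * 16000 * 60 / 7680000 := by rw [hκ]; field_simp
          _ = (1 / 2) ^ 2 := by norm_num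
      exact abs_le_of_sq_le_sq h3 (by norm_num)
    · intro t ht
      have h1 : ‖γ t‖ ^ 2 ≤ ((5431000 : ℝ) * n * Real.sqrt d) ^ 2 := by
        rw [mul_pow, mul_pow, Real.sq_sqrt hd0]
        calc ‖γ t‖ ^ 2 ≤ X := hXle t ht
          _ ≤ 4 * P.coefA * d := hXA
          _ ≤ 4 * (16000 * 60 * 7680000 * (n : ℝ) ^ 2) * d := by gcongr
          _ = 29491200000000 * (n : ℝ) ^ 2 * d := by ring
          _ ≤ (5431000 : ℝ) ^ 2 * (n : ℝ) ^ 2 * d := by
              gcongr; norm_num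
      have h2 := Real.sqrt_le_sqrt h1
      rw [Real.sqrt_sq (norm_nonneg _), Real.sqrt_sq (by positivity)] at h2
      simpa using h2

end Vale.Agent.P262
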